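import Vale.Agent.P290Z.Spec1
import Vale.Agent.P290Z.Inv.Loc

/-! INV: the inverse of an etale spray. -/

open Set Filter Metric
open scoped Topology Manifold ContDiff

namespace Vale.Agent.P290Z

open Vale.Agent.P290

theorem inv : StInv := by
  intro V X _ _ _ _ _ _ Z hZ G hG hE ρ₀ hρ₀
  classical
  let Φ : V × C2 → V × X := fun z => (z.1, G z)
  let N : Set (V × C2) := {y | (∀ᶠ z in 𝓝 y, MD G z) ∧ All.Etale (fun s => G (y.1, s)) y.2}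
  have hZ' : IsCompact (Z ×ˢ {(0 : C2)}) := hZ.prod isCompact_singleton
  have hN : ∀ y ∈ Z ×ˢ {(0 : C2)}, y ∈ N := by
    rintro ⟨x, s⟩ ⟨hx, hs⟩
    obtain rfl : s = 0 := hs
    exact ⟨eventually_nhdsSet_iff_forall.1 hG _ ⟨hx, rfl⟩, hE x hx⟩
  have hNo : IsOpen N := isOpen_iff_mem_nhds.2 fun y hy =>
    hy.1.eventually_nhds.and (Inv.etale_eventually hy.1 hy.2)
  have hc : ∀ y ∈ N, ContinuousAt Φ y := fun y hy =>
    continuousAt_fst.prodMk (MDifferentiableAt.continuousAt hy.1.self_of_nhds)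
  obtain ⟨T₀, hT₀, hinj⟩ : ∃ t ∈ 𝓝ˢ (Z ×ˢ {(0 : C2)}), InjOn Φ t := by
    refine Set.InjOn.exists_mem_nhdsSet ?_ hZ' (fun y hy => hc y (hN y hy)) fun y hy => ?_
    · rintro ⟨x, s⟩ ⟨-, hs⟩ ⟨x', s'⟩ ⟨-, hs'⟩ h
      exact Prod.ext (congrArg Prod.fst h :) (hs.trans hs'.symm)
    · obtain ⟨σ, h1, -⟩ := Inv.exists_local_inv (hN y hy).1 (hN y hy).2
      exact ⟨_, h1, fun z hz z' hz' h => hz.symm.trans ((congrArg σ h).trans hz')⟩
  obtain ⟨T₁, hT₁o, hZT₁, hT₁⟩ := mem_nhdsSet_iff_exists.1 hT₀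
  obtain ⟨U, B, hUo, hBo, hZU, h0B, hUB⟩ := generalized_tube_lemma hZ isCompact_singleton
    (hT₁o.inter hNo) fun y hy => ⟨hZT₁ hy, hN y hy⟩
  obtain ⟨ρ₁, hρ₁, hball⟩ := Metric.isOpen_iff.1 hBo 0 (h0B rfl)
  set T : Set (V × C2) := U ×ˢ ball (0 : C2) (min ρ₀ ρ₁) with hT
  have hTo : IsOpen T := hUo.prod isOpen_ball
  have hTs : T ⊆ T₁ ∩ N := fun y hy =>
    hUB ⟨hy.1, hball (ball_subset_ball (min_le_right _ _) hy.2)⟩
  have hi : InjOn Φ T := hinj.mono fun y hy => hT₁ (hTs hy).1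
  have hl : ∀ y ∈ T, Function.invFunOn Φ T (Φ y) = y := fun y hy => hi.leftInvOn_invFunOn hy
  have key : ∀ y ∈ T, ∃ σ : V × X → V × C2,
      (∀ᶠ p in 𝓝 (Φ y), p ∈ Φ '' T ∧ Function.invFunOn Φ T p = σ p) ∧ ContinuousAt σ (Φ y) ∧
      ∀ (W : Type) [NormedAddCommGroup W] [NormedSpace ℂ W] (a : W → V) (b : W → X) (w : W),
        DifferentiableAt ℂ a w → MD b w →
        (a w, b w) = Φ y → DifferentiableAt ℂ (fun u => σ (a u, b u)) w := by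
    intro y hy
    obtain ⟨σ, h1, h2, h3, h4⟩ := Inv.exists_local_inv (hTs hy).2.1 (hTs hy).2.2
    refine ⟨σ, ?_, h3, h4⟩
    have h5 : ∀ᶠ p in 𝓝 (Φ y), σ p ∈ T :=
      h3.eventually (hTo.mem_nhds (by rw [h1.self_of_nhds]; exact hy))
    filter_upwards [h2, h5] with p a1 a2
    refine ⟨⟨σ p, a2, a1⟩, ?_⟩
    have := hl _ a2
    rwa [show Φ (σ p) = p from a1] at this
  refine ⟨min ρ₀ ρ₁, lt_min hρ₀ hρ₁, min_le_left _ _, U, Φ '' T,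
    fun p => (Function.invFunOn Φ T p).2, hUo, hZU, ?_, ?_, ?_, ?_, ?_⟩
  · refine isOpen_iff_mem_nhds.2 ?_
    rintro _ ⟨y, hy, rfl⟩
    obtain ⟨σ, h1, -⟩ := key y hy
    exact h1.mono fun p hp => hp.1
  · rintro W _ _ a b w ha hb ⟨y, hy, e⟩
    obtain ⟨σ, h1, -, h3⟩ := key y hy
    refine (h3 W a b w ha hb e.symm).snd.congr_of_eventuallyEq ?_
    have h4 : Tendsto (fun u => (a u, b u)) (𝓝 w) (𝓝 (Φ y)) := by
      rw [e]
      exact ha.continuousAt.prodMk (MDifferentiableAt.continuousAt hb)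
    filter_upwards [h4.eventually h1] with u hu
    rw [hu.2]
  · rintro _ ⟨y, hy, rfl⟩
    obtain ⟨σ, h1, h2, -⟩ := key y hy
    refine ContinuousAt.continuousWithinAt (h2.snd.congr ?_)
    filter_upwards [h1] with p hp
    rw [hp.2]
  · intro x hx s hs
    have hy : (x, s) ∈ T := ⟨hx, mem_ball_zero_iff.2 hs⟩
    exact ⟨(hTs hy).2.1.self_of_nhds, (hTs hy).2.2, ⟨_, hy, rfl⟩, congrArg Prod.snd (hl _ hy)⟩
  · rintro _ ⟨y, hy, rfl⟩
    simp only [hl y hy]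
    exact ⟨hy.1, mem_ball_zero_iff.1 hy.2, rfl⟩

end Vale.Agent.P290Z
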