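import Vale.Agent.P290Z.Spec1
import Vale.Agent.P290Z.Inv.Loc

/-! SPR: etale sprays over compact convex sets. -/

open Set Filter Metric
open scoped Topology Manifold ContDiff

namespace Vale.Agent.P290Z

open Vale.Agent.P290 Vale.Agent.P290.H805

namespace Spr

/-- the product with a point -/
def uh : C2 ≃ₜ Unit × C2 where
  toFun v := ((), v)
  invFun := Prod.snd
  left_inv _ := rfl
  right_inv _ := rfl
  continuous_toFun := by fun_prop
  continuous_invFun := continuous_snd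

/-- a surface as a family over a point -/
noncomputable def fam (X : Type) [TopologicalSpace X] [ChartedSpace C2 X]
    [IsManifold 𝓘(ℂ, C2) ω X] : Family Unit X where
  p := fun _ => ()
  triv x := (chartAt C2 x).transHomeomorph uh
  mem x := mem_chart_source C2 x
  fst := fun _ _ _ => rfl
  hol := fun _ _ _ _ h h' => Inv.trans_contDiffAt h h'

variable {V X : Type} [NormedAddCommGroup V] [NormedSpace ℂ V] [TopologicalSpace X]
  [ChartedSpace C2 X] [IsManifold 𝓘(ℂ, C2) ω X]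

theorem fh_iff {u : V → X} {z : V} : FH (fam X) () u z ↔ MD u z :=
  ⟨fun h => Inv.md_iff.2 h.2, fun h => ⟨Eventually.of_forall fun _ => rfl, Inv.md_iff.1 h⟩⟩

theorem inj_of_near {g : C2 → C2} {v : C2} (hg : DifferentiableAt ℂ g v)
    (h : ‖fderiv ℂ (fun w => g w - w) v‖ ≤ 1 / 4) : Function.Injective (fderiv ℂ g v) := by
  refine (injective_iff_map_eq_zero _).2 fun η hη => ?_
  have h1 : fderiv ℂ (fun w => g w - w) v = fderiv ℂ g v - ContinuousLinearMap.id ℂ C2 :=
    (hg.hasFDerivAt.sub (hasFDerivAt_id v)).fderiv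
  have h2 := (fderiv ℂ (fun w => g w - w) v).le_of_opNorm_le h η
  rw [h1, sub_apply, hη, zero_sub, norm_neg,
    ContinuousLinearMap.id_apply] at h2
  have h3 := norm_nonneg η
  exact norm_eq_zero.1 (by linarith)

/-- tubes are etale -/
theorem etale_tube (D : Tube (fam X) V ()) {r : ℝ} {u : V × C2 → X} {x : V} {j : D.J}
    (hj : x ∈ D.N j) (hu : ∀ w ∈ ball (0 : C2) 1, FH (fam X) () u (x, w))
    (hc : ∀ w ∈ ball (0 : C2) 1, D.Cl (1 / 16) r (x, w) (u (x, w))) {v : C2}
    (hv : ‖v‖ < 1 / 2) : All.Etale (fun w => u (x, w)) v := by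
  have h1 : ∀ w ∈ ball (0 : C2) 1, FH (fam X) () (fun w => u (x, w)) w := fun w hw =>
    FH.comp (q := fun w : C2 => (x, w)) (hu w hw) (by fun_prop)
  have h2 : ∀ w ∈ ball (0 : C2) 1,
      DifferentiableAt ℂ (fun w => D.k j r x (u (x, w))) w := fun w hw =>
    D.k_diff (q := fun _ : C2 => x) (by fun_prop) (h1 w hw) (D.sub j hj) (hc w hw j hj).1
  have hv' : v ∈ ball (0 : C2) 1 := mem_ball_zero_iff.2 (by linarith)
  have h3 := inj_of_near (h2 v hv') (fderiv_le_of_bound (w := 0) (ρ := 1) (δ := 1 / 16) one_pos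
    (fun w hw => ((h2 w hw).sub differentiableAt_id).differentiableWithinAt)
    (fun w hw => (hc w hw j hj).2.le) (by norm_num) (mem_ball_zero_iff.2 hv))
  have h4 : DifferentiableAt ℂ (fun w => chartAt C2 (D.x j) (u (x, w))) v :=
    (h1 v hv').diff (hc v hv' j hj).1
  refine Inv.etale_of_chart (x := D.x j) (h1 v hv').2.1 (hc v hv' j hj).1 h4 ?_
  have h5 : HasFDerivAt (fun w => D.k j r x (u (x, w)))
      (((r⁻¹ : ℝ) : ℂ) • (D.ζ j x).comp
        (fderiv ℂ (fun w => chartAt C2 (D.x j) (u (x, w))) v)) v :=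
    (((D.ζ j x).hasFDerivAt.comp v (h4.hasFDerivAt.sub_const (D.c j x))).const_smul
      ((r⁻¹ : ℝ) : ℂ))
  rw [h5.fderiv] at h3
  intro a b hab
  apply h3
  simp only [smul_apply, ContinuousLinearMap.comp_apply, hab]

end Spr

theorem spr' : StSpr := by
  intro V X _ _ _ _ _ _ K hK g hg
  have : ProperSpace V := FiniteDimensional.proper ℂ V
  obtain ⟨R, hRo, hKR, hR⟩ := mem_nhdsSet_iff_exists.1 hg
  obtain ⟨η, hη, hηR⟩ := hK.1.exists_cthickening_subset_open hRo hKR
  set K₁ := cthickening η K with hK₁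
  have gK : Good K₁ := ⟨hK.1.cthickening, hK.2.cthickening η⟩
  have hKi : K ⊆ interior K₁ := (self_subset_thickening hη K).trans
    (interior_maximal (thickening_subset_cthickening η K) isOpen_thickening)
  have hg₁ : ∀ᶠ z in 𝓝ˢ K₁, FH (Spr.fam X) () g z := by
    filter_upwards [hRo.mem_nhdsSet.2 hηR] with z hz using Spr.fh_iff.2 (hR hz)
  obtain ⟨D, rfl, hD⟩ := exists_tube gK hg₁
  obtain ⟨r₀, hr₀, h⟩ := R2.H596.tube Unit X (Spr.fam X) V () D K₁ gK hD (1 / 16) (by norm_num)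
  obtain ⟨u, hu, hc⟩ := h (r₀ / 2) (by positivity) (by linarith)
  have hcov : ∀ x ∈ K₁, ∃ j, x ∈ D.N j := fun x hx => by
    obtain ⟨j, hj⟩ := mem_iUnion.1 (hD hx)
    exact ⟨j, interior_subset hj⟩
  obtain ⟨e, he⟩ := D.exists_transition (r := r₀ / 2) (by positivity) (t := ())
    (A' := K₁ ×ˢ closedBall (0 : C2) 1) (B' := K₁ ×ˢ ball (0 : C2) (1 / 16))
    (u := u) (u' := fun y => D.u₀ y.1) hu
    (by
      filter_upwards [(hRo.preimage continuous_fst).mem_nhdsSet.2 fun y hy => hηR hy.1] with y hy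
      exact FH.comp (q := fun y : V × C2 => y.1) (Spr.fh_iff.2 (hR hy)) (by fun_prop))
    (δ := 1 / 16) (ρ := 1 / 2) (by norm_num) (by norm_num) hc
    (fun y hy j hj => ⟨D.src j _ (D.sub j hj), by
      simpa [Tube.k, Tube.c] using hy.2⟩)
    (W := interior K₁ ×ˢ ball (0 : C2) (1 / 16)) (isOpen_interior.prod isOpen_ball)
    (fun y hy c hc => ⟨interior_subset hy.1, mem_closedBall_zero_iff.2 (by
      have h1 := mem_ball_zero_iff.1 hy.2
      have h2 := norm_add_le y.2 c
      change ‖y.2 + c‖ ≤ 1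
      linarith)⟩)
    (fun y hy => ⟨interior_subset hy.1, hy.2⟩) (fun y hy => hcov _ (interior_subset hy.1))
  have he' : ∀ x ∈ interior K₁, DifferentiableAt ℂ (fun x => e (x, 0)) x ∧
      ‖e (x, 0)‖ ≤ 1 / 8 ∧ u (x, e (x, 0) + 0) = D.u₀ x := by
    intro x hx
    obtain ⟨h1, h2, h3⟩ := he (x, 0) ⟨hx, mem_ball_self (by norm_num)⟩
    refine ⟨DifferentiableAt.comp (g := e) (f := fun x : V => (x, (0 : C2))) x h1 (by fun_prop),
      by linarith, ?_⟩
    rw [add_comm]
    exact h3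
  refine ⟨fun y => u (y.1, e (y.1, 0) + y.2), ?_, ?_, fun x hx => ?_⟩
  · have h1 : K ×ˢ {(0 : C2)} ⊆ interior K₁ ×ˢ ball (0 : C2) (1 / 2) := by
      rintro ⟨x, s⟩ ⟨hx, hs⟩
      obtain rfl : s = 0 := hs
      exact ⟨hKi hx, mem_ball_self (by norm_num)⟩
    filter_upwards [(isOpen_interior.prod isOpen_ball).mem_nhdsSet.2 h1] with y hy
    obtain ⟨a1, a2, -⟩ := he' y.1 hy.1
    refine Spr.fh_iff.1 (FH.comp (q := fun y : V × C2 => (y.1, e (y.1, 0) + y.2))
      (hu.self_of_nhdsSet _ ⟨interior_subset hy.1, mem_closedBall_zero_iff.2 ?_⟩) ?_)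
    · have h2 := mem_ball_zero_iff.1 hy.2
      have h3 := norm_add_le (e (y.1, 0)) y.2
      linarith
    · exact differentiableAt_fst.prodMk ((DifferentiableAt.comp (g := fun x => e (x, 0))
        (f := fun y : V × C2 => y.1) y a1 differentiableAt_fst).add differentiableAt_snd)
  · filter_upwards [isOpen_interior.mem_nhdsSet.2 hKi] with x hx using (he' x hx).2.2
  · obtain ⟨-, a2, -⟩ := he' x (hKi hx)
    have hx₁ : x ∈ K₁ := interior_subset (hKi hx)
    obtain ⟨j, hj⟩ := hcov x hx₁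
    refine Inv.etale_comp (f := fun w => u (x, w)) (q := fun s => e (x, 0) + s)
      (Spr.etale_tube D hj
        (fun w hw => hu.self_of_nhdsSet _ ⟨hx₁, ball_subset_closedBall hw⟩)
        (fun w hw => hc _ ⟨hx₁, ball_subset_closedBall hw⟩) (by rw [add_zero]; linarith))
      (by fun_prop) ?_
    have h1 : HasFDerivAt (fun s : C2 => e (x, 0) + s) (ContinuousLinearMap.id ℂ C2) 0 :=
      (hasFDerivAt_id (0 : C2)).const_add (e (x, 0))
    rw [h1.fderiv]
    exact fun _ _ h => h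

theorem spr : StInv → StSpr := fun _ => spr'

end Vale.Agent.P290Z
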