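import Vale.Agent.P290Z.Two.A

/-! P290Z: the fibres near a fibre dominated by a torus. -/

open Set Filter Metric
open scoped Topology Manifold ContDiff

namespace Vale.Agent.P290Z

open Vale.Agent.P290 Vale.Agent.P290.H805 Vale.Agent.P290.R2.H596

namespace Tw

variable {T E : Type} [TopologicalSpace T] [TopologicalSpace E] {F : Family T E}

/-- the centre of a disc whose boundary lies in the interior of `OmE` is an interior point -/
theorem disc_nhds (hD : StDisc) [T2Space E] (hp : IsProperMap F.p) {s : T} {x : E} {g : ℂ → E}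
    (g0 : g 0 = x) (hg : ∀ c : ℂ, ‖c‖ ≤ 1 → FH F s g c ∧ g c ∈ (F.triv x).source)
    (hb : ∀ c : ℂ, ‖c‖ = 1 → OmE F ∈ 𝓝 (g c)) : OmE F ∈ 𝓝 x := by
  have hxs : F.p x = s := by
    rw [← g0]; exact (hg 0 (by simp)).1.1.self_of_nhds
  -- a smaller circle
  have h1 : ∀ᶠ r : ℝ in 𝓝 1, ∀ c ∈ sphere (0 : ℂ) 1, g ((r : ℂ) * c) ∈ interior (OmE F) := by
    refine (isCompact_sphere (0 : ℂ) 1).eventually_forall_of_forall_eventually fun c hc => ?_
    have hc1 : ‖c‖ = 1 := mem_sphere_zero_iff_norm.1 hc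
    have a1 : ContinuousAt (fun q : ℝ × ℂ => g ((q.1 : ℂ) * q.2)) (1, c) :=
      ContinuousAt.comp (g := g) (f := fun q : ℝ × ℂ => (q.1 : ℂ) * q.2)
        (by simpa using (hg c hc1.le).1.2.1) (by fun_prop)
    refine a1.eventually (isOpen_interior.mem_nhds ?_)
    simpa using mem_interior_iff_mem_nhds.2 (hb c hc1)
  obtain ⟨r, hr, r0, r1⟩ : ∃ r : ℝ, (∀ c ∈ sphere (0 : ℂ) 1, g ((r : ℂ) * c) ∈ interior (OmE F)) ∧
      0 < r ∧ r < 1 :=
    ((h1.filter_mono nhdsWithin_le_nhds).and (Ioo_mem_nhdsLT (zero_lt_one' ℝ))).exists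
  -- the moved discs
  set Ψ : E × ℂ → T × C2 := fun q =>
    (F.p q.1, (F.triv x (g q.2)).2 + ((F.triv x q.1).2 - (F.triv x x).2)) with hΨ
  have hΨc : ∀ c : ℂ, ‖c‖ ≤ 1 → ContinuousAt Ψ (x, c) := fun c hc => by
    refine ContinuousAt.prodMk (hp.continuous.comp continuous_fst).continuousAt ?_
    refine ContinuousAt.add ?_ (ContinuousAt.sub ?_ continuousAt_const)
    · exact ContinuousAt.comp (g := fun c => (F.triv x (g c)).2) (f := Prod.snd) (x := (x, c))
        ((hg c hc).1.diff (hg c hc).2).continuousAt continuous_snd.continuousAt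
    · exact ContinuousAt.comp (g := fun y => (F.triv x y).2) (f := Prod.fst) (x := (x, c))
        (continuous_snd.continuousAt.comp ((F.triv x).continuousAt (F.mem x)))
        continuous_fst.continuousAt
  have hΨx : ∀ c : ℂ, ‖c‖ ≤ 1 → Ψ (x, c) = F.triv x (g c) := fun c hc => by
    rw [F.mk_eq x (hg c hc).2, (hg c hc).1.1.self_of_nhds]
    simp [hΨ, hxs]
  have hΨt : ∀ c : ℂ, ‖c‖ ≤ 1 → Ψ (x, c) ∈ (F.triv x).target := fun c hc => by
    rw [hΨx c hc]; exact (F.triv x).map_source (hg c hc).2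
  have h2 : ∀ᶠ y in 𝓝 x, ∀ c ∈ closedBall (0 : ℂ) 1, Ψ (y, c) ∈ (F.triv x).target :=
    (isCompact_closedBall (0 : ℂ) 1).eventually_forall_of_forall_eventually fun c hc =>
      (hΨc c (mem_closedBall_zero_iff.1 hc)).eventually
        ((F.triv x).open_target.mem_nhds (hΨt c (mem_closedBall_zero_iff.1 hc)))
  have hrc : ∀ c : ℂ, ‖(r : ℂ) * c‖ = r * ‖c‖ := fun c => by
    rw [norm_mul, Complex.norm_real, Real.norm_of_nonneg r0.le]
  have h3 : ∀ᶠ y in 𝓝 x, ∀ c ∈ sphere (0 : ℂ) r, (F.triv x).symm (Ψ (y, c)) ∈ OmE F := by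
    refine (isCompact_sphere (0 : ℂ) r).eventually_forall_of_forall_eventually fun c hc => ?_
    have hc1 : ‖c‖ = r := mem_sphere_zero_iff_norm.1 hc
    have hc2 : ‖c‖ ≤ 1 := by rw [hc1]; exact r1.le
    have a1 : ContinuousAt (fun q => (F.triv x).symm (Ψ q)) (x, c) :=
      ContinuousAt.comp (g := (F.triv x).symm) (f := Ψ)
        ((F.triv x).continuousAt_symm (hΨt c hc2)) (hΨc c hc2)
    refine a1.eventually (p := fun y => y ∈ OmE F) ?_
    change OmE F ∈ 𝓝 ((F.triv x).symm (Ψ (x, c)))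
    rw [hΨx c hc2, (F.triv x).left_inv (hg c hc2).2]
    have hr0 : (r : ℂ) ≠ 0 := by exact_mod_cast r0.ne'
    have a2 := hr ((r : ℂ)⁻¹ * c) (by
      rw [mem_sphere_zero_iff_norm, norm_mul, norm_inv, Complex.norm_real,
        Real.norm_of_nonneg r0.le, hc1, inv_mul_cancel₀ r0.ne'])
    rw [mul_inv_cancel_left₀ hr0] at a2
    exact mem_interior_iff_mem_nhds.1 a2
  filter_upwards [h2, h3, (F.triv x).open_source.mem_nhds (F.mem x)] with y a2 a3 a4
  have := t2_fib F (F.p y)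
  have := compact_fib F hp (F.p y)
  set u : ℂ → E := fun c => (F.triv x).symm (Ψ (y, (r : ℂ) * c)) with hu
  have hfu : ∀ c : ℂ, r * ‖c‖ ≤ 1 → FH F (F.p y) u c := fun c hc => by
    rw [← hrc] at hc
    refine FH.mk_symm (v := fun c : ℂ => (Ψ (y, (r : ℂ) * c)).2) ?_
      (a2 _ (mem_closedBall_zero_iff.2 hc))
    have b1 : DifferentiableAt ℂ (fun c : ℂ => (F.triv x (g ((r : ℂ) * c))).2) c :=
      DifferentiableAt.comp (g := fun c => (F.triv x (g c)).2) (f := fun c : ℂ => (r : ℂ) * c)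
        c ((hg _ hc).1.diff (hg _ hc).2) (by fun_prop)
    simp only [hΨ]
    exact b1.add_const _
  have hN : HN (closedBall (0 : ℂ) 1) (lift (⟨y, rfl⟩ : Fib F (F.p y)) u) := by
    have ho : IsOpen {c : ℂ | r * ‖c‖ < 1} := isOpen_lt (by fun_prop) continuous_const
    refine mem_of_superset (ho.mem_nhdsSet.2 fun c hc => ?_)
      fun c hc => md_lift _ (hfu c (le_of_lt hc))
    have := mem_closedBall_zero_iff.1 hc
    change r * ‖c‖ < 1
    nlinarith
  have a5 := hD (Fib F (F.p y)) _ hN (fun c hc => by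
    have b1 : FH F (F.p y) u c := hfu c (by rw [hc]; linarith)
    rw [lift_eq _ b1.1.self_of_nhds, ← mem_OmE]
    exact a3 _ (by rw [mem_sphere_zero_iff_norm, hrc, hc, mul_one])) 0 (by simp)
  have b1 : FH F (F.p y) u 0 := hfu 0 (by simp)
  rw [lift_eq _ b1.1.self_of_nhds, ← mem_OmE] at a5
  have b2 : u 0 = y := by
    have b3 : Ψ (y, (r : ℂ) * 0) = F.triv x y := by
      rw [F.mk_eq x a4]
      simp [hΨ, g0]
    rw [hu]
    simp only [b3, (F.triv x).left_inv a4]
  rwa [b2] at a5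

/-- properness -/
theorem fibres_of_nhds (hp : IsProperMap F.p) {s : T} (h : ∀ x, F.p x = s → OmE F ∈ 𝓝 x) :
    ∀ᶠ t in 𝓝 s, Om (Fib F t) = univ := by
  have hU : IsClosed (F.p '' (interior (OmE F))ᶜ) :=
    hp.isClosedMap _ isOpen_interior.isClosed_compl
  have h0 : s ∈ (F.p '' (interior (OmE F))ᶜ)ᶜ := by
    rintro ⟨x, hx, hxs⟩
    exact hx (mem_interior_iff_mem_nhds.2 (h x hxs))
  filter_upwards [hU.isOpen_compl.mem_nhds h0] with t ht
  refine eq_univ_of_forall fun y => ?_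
  by_contra hn
  exact ht ⟨y.1, fun hy => hn ((mem_OmE y.2).1 (interior_subset hy)), y.2⟩

end Tw

theorem base : StSlab → StDisc → StBase := by
  rintro hS hD T E _ _ _ F hp vol hvol s ⟨D⟩
  refine Tw.fibres_of_nhds hp fun x hx => ?_
  obtain ⟨g, g0, hg, hb⟩ := D.disc x hx
  refine Tw.disc_nhds hD hp g0 hg fun c hc => ?_
  obtain ⟨y, hy, e⟩ := hb c hc
  rw [e]
  exact hS T E F hp vol hvol s D y hy

end Vale.Agent.P290Z
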