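import Vale.Agent.P290Z.Spec1

/-! CALC 1: restriction, pull back and disjoint union of throwing data. -/

open Set Filter Metric
open scoped Topology Manifold ContDiff

namespace Vale.Agent.P290Z

open Vale.Agent.P290

namespace Calc

variable {V W X : Type} [NormedAddCommGroup V] [NormedSpace ℂ V] [NormedAddCommGroup W]
  [NormedSpace ℂ W] [TopologicalSpace X] [ChartedSpace C2 X]

theorem hn_mono {A B : Set V} {f : V → X} (h : HN B f) (hAB : A ⊆ B) : HN A f :=
  h.filter_mono (nhdsSet_mono hAB)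

theorem hn_pull {A : Set W} {B : Set V} {f : V → X} {q : W → V} (h : HN B f)
    (hq : ∀ w ∈ A, ∀ᶠ u in 𝓝 w, DifferentiableAt ℂ q u) (hm : MapsTo q A B) :
    HN A (fun w => f (q w)) := by
  refine eventually_nhdsSet_iff_forall.2 fun w hw => ?_
  have h1 := eventually_nhdsSet_iff_forall.1 h _ (hm hw)
  filter_upwards [hq w hw, (hq w hw).self_of_nhds.continuousAt.eventually h1] with u a1 a2
  exact MDifferentiableAt.comp (g := f) (f := q) u a2 a1.mdifferentiableAt

theorem md_congr {f g : V → X} {z : V} (h : MD f z) (he : g =ᶠ[𝓝 z] f) : MD g z :=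
  MDifferentiableAt.congr_of_eventuallyEq h he

end Calc

open Calc in
theorem calc1 : StCalc := by
  intro X _ _ _
  refine ⟨?_, ?_, ?_⟩
  · rintro V _ _ B B₁ O O₁ ⟨-, S, ψ, h1, h2, h3, h4⟩ hB hO hOO
    refine ⟨hO, S, ψ, hn_mono h1 (prod_mono_left hB),
      fun W _ _ a b w ha hb hw => h2 W a b w ha hb (hOO hw), fun p hp => h3 p (hOO hp),
      fun R ε hε => ?_⟩
    obtain ⟨S', a1, a2⟩ := h4 R ε hε
    exact ⟨S', hn_mono a1 (prod_mono_left hB), fun x hx => a2 x (hB hx)⟩
  · rintro V V₁ _ _ _ _ B O π U₁ B₁ ⟨hO, S, ψ, h1, h2, h3, h4⟩ hU hπ hB hm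
    have hd : ∀ x ∈ U₁, DifferentiableAt ℂ π x := fun x hx => hπ.differentiableAt (hU.mem_nhds hx)
    have pull : ∀ (R : ℝ) (T : V × C2 → X), HN (B ×ˢ closedBall (0 : C2) R) T →
        HN (B₁ ×ˢ closedBall (0 : C2) R) (fun z : V₁ × C2 => T (π z.1, z.2)) := by
      intro R T hT
      refine hn_pull (q := fun z : V₁ × C2 => (π z.1, z.2)) hT (fun w hw => ?_)
        fun w hw => ⟨hm hw.1, hw.2⟩
      have : ∀ᶠ u : V₁ × C2 in 𝓝 w, u.1 ∈ U₁ :=
        continuousAt_fst.eventually (hU.mem_nhds (hB hw.1))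
      filter_upwards [this] with u hu
      exact ((hd _ hu).comp u differentiableAt_fst).prodMk differentiableAt_snd
    refine ⟨?_, fun z => S (π z.1, z.2), fun p => ψ (π p.1, p.2), pull 1 S h1, ?_,
      fun p hp => h3 _ hp.2, fun R ε hε => ?_⟩
    · refine isOpen_iff_mem_nhds.2 fun p hp => ?_
      have c1 : ContinuousAt (fun p : V₁ × X => (π p.1, p.2)) p :=
        (ContinuousAt.comp (g := π) (f := Prod.fst) (hd _ hp.1).continuousAt
          continuousAt_fst).prodMk continuousAt_snd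
      exact (continuousAt_fst.eventually (hU.mem_nhds hp.1)).and (c1.eventually (hO.mem_nhds hp.2))
    · intro W _ _ a b w ha hb hw
      exact h2 W (fun u => π (a u)) b w (DifferentiableAt.comp (g := π) (f := a) w (hd _ hw.1) ha)
        hb hw.2
    · obtain ⟨S', a1, a2⟩ := h4 R ε hε
      exact ⟨fun z => S' (π z.1, z.2), pull R S' a1, fun x hx => a2 _ (hm hx)⟩
  · rintro V _ _ J U B O hU hdis hB hOU hT ⟨x0⟩
    classical
    choose S ψ h1 h2 h3 h4 using fun j => (hT j).2
    have uniq : ∀ {x : V} {i j : J}, x ∈ U i → x ∈ U j → i = j := by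
      intro x i j hi hj
      by_contra hne
      exact disjoint_left.1 (hdis hne) hi hj
    have glue : ∀ {Y Z : Type} (z0 : Z) (T : J → V × Y → Z), ∃ G : V × Y → Z,
        ∀ j, ∀ z : V × Y, z.1 ∈ U j → G z = T j z := by
      intro Y Z z0 T
      refine ⟨fun z => if h : ∃ j, z.1 ∈ U j then T h.choose z else z0, fun j z hz => ?_⟩
      have h : ∃ j, z.1 ∈ U j := ⟨j, hz⟩
      simp only [dif_pos h]
      rw [uniq h.choose_spec hz]
    have hn : ∀ (R : ℝ) (T : J → V × C2 → X) (G : V × C2 → X),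
        (∀ j, ∀ z : V × C2, z.1 ∈ U j → G z = T j z) →
        (∀ j, HN (B j ×ˢ closedBall (0 : C2) R) (T j)) →
        HN ((⋃ j, B j) ×ˢ closedBall (0 : C2) R) G := by
      intro R T G hG hT'
      refine eventually_nhdsSet_iff_forall.2 fun z hz => ?_
      obtain ⟨j, hj⟩ := mem_iUnion.1 hz.1
      have a1 := eventually_nhdsSet_iff_forall.1 (hT' j) z ⟨hj, hz.2⟩
      have a2 : ∀ᶠ u : V × C2 in 𝓝 z, u.1 ∈ U j :=
        continuousAt_fst.eventually ((hU j).mem_nhds (hB j hj))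
      filter_upwards [a1, a2.eventually_nhds] with u b1 b2
      exact md_congr b1 (b2.mono fun v hv => hG j v hv)
    obtain ⟨G, hG⟩ := glue x0 S
    obtain ⟨χ, hχ⟩ := glue (0 : C2) ψ
    refine ⟨isOpen_iUnion fun j => (hT j).1, G, χ, hn 1 S G hG h1, ?_, ?_, fun R ε hε => ?_⟩
    · intro W _ _ a b w ha hb hw
      obtain ⟨j, hj⟩ := mem_iUnion.1 hw
      refine (h2 j W a b w ha hb hj).congr_of_eventuallyEq ?_
      filter_upwards [ha.continuousAt.eventually ((hU j).mem_nhds (hOU j _ hj))] with u hu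
      exact hχ j _ hu
    · intro p hp
      obtain ⟨j, hj⟩ := mem_iUnion.1 hp
      rw [hχ j p (hOU j p hj), hG j _ (hOU j p hj)]
      exact h3 j p hj
    · choose S' a1 a2 using fun j => h4 j R ε hε
      obtain ⟨G', hG'⟩ := glue x0 S'
      refine ⟨G', hn R S' G' hG' a1, fun x hx t ht => ?_⟩
      obtain ⟨j, hj⟩ := mem_iUnion.1 hx
      rw [hG' j _ (hB j hj), hG j _ (hB j hj)]
      exact a2 j x hj t ht

end Vale.Agent.P290Z
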