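import Vale.Agent.P290Z.Conv.Poly

/-!
The step CONV: from polydiscs to compact convex sets.
-/

open Set Filter Metric
open scoped Topology Manifold ContDiff

namespace Vale.Agent.P290Z

open Vale.Agent.P290

namespace Conv

variable {V W X : Type} [NormedAddCommGroup V] [NormedSpace ℂ V] [FiniteDimensional ℂ V]
  [NormedAddCommGroup W] [NormedSpace ℂ W] [FiniteDimensional ℂ W] [MetricSpace X]
  [ChartedSpace C2 X]

/-- the approximation property of all products with polydiscs -/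
def APP (X V : Type) [MetricSpace X] [ChartedSpace C2 X] [NormedAddCommGroup V] [NormedSpace ℂ V] :
    Prop :=
  ∀ K : Set V, Good K → ∀ (W : Type) [NormedAddCommGroup W] [NormedSpace ℂ W]
    [FiniteDimensional ℂ W] (D : Set W), Poly D → AP X (K ×ˢ D)

variable [IsManifold 𝓘(ℂ, C2) ω X]

theorem pp_of (hS : StSpr) (hL : StLong) (h : APP X V) {K : Set V} (hK : Good K) {D : Set W}
    (hD : Poly D) {g : V × W → X} (hg : HN (K ×ˢ D) g) : PP (K ×ˢ D) g := by
  have hG := good_prod hK hD.good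
  obtain ⟨G, h1, h2, h3⟩ := hS _ X _ hG g hg
  obtain ⟨U, U', -, o2, s1, s2, h4⟩ := hn_prod hG.1 isCompact_singleton h1
  obtain ⟨r, hr, hb⟩ := nhds_basis_closedBall.mem_iff.1 (o2.mem_nhds (s2 rfl))
  have h5 := hn_mono h4 (prod_mono s1 hb)
  have h6 : AP X ((K ×ˢ D) ×ˢ closedBall (0 : C2) r) :=
    (h K hK _ _ (hD.prod (poly_ball hr))).pull (ContinuousLinearEquiv.prodAssoc ℂ V W C2).differentiable
      (ContinuousLinearEquiv.prodAssoc ℂ V W C2).symm.differentiable (fun _ => rfl)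
      (fun _ hx => ⟨hx.1.1, hx.1.2, hx.2⟩) fun _ hx => ⟨⟨hx.1, hx.2.1⟩, hx.2.2⟩
  obtain ⟨O, k1, k2⟩ := (hL X).1 _ _ G r hG.1 hr h5 h3 fun R =>
    h6 G h5 _ (hG.1.prod (isCompact_closedBall _ _))
  exact ⟨O, k1, fun x hx => h2.self_of_nhdsSet x hx ▸ k2 x hx⟩

theorem cut (hE : StEnl) (hS : StSpr) (hL : StLong) {l : V →L[ℂ] ℂ} (hl : l ≠ 0)
    (h : APP X l.ker) {K : Set V} (hK : Good K) (h0 : (0 : V) ∈ K) {D : Set W} (hD : Poly D)
    {f : V × W → X} (hf : HN ((K ∩ {x | (l x).re ≤ 1}) ×ˢ D) f) :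
    CC ((K ∩ {x | (l x).re ≤ 1}) ×ˢ D) (K ×ˢ D) f := by
  obtain ⟨v, hv⟩ : ∃ v, l v ≠ 0 := by
    by_contra h1
    exact hl (ContinuousLinearMap.ext fun v => not_not.1 fun e => h1 ⟨v, e⟩)
  let e := ContinuousLinearEquiv.equivOfRightInverse l
    ((ContinuousLinearMap.id ℂ ℂ).smulRight ((l v)⁻¹ • v)) fun c => by simp [hv]
  let E := (e.prodCongr (ContinuousLinearEquiv.refl ℂ W)).trans
    (ContinuousLinearEquiv.prodAssoc ℂ ℂ l.ker W)
  have hEl : ∀ p, l (E.symm p).1 = p.1 := fun p => congrArg Prod.fst (E.apply_symm_apply p)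
  obtain ⟨M, hM⟩ := hK.1.exists_bound_of_continuousOn l.continuous.continuousOn
  have hc : IsClosed {z : ℂ | z.re ≤ 1} := isClosed_le Complex.continuous_re continuous_const
  have hP : IsCompact (closedBall (0 : ℂ) (max M 1) ∩ {z | z.re ≤ 1}) :=
    (isCompact_closedBall _ _).inter_right hc
  have hf' : HN (E.symm ⁻¹' (K ×ˢ D) ∩ {x | x.1 ∈ closedBall (0 : ℂ) (max M 1) ∩ {z | z.re ≤ 1}})
      fun p => f (E.symm p) :=
    hn_comp hf E.symm.differentiable fun p hp =>
      ⟨⟨hp.1.1, (congrArg Complex.re (hEl p)).trans_le hp.2.2⟩, hp.1.2⟩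
  refine cc_pull (a := E) (hE (l.ker × W) X _ (good_pre E.symm (good_prod hK hD.good))
    (by rw [mem_preimage, map_zero]; exact ⟨h0, hD.zero⟩) _ hP ((convex_closedBall _ _).inter (convex_halfSpace_re_le 1))
    (inter_mem (closedBall_mem_nhds _ (lt_max_of_lt_right one_pos))
      (Complex.continuous_re.continuousAt.eventually_lt_const (by simp) |>.mono fun _ => le_of_lt))
    _ hf' fun c hc => ?_) E.differentiable (fun x hx => ⟨?_, ?_, hx.1.2⟩) (fun x hx => ?_)
    fun x _ => congrArg f (E.symm_apply_apply x)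
  · have hc' := hP.isClosed.frontier_subset hc
    have g1 := good_slice (good_pre e.symm hK) c
    obtain ⟨U, U', o1, o2, s1, s2, k⟩ := hn_prod g1.1 hD.good.1
      (hn_comp hf' (a := fun y => (c, y)) (by fun_prop) fun y hy => ⟨hy, hc'⟩)
    have : ProperSpace l.ker := FiniteDimensional.proper ℂ _
    obtain ⟨δ, hδ, s3⟩ := g1.1.exists_cthickening_subset_open o1 s1
    obtain ⟨D', p1, p2, p3⟩ := hD.enlarge o2 s2
    have g2 : Good (cthickening δ _) := ⟨g1.1.cthickening, g1.2.cthickening δ⟩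
    refine ⟨_, (good_prod g2 p1.good).1, fun y hy => ?_,
      pp_of hS hL h g2 p1 (hn_mono k (prod_mono s3 p3))⟩
    rw [interior_prod_eq]
    exact ⟨thickening_subset_interior_cthickening _ _ (self_subset_thickening hδ _ hy.1), p2 hy.2⟩
  · rw [mem_preimage, E.symm_apply_apply]
    exact ⟨hx.1.1, hx.2⟩
  · exact mem_closedBall_zero_iff.2 ((hM _ hx.1.1).trans (le_max_left _ _))
  · rwa [mem_preimage, E.symm_apply_apply]

theorem cuts (hE : StEnl) (hS : StSpr) (hL : StLong) (hX : PolyCC X)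
    (h : ∀ l : V →L[ℂ] ℂ, l ≠ 0 → APP X l.ker) {D₀ : Set V} (h0 : Poly D₀) {D : Set W}
    (hD : Poly D) (s : Finset (V →L[ℂ] ℂ)) :
    Good {x ∈ D₀ | ∀ l ∈ s, (l x).re ≤ 1} ∧ AP X ({x ∈ D₀ | ∀ l ∈ s, (l x).re ≤ 1} ×ˢ D) := by
  classical
  induction s using Finset.induction_on with
  | empty => simpa using ⟨h0.good, (h0.prod hD).ap hX⟩
  | insert l s _ ih =>
    have e : {x ∈ D₀ | ∀ l' ∈ insert l s, (l' x).re ≤ 1} =
        {x ∈ D₀ | ∀ l ∈ s, (l x).re ≤ 1} ∩ {x | (l x).re ≤ 1} := by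
      ext x
      simp only [Finset.forall_mem_insert, mem_ofPred_eq, mem_inter_iff]
      tauto
    rw [e]
    refine ⟨⟨ih.1.1.inter_right (isClosed_le (Complex.continuous_re.comp l.continuous)
      continuous_const), ih.1.2.inter ((convex_halfSpace_re_le 1).linear_preimage
        (l.restrictScalars ℝ : V →ₗ[ℝ] ℂ))⟩, ?_⟩
    by_cases hl : l = 0
    · simpa [hl] using ih.2
    · exact fun f hf L hL' => cc_trans (cut hE hS hL hl (h l hl) ih.1 ⟨h0.zero, by simp⟩ hD hf)
        (prod_mono_left inter_subset_left) ih.2 hL'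

theorem app_step (hE : StEnl) (hS : StSpr) (hL : StLong) (hX : PolyCC X)
    (h : ∀ l : V →L[ℂ] ℂ, l ≠ 0 → APP X l.ker) : APP X V := by
  have key : ∀ K : Set V, Good K → (0 : V) ∈ K → ∀ (W : Type) [NormedAddCommGroup W]
      [NormedSpace ℂ W] [FiniteDimensional ℂ W] (D : Set W), Poly D → AP X (K ×ˢ D) := by
    intro K hK h0 W _ _ _ D hD f hf L hL'
    obtain ⟨U, U', o1, -, s1, s2, k⟩ := hn_prod hK.1 hD.good.1 hf
    obtain ⟨D₀, p1, p2⟩ := exists_poly hK.1
    obtain ⟨s, c1, c2⟩ := exists_cuts hK h0 p1.good.1 o1 s1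
    exact cc_mono ((cuts hE hS hL hX h p1 hD s).2 f
      (hn_mono k (prod_mono (fun x hx => c2 x hx.1 hx.2) s2)) L hL')
      (prod_mono_left fun x hx => ⟨p2 hx, c1 x hx⟩)
  intro K hK W _ _ _ D hD
  rcases K.eq_empty_or_nonempty with rfl | ⟨a, ha⟩
  · rw [empty_prod]
    exact ap_empty
  · refine (key ((fun x => a + x) ⁻¹' K) ⟨(Homeomorph.addLeft a).isCompact_preimage.2 hK.1,
      hK.2.translate_preimage_right a⟩ (by simpa using ha) W D hD).pull
      (a := fun p => (p.1 - a, p.2)) (b := fun p => (a + p.1, p.2)) (by fun_prop) (by fun_prop)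
      (fun x => by simp) (fun x hx => ⟨by simpa using hx.1, hx.2⟩) fun x hx => hx

theorem app_all (hE : StEnl) (hS : StSpr) (hL : StLong) (hX : PolyCC X) (n : ℕ) :
    ∀ (V : Type) [NormedAddCommGroup V] [NormedSpace ℂ V] [FiniteDimensional ℂ V],
      Module.finrank ℂ V = n → APP X V := by
  induction n using Nat.strong_induction_on with
  | _ n ih =>
    rintro V _ _ _ rfl
    exact app_step hE hS hL hX fun l hl => ih _ (Submodule.finrank_lt (s := l.ker) fun e =>
      hl (ContinuousLinearMap.ext fun v => Submodule.eq_top_iff'.1 e v)) _ rfl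

end Conv

theorem conv (hE : StEnl) (hS : StSpr) (hL : StLong) (_ : StCalc) : StConv := by
  intro X _ _ _ hX V _ _ _ K hK
  exact (Conv.app_all hE hS hL hX _ V rfl K hK C2 _ (Conv.poly_ball one_pos)).pull
    (a := fun x => (x, 0)) (b := Prod.fst) (by fun_prop) differentiable_fst (fun _ => rfl)
    (fun x hx => ⟨hx, mem_closedBall_self zero_le_one⟩) fun x hx => hx.1

end Vale.Agent.P290Z
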