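import Vale.Agent.P290Z.Spec2

/-! P290Z, KUM: Kummer fibres are dominated by a torus. -/

open Set Filter Metric
open scoped Topology

namespace Vale.Agent.P290Z

open Vale.Agent.P290 Vale.Agent.P290.H805 Vale.Agent.P290.R2.H596

namespace Kum

open All (dir Dom)

/-! ### lattices -/

theorem unc : Uncountable ℂ := Complex.ofReal_injective.uncountable

theorem unc2 : Uncountable C2 :=
  haveI := unc
  (Prod.mk_left_injective (0 : ℂ)).uncountable

theorem lat {l : Fin 4 → C2} (hl : LinearIndependent ℝ l) :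
    (∀ R : ℝ, {y : C2 | y ∈ AddSubgroup.closure (range l) ∧ ‖y‖ ≤ R}.Finite) ∧
      ∃ R : ℝ, ∀ y : C2, ∃ a ∈ AddSubgroup.closure (range l), ‖y - a‖ ≤ R := by
  have hc : Fintype.card (Fin 4) = Module.finrank ℝ C2 := by
    simp [Module.finrank_prod, Complex.finrank_real_complex]
  let b := basisOfLinearIndependentOfCardEqFinrank hl hc
  have hb : (b : Fin 4 → C2) = l := coe_basisOfLinearIndependentOfCardEqFinrank hl hc
  have hm : ∀ y, y ∈ AddSubgroup.closure (range l) ↔ y ∈ Submodule.span ℤ (range b) := fun y => by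
    rw [hb, ← Submodule.span_int_eq_addSubgroupClosure]
    rfl
  refine ⟨fun R => (ZSpan.setFinite_inter b (isBounded_closedBall (x := (0 : C2)) (r := R))).subset
    fun y hy => ⟨mem_closedBall_zero_iff.2 hy.2, (hm y).1 hy.1⟩,
    ∑ i, ‖b i‖, fun y => ⟨ZSpan.floor b y, (hm _).2 (ZSpan.floor b y).2, ZSpan.norm_fract_le b y⟩⟩

theorem exists_line {B : Set C2} (hB : B.Countable) {y y' : C2} (hy : y ∉ B) (hy' : y' ∉ B) :
    ∃ z : C2, (∀ t : ℂ, y + t • (z - y) ∉ B) ∧ ∀ t : ℂ, y' + t • (z - y') ∉ B := by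
  obtain ⟨c, hc⟩ := Infinite.exists_notMem_finset ({y.2, y'.2} : Finset ℂ)
  simp only [Finset.mem_insert, Finset.mem_singleton, not_or] at hc
  let f : C2 → C2 → ℂ := fun y a => y.1 + (a.1 - y.1) * (c - y.2) / (a.2 - y.2)
  have h1 : (f y '' B ∪ f y' '' B).Countable := (hB.image _).union (hB.image _)
  obtain ⟨τ, hτ⟩ : ∃ τ, τ ∉ f y '' B ∪ f y' '' B := by
    by_contra h
    push Not at h
    have := unc
    exact not_countable_univ (h1.mono fun τ _ => h τ)
  have key : ∀ y : C2, y ∉ B → c ≠ y.2 → τ ∉ f y '' B → ∀ t : ℂ, y + t • ((τ, c) - y) ∉ B := by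
    intro y hy hc hτ t h
    by_cases ht : t = 0
    · rw [ht, zero_smul, add_zero] at h
      exact hy h
    · refine hτ ⟨_, h, ?_⟩
      have := sub_ne_zero.2 hc
      simp only [f, Prod.fst_add, Prod.snd_add, Prod.smul_fst, Prod.smul_snd, Prod.fst_sub,
        Prod.snd_sub, smul_eq_mul, add_sub_cancel_left]
      field_simp
      ring
  exact ⟨(τ, c), key y hy hc.1 fun h => hτ (Or.inl h), key y' hy' hc.2 fun h => hτ (Or.inr h)⟩

/-! ### coordinates -/

def cs (b : Bool) (z : C2) : ℂ := cond b z.1 z.2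

def ct (b : Bool) (z : C2) : ℂ := cond b z.2 z.1

/-- the coordinates in the chart of the resolution -/
noncomputable def ph (b : Bool) (z : C2) : C2 := (cs b z ^ 2, ct b z / cs b z)

theorem cs_smul_dir (b : Bool) (w u : ℂ) : cs b (w • dir b u) = w := by
  cases b <;> simp [cs, dir]

theorem ct_smul_dir (b : Bool) (w u : ℂ) : ct b (w • dir b u) = w * u := by
  cases b <;> simp [ct, dir]

theorem smul_dir {b : Bool} {z : C2} (h : cs b z ≠ 0) : cs b z • dir b (ph b z).2 = z := by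
  cases b
  · have h' : z.2 ≠ 0 := h
    refine Prod.ext ?_ ?_
    · simp only [cs, ct, ph, dir, cond_false, Prod.smul_fst, smul_eq_mul]
      field_simp
    · simp [cs, dir]
  · have h' : z.1 ≠ 0 := h
    refine Prod.ext ?_ ?_
    · simp [cs, dir]
    · simp only [cs, ct, ph, dir, cond_true, Prod.smul_snd, smul_eq_mul]
      field_simp

theorem continuous_cs (b : Bool) : Continuous (cs b) := by
  cases b
  · exact continuous_snd
  · exact continuous_fst

theorem continuous_dir (b : Bool) : Continuous (dir b) := by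
  cases b
  · exact continuous_id.prodMk continuous_const
  · exact continuous_const.prodMk continuous_id

theorem ph_deriv {b : Bool} {z : C2} (h : cs b z ≠ 0) :
    DifferentiableAt ℂ (ph b) z ∧ ‖(fderiv ℂ (ph b) z).det‖ = 2 := by
  have f1 : HasFDerivAt (Prod.fst : C2 → ℂ) (ContinuousLinearMap.fst ℂ ℂ ℂ) z := hasFDerivAt_fst
  have f2 : HasFDerivAt (Prod.snd : C2 → ℂ) (ContinuousLinearMap.snd ℂ ℂ ℂ) z := hasFDerivAt_snd
  cases b
  · have h' : z.2 ≠ 0 := h
    have h1 : HasFDerivAt (ph false) _ z :=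
      ((f2.pow 2).prodMk (f1.mul
        ((hasDerivAt_inv h').comp_hasFDerivAt z f2))).congr_of_eventuallyEq
        (Eventually.of_forall fun y => by simp [ph, cs, ct, div_eq_mul_inv])
    refine ⟨h1.differentiableAt, ?_⟩
    rw [h1.fderiv, R2.H236.det_formula]
    simp [h']
  · have h' : z.1 ≠ 0 := h
    have h1 : HasFDerivAt (ph true) _ z :=
      ((f1.pow 2).prodMk (f2.mul
        ((hasDerivAt_inv h').comp_hasFDerivAt z f1))).congr_of_eventuallyEq
        (Eventually.of_forall fun y => by simp [ph, cs, ct, div_eq_mul_inv])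
    refine ⟨h1.differentiableAt, ?_⟩
    rw [h1.fderiv, R2.H236.det_formula]
    simp [h']

theorem exists_cs {z : C2} (hz : z ≠ 0) : ∃ b, cs b z ≠ 0 ∧ ‖(ph b z).2‖ ≤ 1 := by
  rcases le_total ‖z.2‖ ‖z.1‖ with h | h
  · have h1 : z.1 ≠ 0 := fun e => hz (Prod.ext e (norm_le_zero_iff.1 (by simpa [e] using h)))
    refine ⟨true, h1, ?_⟩
    change ‖z.2 / z.1‖ ≤ 1
    rw [norm_div]
    exact div_le_one_of_le₀ h (norm_nonneg _)
  · have h1 : z.2 ≠ 0 := fun e => hz (Prod.ext (norm_le_zero_iff.1 (by simpa [e] using h)) e)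
    refine ⟨false, h1, ?_⟩
    change ‖z.1 / z.2‖ ≤ 1
    rw [norm_div]
    exact div_le_one_of_le₀ h (norm_nonneg _)

variable {L : AddSubgroup C2}

theorem dom_zero {y : C2} (hy : y + y ∉ L) {b : Bool} (h : cs b y ≠ 0) : Dom L 0 b (ph b y) := by
  refine ⟨by simp, fun w hw hm => absurd ?_ hy⟩
  rcases sq_eq_sq_iff_eq_or_eq_neg.1 (show w ^ 2 = cs b y ^ 2 from hw) with e | e
  · rwa [e, add_smul, smul_dir h] at hm
  · rw [e, ← neg_add, neg_smul, add_smul, smul_dir h] at hm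
    exact neg_mem_iff.1 hm

theorem good_of_dom {a : C2} {b : Bool} {v : C2} (h : Dom L a b v) {w : ℂ} (hw : w ^ 2 = v.1)
    (h0 : w ≠ 0) : a + w • dir b v.2 + (a + w • dir b v.2) ∉ L := fun hm => by
  refine h0 (h.2 w hw ?_)
  have := L.sub_mem hm h.1
  rwa [add_add_add_comm, add_sub_cancel_left, ← add_smul] at this

theorem ev_dom (hfin : ∀ R : ℝ, {y : C2 | y ∈ L ∧ ‖y‖ ≤ R}.Finite) {a : C2} {b : Bool} {v : C2}
    (h : Dom L a b v) : ∀ᶠ v' in 𝓝 v, Dom L a b v' := by
  have hc : Continuous fun v' : C2 => 2 * (1 + ‖v'.1‖) * ‖dir b v'.2‖ :=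
    (continuous_const.mul (continuous_const.add continuous_fst.norm)).mul
      ((continuous_dir b).comp continuous_snd).norm
  have h1 := hc.continuousAt.eventually (gt_mem_nhds (lt_add_one (2 * (1 + ‖v.1‖) * ‖dir b v.2‖)))
  set R := 2 * (1 + ‖v.1‖) * ‖dir b v.2‖ + 1
  have h2 : {v' | v' ∈ (fun y : C2 => ph b ((2 : ℂ)⁻¹ • y)) '' {y : C2 | y ∈ L ∧ ‖y‖ ≤ R} ∧
      ¬ Dom L a b v'}.Finite := ((hfin R).image _).subset fun _ h => h.1
  filter_upwards [h1, h2.isClosed.isOpen_compl.mem_nhds fun h' => h'.2 h] with v' h3 h4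
  by_contra h5
  refine h4 ⟨?_, h5⟩
  have h6 : ∃ w : ℂ, w ^ 2 = v'.1 ∧ (w + w) • dir b v'.2 ∈ L ∧ w ≠ 0 := by
    by_contra h7
    push Not at h7
    exact h5 ⟨h.1, h7⟩
  obtain ⟨w, e1, e2, e3⟩ := h6
  refine ⟨_, ⟨e2, le_trans ?_ h3.le⟩, ?_⟩
  · rw [norm_smul, ← two_mul, norm_mul, ← e1, norm_pow, Complex.norm_two]
    have : ‖w‖ ≤ 1 + ‖w‖ ^ 2 := by nlinarith [sq_nonneg (‖w‖ - 1), norm_nonneg w]
    gcongr
  · have e4 : (2 : ℂ)⁻¹ • (w + w) • dir b v'.2 = w • dir b v'.2 := by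
      rw [smul_smul]
      congr 1
      ring
    change ph b _ = v'
    rw [e4, ph, cs_smul_dir, ct_smul_dir, e1, mul_div_cancel_left₀ _ e3]

/-! ### the quotient map -/

section

variable {X : Type} [TopologicalSpace X] [ChartedSpace C2 X] (K : All.Kummer L X)

open Classical in
/-- the class of `y` -/
noncomputable def pr (y : C2) : X := K.N 0 (decide (y.1 ≠ 0)) (ph (decide (y.1 ≠ 0)) y)

theorem cs_ne {y : C2} (hy : y + y ∉ L) : cs (decide (y.1 ≠ 0)) y ≠ 0 := by
  by_cases h : y.1 = 0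
  · have h1 : y.2 ≠ 0 := fun e => hy (by rw [show y = 0 from Prod.ext h e]; simp)
    simpa [h, cs] using h1
  · simp [h, cs]

theorem rep {a : C2} {b : Bool} {v : C2} (h : Dom L a b v) {w : ℂ} (hw : w ^ 2 = v.1)
    (h0 : w ≠ 0) {y : C2} (hy : y - (a + w • dir b v.2) ∈ L) : K.N a b v = pr K y := by
  have hg : y + y ∉ L := fun hm => good_of_dom h hw h0 (by
    have := L.sub_mem hm (L.add_mem hy hy)
    rwa [add_sub_add_comm, sub_sub_cancel] at this)
  have hc := cs_ne hg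
  refine (K.rel _ _ _ _ _ _ h (dom_zero hg hc)).2 (Or.inl ⟨hw ▸ pow_ne_zero 2 h0,
    pow_ne_zero 2 hc, w, _, hw, rfl, ?_⟩)
  rwa [smul_dir hc, zero_add]

theorem pr_add {y a : C2} (hy : y + y ∉ L) (ha : a ∈ L) : pr K (y + a) = pr K y := by
  have hc := cs_ne hy
  refine (rep K (dom_zero hy hc) rfl hc ?_).symm
  rwa [smul_dir hc, zero_add, add_sub_cancel_left]

end

variable {T E : Type} [TopologicalSpace T] [TopologicalSpace E] {F : Family T E}
  {vol : E → T × C2 → ℂ} {s : T}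

theorem jac_congr {u u' : C2 → E} {z : C2} (h : u =ᶠ[𝓝 z] u') :
    jac F vol s u z = jac F vol s u' z := by
  have h1 : (fun y => (F.triv (u' z) (u y)).2) =ᶠ[𝓝 z] fun y => (F.triv (u' z) (u' y)).2 :=
    h.mono fun y hy => by simp only [hy]
  unfold jac
  rw [h.self_of_nhds, h1.fderiv_eq]

theorem fh_of_etale {f : C2 → Fib F s} {v : C2} (h : All.Etale f v) :
    FH F s (fun v => (f v).val) v :=
  ⟨Eventually.of_forall fun y => (f y).prop,
    ContinuousAt.comp (g := Fib.val) (f := f) continuous_val.continuousAt h.1, h.2.1⟩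

theorem jac_ne (hvol : RelForm F vol) {f : C2 → Fib F s} {v : C2} (h : All.Etale f v) :
    jac F vol s (fun v => (f v).val) v ≠ 0 := by
  refine mul_ne_zero (hvol _ s _ ?_).2.2.1 h.2.2
  exact (fibChart F s (f v)).map_source (F.mem _)

variable (hfin : ∀ R : ℝ, {y : C2 | y ∈ L ∧ ‖y‖ ≤ R}.Finite) (K : All.Kummer L (Fib F s))
include hfin

/-- the local formula -/
theorem loc (vol : E → T × C2 → ℂ) {a : C2} {b : Bool} {y : C2} (h0 : cs b (y - a) ≠ 0)
    (h : Dom L a b (ph b (y - a))) :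
    FH F s (fun y => (pr K y).val) y ∧ (∀ᶠ y' in 𝓝 y, y' + y' ∉ L) ∧
      ∃ d : ℂ, ‖d‖ = 2 ∧ jac F vol s (fun y => (pr K y).val) y =
        jac F vol s (fun v => (K.N a b v).val) (ph b (y - a)) * d := by
  have hs : HasFDerivAt (fun y : C2 => y - a) (ContinuousLinearMap.id ℂ C2) y :=
    (hasFDerivAt_id y).sub_const a
  have hd := (ph_deriv h0).1.hasFDerivAt.comp y hs
  have h1 : ∀ᶠ y' in 𝓝 y, cs b (y' - a) ≠ 0 :=
    ((continuous_cs b).comp (continuous_id.sub continuous_const)).continuousAt.eventually_ne h0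
  have h2 : ∀ᶠ y' in 𝓝 y, Dom L a b (ph b (y' - a)) :=
    hd.continuousAt.eventually (ev_dom hfin h)
  have h3 : (fun y => (pr K y).val) =ᶠ[𝓝 y] fun y => (K.N a b (ph b (y - a))).val := by
    filter_upwards [h1, h2] with y' e1 e2
    rw [rep K e2 rfl e1 (y := y') (by rw [smul_dir e1, add_sub_cancel, sub_self]; exact L.zero_mem)]
  have h4 := fh_of_etale (K.etale _ _ _ h)
  refine ⟨(FH.comp (q := fun y => ph b (y - a)) h4 hd.differentiableAt).congr h3, ?_, _,
    (ph_deriv h0).2, ?_⟩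
  · filter_upwards [h1, h2] with y' e1 e2
    have := good_of_dom e2 rfl e1
    rwa [smul_dir e1, add_sub_cancel] at this
  · rw [jac_congr h3, R2.H236.jac_comp F vol (φ := fun y => ph b (y - a)) h4 hd.differentiableAt]
    congr 2
    exact hd.fderiv

theorem loc0 (vol : E → T × C2 → ℂ) {y : C2} (hy : y + y ∉ L) :
    FH F s (fun y => (pr K y).val) y ∧ (∀ᶠ y' in 𝓝 y, y' + y' ∉ L) ∧
      ∃ (b : Bool) (d : ℂ), ‖d‖ = 2 ∧ Dom L 0 b (ph b y) ∧
        jac F vol s (fun y => (pr K y).val) y =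
          jac F vol s (fun v => (K.N 0 b v).val) (ph b y) * d := by
  have hc := cs_ne hy
  have hd := dom_zero hy hc
  have := loc hfin K vol (a := 0) (y := y) (by rwa [sub_zero]) (by rwa [sub_zero])
  rw [sub_zero] at this
  obtain ⟨h1, h2, d, h3, h4⟩ := this
  exact ⟨h1, h2, _, d, h3, hd, h4⟩

theorem diff (hvol : RelForm F vol) {y : C2} (hy : y + y ∉ L) :
    DifferentiableAt ℂ (jac F vol s fun y => (pr K y).val) y :=
  R2.H236.jac_diff R2.H514.stJac hvol
    ((loc0 hfin K vol hy).2.1.mono fun _ h => (loc0 hfin K vol h).1)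

theorem jac_add (vol : E → T × C2 → ℂ) {y a : C2} (hy : y + y ∉ L) (ha : a ∈ L) :
    jac F vol s (fun y => (pr K y).val) (y + a) = jac F vol s (fun y => (pr K y).val) y := by
  have hg : y + a + (y + a) ∉ L := fun hm => hy (by
    have := L.sub_mem hm (L.add_mem ha ha)
    rwa [add_add_add_comm, add_sub_cancel_right] at this)
  have hs : HasFDerivAt (fun y : C2 => y + a) (ContinuousLinearMap.id ℂ C2) y :=
    (hasFDerivAt_id y).add_const a
  have h1 := R2.H236.jac_comp F vol (φ := fun y => y + a) (z := y) (loc0 hfin K vol hg).1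
    hs.differentiableAt
  have h2 : (ContinuousLinearMap.id ℂ C2).det = 1 := LinearMap.det_id
  rw [hs.fderiv, h2, mul_one] at h1
  rw [← h1]
  exact jac_congr ((loc0 hfin K vol hy).2.1.mono fun y' h => by simp only [pr_add K h ha])

theorem bdd_curve (hvol : RelForm F vol) {a : C2} (ha : a + a ∈ L) (b : Bool) :
    ∃ M : ℝ, ∀ᶠ h in 𝓝 (0 : ℂ), ∀ u ∈ closedBall (0 : ℂ) 1, Dom L a b (h, u) ∧
      ‖jac F vol s (fun v => (K.N a b v).val) (h, u)‖ ≤ M := by
  set J := jac F vol s fun v => (K.N a b v).val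
  have hd : ∀ u : ℂ, Dom L a b (0, u) := fun u => ⟨ha, fun w hw _ => pow_eq_zero_iff two_ne_zero |>.1 hw⟩
  have hc : ∀ u : ℂ, ContinuousAt J (0, u) := fun u =>
    (R2.H236.jac_diff R2.H514.stJac hvol
      ((ev_dom hfin (hd u)).mono fun _ h => fh_of_etale (K.etale _ _ _ h))).continuousAt
  have hc' : Continuous fun u : ℂ => J (0, u) := continuous_iff_continuousAt.2 fun u =>
    ContinuousAt.comp (g := J) (f := fun u : ℂ => ((0 : ℂ), u)) (hc u)
      (Continuous.prodMk_right 0).continuousAt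
  obtain ⟨M, hM⟩ := (isCompact_closedBall (0 : ℂ) 1).exists_bound_of_continuousOn
    hc'.continuousOn
  refine ⟨M + 1, (isCompact_closedBall (0 : ℂ) 1).eventually_forall_of_forall_eventually
    fun u hu => (ev_dom hfin (hd u)).and ?_⟩
  exact ((hc u).norm.eventually (gt_mem_nhds ((hM u hu).trans_lt (lt_add_one M)))).mono
    fun _ h => h.le

theorem bdd_loc (hvol : RelForm F vol) (y : C2) : ∃ M : ℝ, ∀ᶠ y' in 𝓝 y, y' + y' ∉ L →
    ‖jac F vol s (fun y => (pr K y).val) y'‖ ≤ M := by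
  by_cases hy : y + y ∈ L
  · choose M hM using bdd_curve hfin K hvol hy
    have ht : ∀ b, Tendsto (fun y' : C2 => cs b (y' - y) ^ 2) (𝓝 y) (𝓝 0) := fun b =>
      (((continuous_cs b).comp (continuous_id.sub continuous_const)).pow 2).tendsto' _ _
        (by cases b <;> simp [cs])
    refine ⟨max (M true) (M false) * 2, ?_⟩
    filter_upwards [(ht true).eventually (hM true), (ht false).eventually (hM false)]
      with y' h1 h2 hg
    obtain ⟨b, e1, e2⟩ := exists_cs (z := y' - y) fun e => hg (sub_eq_zero.1 e ▸ hy)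
    have h3 : Dom L y b (ph b (y' - y)) ∧
        ‖jac F vol s (fun v => (K.N y b v).val) (ph b (y' - y))‖ ≤ max (M true) (M false) := by
      cases b
      · exact (h2 _ (mem_closedBall_zero_iff.2 e2)).imp_right fun h => h.trans (le_max_right _ _)
      · exact (h1 _ (mem_closedBall_zero_iff.2 e2)).imp_right fun h => h.trans (le_max_left _ _)
    obtain ⟨-, -, d, e3, e4⟩ := loc hfin K vol e1 h3.1
    rw [e4, norm_mul, e3]
    exact mul_le_mul_of_nonneg_right h3.2 zero_le_two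
  · exact ⟨_, ((diff hfin K hvol hy).continuousAt.norm.eventually
      (gt_mem_nhds (lt_add_one _))).mono fun _ h _ => h.le⟩

theorem bdd (hvol : RelForm F vol) {R : ℝ} (hR : ∀ y : C2, ∃ a ∈ L, ‖y - a‖ ≤ R) :
    ∃ M : ℝ, ∀ y : C2, y + y ∉ L → ‖jac F vol s (fun y => (pr K y).val) y‖ ≤ M := by
  choose M hM using bdd_loc hfin K hvol
  obtain ⟨t, -, ht⟩ := (isCompact_closedBall (0 : C2) R).elim_nhds_subcover _ fun y _ => hM y
  refine ⟨∑ y ∈ t, |M y|, fun y hy => ?_⟩
  obtain ⟨a, ha, h⟩ := hR y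
  obtain ⟨z, hz, h1⟩ := mem_iUnion₂.1 (ht (mem_closedBall_zero_iff.2 h))
  have hg : y - a + (y - a) ∉ L := fun hm => hy (by
    have := L.add_mem hm (L.add_mem ha ha)
    rwa [add_add_add_comm, sub_add_cancel] at this)
  have h2 := jac_add hfin K vol hg ha
  rw [sub_add_cancel] at h2
  rw [h2]
  exact ((h1 hg).trans (le_abs_self _)).trans
    (Finset.single_le_sum (f := fun y => |M y|) (fun _ _ => abs_nonneg _) hz)

omit K in
theorem countable_bad : {y : C2 | y + y ∈ L}.Countable := by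
  have h1 : (L : Set C2).Countable :=
    (countable_iUnion fun n : ℕ => (hfin n).countable).mono fun y hy => by
      obtain ⟨n, hn⟩ := exists_nat_ge ‖y‖
      exact mem_iUnion.2 ⟨n, hy, hn⟩
  refine (h1.image fun y => (2 : ℂ)⁻¹ • y).mono fun y hy =>
    (mem_image _ _ _).2 ⟨y + y, hy, ?_⟩
  rw [← two_smul ℂ y, smul_smul, inv_mul_cancel₀ two_ne_zero, one_smul]

theorem const (hvol : RelForm F vol) {R : ℝ} (hR : ∀ y : C2, ∃ a ∈ L, ‖y - a‖ ≤ R) {y y' : C2}
    (hy : y + y ∉ L) (hy' : y' + y' ∉ L) :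
    jac F vol s (fun y => (pr K y).val) y = jac F vol s (fun y => (pr K y).val) y' := by
  obtain ⟨M, hM⟩ := bdd hfin K hvol hR
  obtain ⟨z, h1, h2⟩ := exists_line (countable_bad hfin) hy hy'
  have key : ∀ y : C2, (∀ t : ℂ, y + t • (z - y) ∉ {y : C2 | y + y ∈ L}) →
      jac F vol s (fun y => (pr K y).val) y = jac F vol s (fun y => (pr K y).val) z := by
    intro y h
    have hd : Differentiable ℂ fun t : ℂ =>
        jac F vol s (fun y => (pr K y).val) (y + t • (z - y)) := fun t =>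
      DifferentiableAt.comp (g := jac F vol s fun y => (pr K y).val)
        (f := fun t : ℂ => y + t • (z - y)) t (diff hfin K hvol (h t))
        ((differentiableAt_id.smul_const _).const_add y)
    have := hd.apply_eq_apply_of_bounded (isBounded_iff_forall_norm_le.2 ⟨M, by
      rintro _ ⟨t, rfl⟩
      exact hM _ (h t)⟩) 0 1
    simpa using this
  rw [key y h1, key y' h2]

theorem disc (x : E) (hx : F.p x = s) : ∃ g : ℂ → E, g 0 = x ∧
    (∀ c : ℂ, ‖c‖ ≤ 1 → FH F s g c ∧ g c ∈ (F.triv x).source) ∧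
    ∀ c : ℂ, ‖c‖ = 1 → ∃ y : C2, y + y ∉ L ∧ g c = (pr K y).val := by
  obtain ⟨a, b, v, hd, hv⟩ := K.cover ⟨x, hx⟩
  have hx' : (K.N a b v).val = x := by rw [hv]
  have h1 : ∀ᶠ v' in 𝓝 v, (K.N a b v').val ∈ (F.triv x).source :=
    (fh_of_etale (K.etale _ _ _ hd)).eventually_source (by rw [hx']; exact F.mem x)
  have ht : Tendsto (fun c : ℂ => ((v.1 + c, v.2) : C2)) (𝓝 0) (𝓝 v) :=
    ((continuous_const.add continuous_id).prodMk continuous_const).tendsto' _ _ (by simp)
  have h2 : ∀ᶠ c in 𝓝 (0 : ℂ), c ≠ 0 → v.1 + c ≠ 0 := by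
    by_cases e : v.1 = 0
    · exact Eventually.of_forall fun c h => by rwa [e, zero_add]
    · exact ((continuous_const.add continuous_id).continuousAt.eventually_ne
        (show v.1 + id 0 ≠ 0 by simpa using e)).mono fun _ h _ => h
  obtain ⟨r, hr, h3⟩ := nhds_basis_closedBall.eventually_iff.1
    ((ht.eventually (h1.and (ev_dom hfin hd))).and h2)
  have h4 : ∀ c : ℂ, ‖c‖ ≤ 1 → (r : ℂ) * c ∈ closedBall (0 : ℂ) r := fun c hc => by
    rw [mem_closedBall_zero_iff, norm_mul, Complex.norm_real, Real.norm_of_nonneg hr.le]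
    exact mul_le_of_le_one_right hr.le hc
  refine ⟨fun c => (K.N a b (v.1 + r * c, v.2)).val, by simpa using hx', fun c hc => ⟨?_, ?_⟩,
    fun c hc => ?_⟩
  · exact FH.comp (q := fun c : ℂ => ((v.1 + r * c, v.2) : C2))
      (fh_of_etale (K.etale _ _ _ (h3 (h4 c hc)).1.2)) (by fun_prop)
  · exact (h3 (h4 c hc)).1.1
  · have e1 := (h3 (h4 c hc.le)).1.2
    have e2 := (h3 (h4 c hc.le)).2 (mul_ne_zero (Complex.ofReal_ne_zero.2 hr.ne')
      fun e => by simp [e] at hc)
    obtain ⟨w, hw⟩ := IsAlgClosed.exists_pow_nat_eq (v.1 + r * c) two_pos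
    have e3 : w ≠ 0 := fun e => e2 (by rw [← hw, e]; simp)
    exact ⟨_, good_of_dom e1 hw e3, congrArg Fib.val (rep K e1 hw e3 (by
      rw [sub_self]; exact L.zero_mem))⟩

end Kum

theorem kum : StKum := by
  intro T E _ _ F vol hvol s ⟨l, hl, ⟨K⟩⟩
  obtain ⟨hfin, R, hR⟩ := Kum.lat hl
  have h2 : ∀ y : C2, ((2 : ℕ) : ℂ) • y = y + y := fun y => by
    rw [Nat.cast_ofNat, two_smul]
  obtain ⟨y₀, hy₀⟩ : ∃ y : C2, y + y ∉ AddSubgroup.closure (range l) := by
    by_contra h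
    push Not at h
    have := Kum.unc2
    exact not_countable_univ ((Kum.countable_bad hfin).mono fun y _ => h y)
  refine ⟨⟨l, hl, 2, two_pos, fun y => (Kum.pr K y).val, jac F vol s (fun y => (Kum.pr K y).val) y₀,
    ?_, fun y hy => ?_, fun i y hy => ?_, fun x hx => ?_⟩⟩
  · obtain ⟨-, -, b, d, h3, h4, h5⟩ := Kum.loc0 hfin K vol hy₀
    rw [h5]
    exact mul_ne_zero (Kum.jac_ne hvol (K.etale _ _ _ h4)) fun e => by simp [e] at h3
  · rw [h2] at hy
    exact ⟨(Kum.loc0 hfin K vol hy).1, Kum.const hfin K hvol hR hy hy₀⟩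
  · rw [h2] at hy
    exact congrArg Fib.val (Kum.pr_add K hy (AddSubgroup.subset_closure (mem_range_self i)))
  · simp only [h2]
    exact Kum.disc hfin K x hx

end Vale.Agent.P290Z
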