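import Vale.Agent.P290Z.Spec1

/-! P290Z, part II: necks persist; the fibres near a Kummer fibre are Oka. Definitions and the
statements of the steps. The paper proof is in `notes/P290_helper97.md`. -/

open Set Filter Metric MeasureTheory
open scoped Topology Manifold ContDiff ComplexConjugate

namespace Vale.Agent.P290Z

open Vale.Agent.P290 Vale.Agent.P290.H805 Vale.Agent.P290.R2.H596

/-- the space of the three periodic variables -/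
abbrev C3 : Type := Fin 3 → ℂ

/-- the determinant of two vectors -/
def det2 (u v : C2) : ℂ := u.1 * v.2 - u.2 * v.1

/-- the open polystrip -/
def Str (h : ℝ) : Set C3 := {x | ∀ i, |(x i).im| < h}

/-- the open box around the unit cell -/
def Box (δ h : ℝ) : Set C3 := {x | ∀ i, -δ < (x i).re ∧ (x i).re < 1 + δ ∧ |(x i).im| < h}

/-- the unit vectors -/
def ee (i : Fin 3) : C3 := Pi.single i 1

/-- periodicity on the polystrip -/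
def Per {Y : Type} (h : ℝ) (f : C3 → Y) : Prop := ∀ x ∈ Str h, ∀ i, f (x + ee i) = f x

/-- the linear map with columns `l i` -/
noncomputable def LL (l : Fin 3 → C2) (x : C3) : C2 := ∑ i, x i • l i

/-- the closed unit cell spanned by the `l i` -/
def Cell (l : Fin 3 → C2) : Set C2 :=
  {y | ∃ t : Fin 3 → ℝ, (∀ i, 0 ≤ t i ∧ t i ≤ 1) ∧ y = ∑ i, (t i : ℂ) • l i}

/-- the two-form `a 0 dx₁ ∧ dx₂ + a 1 dx₂ ∧ dx₀ + a 2 dx₀ ∧ dx₁` on the vectors `ξ`, `η` -/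
def form (a ξ η : C3) : ℂ :=
  a 0 * (ξ 1 * η 2 - ξ 2 * η 1) + a 1 * (ξ 2 * η 0 - ξ 0 * η 2) + a 2 * (ξ 0 * η 1 - ξ 1 * η 0)

/-- the conjugate vector -/
def cj (v : C3) : C3 := fun i => conj (v i)

/-- the exponentials -/
noncomputable def ex (m : Fin 3 → ℤ) (x : C3) : ℂ :=
  Complex.exp (2 * Real.pi * Complex.I * ∑ i, (m i : ℂ) * x i)

/-- the weights -/
noncomputable def wgt (h : ℝ) (m : Fin 3 → ℤ) : ℝ :=
  Real.exp (2 * Real.pi * h * ∑ i, |(m i : ℝ)|)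

/-- CROSS -/
def StCross : Prop :=
  ∀ (X : Type) [TopologicalSpace X] [T2Space X] [CompactSpace X] [ChartedSpace C2 X]
    [IsManifold 𝓘(ℂ, C2) ω X] (S : C2 → X) (γ : ℂ → X) (r : ℝ), 0 < r →
    (∀ q : C2, ‖q.1‖ ≤ r → MD S q) → All.Etale S 0 → (∀ a, MD γ a) →
    (∀ a : ℂ, ‖a‖ ≤ r → S (a, 0) = γ a) → S 0 ∈ Om X

/-- the rectangle `a < re < b`, `|im| < h` -/
def Rect (a b h : ℝ) : Set ℂ := {z | a < z.re ∧ z.re < b ∧ |z.im| < h}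

/-- PER0: a bounded linear solution operator for `α z - α (z + 1) = g z`, without loss of domain,
preserving holomorphic dependence on parameters -/
def StPer0 : Prop :=
  ∀ δ h : ℝ, 0 < δ → δ < 1 / 2 → 0 < h → ∃ (C : ℝ) (T : (ℂ → C2) → ℂ → C2), 0 < C ∧
    (∀ g g' : ℂ → C2, DifferentiableOn ℂ g (Rect (-δ) δ h) →
      DifferentiableOn ℂ g' (Rect (-δ) δ h) → ∀ M : ℝ, (∀ z ∈ Rect (-δ) δ h, ‖g z‖ ≤ M) →
      ∀ D : ℝ, (∀ z ∈ Rect (-δ) δ h, ‖g z - g' z‖ ≤ D) →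
      ∀ z ∈ Rect (-δ) (1 + δ) h, ‖T g z - T g' z‖ ≤ C * D) ∧
    (∀ g : ℂ → C2, DifferentiableOn ℂ g (Rect (-δ) δ h) → ∀ M : ℝ,
      (∀ z ∈ Rect (-δ) δ h, ‖g z‖ ≤ M) → (∀ z ∈ Rect (-δ) (1 + δ) h, ‖T g z‖ ≤ C * M) ∧
      ∀ z ∈ Rect (-δ) δ h, T g z - T g (z + 1) = g z) ∧
    ∀ (W : Type) [NormedAddCommGroup W] [NormedSpace ℂ W] [FiniteDimensional ℂ W] (O : Set W)
      (g : ℂ × W → C2), IsOpen O → DifferentiableOn ℂ g (Rect (-δ) δ h ×ˢ O) → ∀ M : ℝ,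
      (∀ y ∈ Rect (-δ) δ h ×ˢ O, ‖g y‖ ≤ M) →
      DifferentiableOn ℂ (fun y : ℂ × W => T (fun z => g (z, y.2)) y.1)
        (Rect (-δ) (1 + δ) h ×ˢ O)

/-- PER1: the nonlinear equation `α z = α (z + 1) + E (z, s + α (z + 1))` with parameters; the
solution for the parameter `w` depends only on `E (·, w, ·)` -/
def StPer1 : Prop :=
  ∀ δ h r ε : ℝ, 0 < δ → δ < 1 / 2 → 0 < h → 0 < r → 0 < ε → ∃ η > (0 : ℝ),
    ∀ (W : Type) [NormedAddCommGroup W] [NormedSpace ℂ W] [FiniteDimensional ℂ W] (O : Set W)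
      (E : ℂ × W × C2 → C2), IsOpen O →
      DifferentiableOn ℂ E (Rect (-δ) δ h ×ˢ O ×ˢ ball (0 : C2) r) →
      (∀ y ∈ Rect (-δ) δ h ×ˢ O ×ˢ ball (0 : C2) r, ‖E y‖ ≤ η) →
      ∃ α : ℂ × W × C2 → C2,
        DifferentiableOn ℂ α (Rect (-δ) (1 + δ) h ×ˢ O ×ˢ ball (0 : C2) (r / 2)) ∧
        (∀ y ∈ Rect (-δ) (1 + δ) h ×ˢ O ×ˢ ball (0 : C2) (r / 2), ‖α y‖ ≤ ε) ∧
        (∀ z ∈ Rect (-δ) δ h, ∀ w ∈ O, ∀ s ∈ ball (0 : C2) (r / 2),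
          α (z, w, s) = α (z + 1, w, s) + E (z, w, s + α (z + 1, w, s))) ∧
        ∀ w ∈ O, ∀ w' ∈ O,
          (∀ z ∈ Rect (-δ) δ h, ∀ s ∈ ball (0 : C2) r, E (z, w, s) = E (z, w', s)) →
          ∀ z ∈ Rect (-δ) (1 + δ) h, ∀ s ∈ ball (0 : C2) (r / 2), α (z, w, s) = α (z, w', s)

/-- The data of an approximately flat neck: `p` is defined on the open set `C`, injective at the
scale `ρ`, and identifies `y + l i` with `y + E i y`; the form `J dy₁ ∧ dy₂` is invariant. -/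
structure Flat (l : Fin 3 → C2) (C : Set C2) (ρ δ : ℝ) {X : Type} (p : C2 → X)
    (E : Fin 3 → C2 → C2) (J : C2 → ℂ) : Prop where
  inj : ∀ y ∈ C, ∀ y' ∈ C, ‖y - y'‖ < ρ → p y = p y' → y = y'
  hol : ∀ i, ∀ y ∈ C, y + l i ∈ C → DifferentiableAt ℂ (E i) y ∧ ‖E i y‖ ≤ δ
  rel : ∀ i, ∀ y ∈ C, y + l i ∈ C → p (y + l i) = p (y + E i y)
  jhol : ∀ y ∈ C, DifferentiableAt ℂ J y ∧ ‖J y - 1‖ ≤ δ
  jrel : ∀ i, ∀ y ∈ C, y + l i ∈ C → y + E i y ∈ C →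
    J (y + l i) = J (y + E i y) * (fderiv ℂ (fun y => y + E i y) y).det

/-- PER3: periodic parametrisation of a neck -/
def StPer3 : Prop :=
  ∀ (l : Fin 3 → C2) (C : Set C2) (ρ : ℝ), IsOpen C → Cell l ⊆ C → 0 < ρ →
    ∃ d > (0 : ℝ), ∃ h > (0 : ℝ), ∀ ε > (0 : ℝ), ∃ δ > (0 : ℝ),
    ∀ (X : Type) (p : C2 → X) (E : Fin 3 → C2 → C2) (J : C2 → ℂ), Flat l C ρ δ p E J →
      ∃ α : C3 → C2, DifferentiableOn ℂ α (Box d h) ∧
        (∀ x ∈ Box d h, ‖α x‖ ≤ ε ∧ LL l x + α x ∈ C) ∧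
        ∀ i, ∀ x ∈ Box d h, x + ee i ∈ Box d h →
          LL l x + α (x + ee i) ∈ C ∧
          LL l x + α x = LL l x + α (x + ee i) + E i (LL l x + α (x + ee i))

/-- FOU: Fourier series of holomorphic periodic functions -/
def StFou : Prop :=
  ∀ h > (0 : ℝ), ∀ f : C3 → ℂ, DifferentiableOn ℂ f (Str h) → Per h f → ∀ M : ℝ,
    (∀ x ∈ Str h, ‖f x‖ ≤ M) → ∃ a : (Fin 3 → ℤ) → ℂ, (∀ m, ‖a m‖ * wgt h m ≤ M) ∧
      (∀ x ∈ Str h, HasSum (fun m => a m * ex m x) (f x)) ∧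
      ∀ b : (Fin 3 → ℤ) → ℂ, Summable (fun m => ‖b m‖) →
        (∀ t : Fin 3 → ℝ, HasSum (fun m => b m * ex m (fun i => (t i : ℂ)))
          (f (fun i => (t i : ℂ)))) → b = a

/-- OMEGA: the straightening of the foliation -/
def StOmega : Prop :=
  ∀ (h : ℝ) (v₀ : C3), 0 < h → form v₀ (cj v₀) (ee 2) ≠ 0 → ∀ ε > (0 : ℝ), ∃ δ > (0 : ℝ),
    ∀ a : C3 → C3, DifferentiableOn ℂ a (Str h) → Per h a → (∀ x ∈ Str h, ‖a x - v₀‖ ≤ δ) →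
      (∀ x ∈ Str h, ∑ i, fderiv ℂ a x (ee i) i = 0) →
      ∃ (v : C3) (Ω : C3 → ℂ), ‖v - v₀‖ ≤ ε ∧ DifferentiableOn ℂ Ω (Str (h / 2)) ∧
        ∀ x ∈ Str (h / 2), ‖Ω x‖ ≤ ε ∧
          form (a (x + Ω x • ee 2)) (cj v + fderiv ℂ Ω x (cj v) • ee 2)
            (v + fderiv ℂ Ω x v • ee 2) = 0

/-- CLOSED: pull backs of holomorphic two-forms of `ℂ²` are closed -/
def StClosed : Prop :=
  ∀ (W : Type) [NormedAddCommGroup W] [NormedSpace ℂ W] [FiniteDimensional ℂ W] (y : W → C2)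
    (J : C2 → ℂ) (x : W), (∀ᶠ z in 𝓝 x, DifferentiableAt ℂ y z) → DifferentiableAt ℂ J (y x) →
    ∀ a b c : W,
      fderiv ℂ (fun z => J (y z) * det2 (fderiv ℂ y z b) (fderiv ℂ y z c)) x a +
        fderiv ℂ (fun z => J (y z) * det2 (fderiv ℂ y z c) (fderiv ℂ y z a)) x b +
        fderiv ℂ (fun z => J (y z) * det2 (fderiv ℂ y z a) (fderiv ℂ y z b)) x c = 0

/-- the kernel vector of the constant form -/
def kerV (l : Fin 3 → C2) : C3 := ![det2 (l 1) (l 2), det2 (l 2) (l 0), det2 (l 0) (l 1)]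

/-- `T` is locally the composition of `p` with a holomorphic map to `C` -/
def Lifts {W X : Type} [NormedAddCommGroup W] [NormedSpace ℂ W] (C : Set C2) (p : C2 → X)
    (T : W → X) (q : W) : Prop :=
  ∃ ξ : W → C2, ∀ᶠ z in 𝓝 q, DifferentiableAt ℂ ξ z ∧ ξ z ∈ C ∧ T z = p (ξ z)

/-- TUBE: from a straightened neck to a holomorphic tube -/
def StTube : Prop :=
  ∀ (l : Fin 3 → C2) (h : ℝ), 0 < h → form (kerV l) (cj (kerV l)) (ee 2) ≠ 0 →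
    ∃ ρ > (0 : ℝ), ∀ ε > (0 : ℝ), ∃ δ > (0 : ℝ),
    ∀ (X : Type) (C : Set C2) (p : C2 → X) (J : C2 → ℂ) (k : C3 → X) (θ : C3 → C3) (v : C3)
      (y₀ : C3 → C2), ‖v - kerV l‖ ≤ δ →
      (∀ y ∈ C, DifferentiableAt ℂ J y ∧ J y ≠ 0) →
      (∀ x ∈ Str h, ‖θ x - kerV l‖ ≤ δ ∧ form (θ x) (cj v) v = 0 ∧
        ∃ y : C3 → C2, ∀ᶠ z in 𝓝 x, DifferentiableAt ℂ y z ∧ y z ∈ C ∧ k z = p (y z) ∧
          ∀ ξ η : C3, form (θ z) ξ η = J (y z) * det2 (fderiv ℂ y z ξ) (fderiv ℂ y z η)) →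
      (∀ x ∈ ball (0 : C3) h, DifferentiableAt ℂ y₀ x ∧ y₀ x ∈ C ∧ k x = p (y₀ x) ∧
        ‖y₀ x - LL l x‖ ≤ δ ∧
        ∀ ξ η : C3, form (θ x) ξ η = J (y₀ x) * det2 (fderiv ℂ y₀ x ξ) (fderiv ℂ y₀ x η)) →
      ∃ (T : C2 → X) (ξ : C2 → C2), (∀ q : C2, ‖q.1‖ < ρ → Lifts C p T q) ∧
        ∀ q ∈ ball (0 : C2) ρ, DifferentiableAt ℂ ξ q ∧ T q = p (ξ q) ∧
          ‖ξ q - (q.1 • l 2 + q.2 • LL l (cj (kerV l)))‖ ≤ ε

/-- NECK: the tube of an approximately flat neck -/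
def StNeck : Prop :=
  ∀ (l : Fin 3 → C2) (C : Set C2) (ρ₀ : ℝ), IsOpen C → Cell l ⊆ C → 0 < ρ₀ →
    form (kerV l) (cj (kerV l)) (ee 2) ≠ 0 →
    ∃ ρ > (0 : ℝ), ∀ ε > (0 : ℝ), ∃ δ > (0 : ℝ),
    ∀ (X : Type) (p : C2 → X) (E : Fin 3 → C2 → C2) (J : C2 → ℂ), Flat l C ρ₀ δ p E J →
      ∃ (T : C2 → X) (ξ : C2 → C2), (∀ q : C2, ‖q.1‖ < ρ → Lifts C p T q) ∧
        ∀ q ∈ ball (0 : C2) ρ, DifferentiableAt ℂ ξ q ∧ T q = p (ξ q) ∧
          ‖ξ q - (q.1 • l 2 + q.2 • LL l (cj (kerV l)))‖ ≤ ε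

/-- DEFORM: flat necks of the central fibre give approximately flat necks of the nearby fibres -/
def StDeform : Prop :=
  ∀ (T E : Type) [TopologicalSpace T] [TopologicalSpace E] (F : Family T E)
    (vol : E → T × C2 → ℂ), RelForm F vol → ∀ (s : T) (π : C2 → E) (l : Fin 3 → C2)
    (C₀ : Set C2) (J₀ : ℂ), IsOpen C₀ → Cell l ⊆ C₀ → J₀ ≠ 0 →
    (∀ y ∈ C₀, FH F s π y ∧ jac F vol s π y = J₀) →
    (∀ i, ∀ y ∈ C₀, y + l i ∈ C₀ → π (y + l i) = π y) →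
    ∃ (C : Set C2) (ρ : ℝ), IsOpen C ∧ Cell l ⊆ C ∧ closure C ⊆ C₀ ∧ IsCompact (closure C) ∧
      0 < ρ ∧ ∀ δ > (0 : ℝ), ∀ 𝒪 : Set (C2 × E), (∀ y ∈ closure C, 𝒪 ∈ 𝓝 (y, π y)) →
      ∀ᶠ t in 𝓝 s, ∃ (p : C2 → E) (Ei : Fin 3 → C2 → C2),
        (∀ y ∈ C, FH F t p y ∧ (y, p y) ∈ 𝒪) ∧
        Flat l C ρ δ p Ei (fun y => J₀⁻¹ * jac F vol t p y)

/-- the nearby fibres contain tubes close to the flat tube `π (y₀ + c e + w u)` -/
def Tubes {T E : Type} [TopologicalSpace T] [TopologicalSpace E] (F : Family T E) (s : T)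
    (π : C2 → E) (y₀ e u : C2) : Prop :=
  ∃ ρ > (0 : ℝ), ∀ 𝒪 : Set (C2 × E),
    (∀ q ∈ closedBall (0 : C2) ρ, 𝒪 ∈ 𝓝 (q, π (y₀ + q.1 • e + q.2 • u))) →
    ∀ᶠ t in 𝓝 s, ∃ P : C2 → E, (∀ q : C2, ‖q.1‖ ≤ ρ → FH F t P q) ∧
      ∀ q ∈ closedBall (0 : C2) ρ, (q, P q) ∈ 𝒪

/-- NECKFAM -/
def StNeckFam : Prop :=
  ∀ (T E : Type) [TopologicalSpace T] [TopologicalSpace E] (F : Family T E)
    (vol : E → T × C2 → ℂ), RelForm F vol → ∀ (s : T) (π : C2 → E) (l : Fin 3 → C2) (y₀ : C2)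
    (C₀ : Set C2) (J₀ : ℂ), IsOpen C₀ → (∀ y ∈ Cell l, y₀ + y ∈ C₀) → J₀ ≠ 0 →
    (∀ y ∈ C₀, FH F s π y ∧ jac F vol s π y = J₀) →
    (∀ i, ∀ y ∈ C₀, y + l i ∈ C₀ → π (y + l i) = π y) →
    form (kerV l) (cj (kerV l)) (ee 2) ≠ 0 →
    Tubes F s π y₀ (l 2) (LL l (cj (kerV l)))

/-- the points of the total space which lie in the set `Om` of their fibre -/
def OmE {T E : Type} [TopologicalSpace T] [TopologicalSpace E] (F : Family T E) : Set E :=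
  {x | (⟨x, rfl⟩ : Fib F (F.p x)) ∈ Om (Fib F (F.p x))}

/-- TWO: two transversal tubes -/
def StTwo : Prop :=
  ∀ (T E : Type) [TopologicalSpace T] [TopologicalSpace E] [T2Space E] (F : Family T E),
    IsProperMap F.p → ∀ (s : T) (π : C2 → E) (y₀ e u e' u' : C2),
    (∀ᶠ y in 𝓝 y₀, FH F s π y) →
    (fderiv ℂ (fun y => (F.triv (π y₀) (π y)).2) y₀).det ≠ 0 →
    det2 e u ≠ 0 → det2 e' u' ≠ 0 → det2 u u' ≠ 0 →
    Tubes F s π y₀ e u → Tubes F s π y₀ e' u' → OmE F ∈ 𝓝 (π y₀)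

/-- A fibre dominated by a torus: `π` is periodic and etale outside `(1 / N) Λ`, pulls back the
two-form to a constant form, and every point of the fibre is the centre of a small disc with
boundary in the image. -/
structure TorusDom {T E : Type} [TopologicalSpace T] [TopologicalSpace E] (F : Family T E)
    (vol : E → T × C2 → ℂ) (s : T) where
  l : Fin 4 → C2
  indep : LinearIndependent ℝ l
  N : ℕ
  N_pos : 0 < N
  π : C2 → E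
  J₀ : ℂ
  J₀_ne : J₀ ≠ 0
  hol : ∀ y : C2, (N : ℂ) • y ∉ AddSubgroup.closure (range l) →
    FH F s π y ∧ jac F vol s π y = J₀
  per : ∀ i, ∀ y : C2, (N : ℂ) • y ∉ AddSubgroup.closure (range l) → π (y + l i) = π y
  disc : ∀ x : E, F.p x = s → ∃ g : ℂ → E, g 0 = x ∧
    (∀ c : ℂ, ‖c‖ ≤ 1 → FH F s g c ∧ g c ∈ (F.triv x).source) ∧
    ∀ c : ℂ, ‖c‖ = 1 → ∃ y : C2, (N : ℂ) • y ∉ AddSubgroup.closure (range l) ∧ g c = π y

/-- SLAB: the image of `π` has a neighbourhood in `OmE` -/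
def StSlab : Prop :=
  ∀ (T E : Type) [TopologicalSpace T] [TopologicalSpace E] [T2Space E] (F : Family T E),
    IsProperMap F.p → ∀ (vol : E → T × C2 → ℂ), RelForm F vol → ∀ (s : T)
    (D : TorusDom F vol s) (y : C2), (D.N : ℂ) • y ∉ AddSubgroup.closure (range D.l) →
    OmE F ∈ 𝓝 (D.π y)

/-- BASE: the fibres near a fibre dominated by a torus -/
def StBase : Prop :=
  ∀ (T E : Type) [TopologicalSpace T] [TopologicalSpace E] [T2Space E] (F : Family T E),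
    IsProperMap F.p → ∀ (vol : E → T × C2 → ℂ), RelForm F vol → ∀ (s : T),
    Nonempty (TorusDom F vol s) → ∀ᶠ t in 𝓝 s, Om (Fib F t) = univ

/-- KUM: Kummer fibres are dominated by a torus -/
def StKum : Prop :=
  ∀ (T E : Type) [TopologicalSpace T] [TopologicalSpace E] (F : Family T E)
    (vol : E → T × C2 → ℂ), RelForm F vol → ∀ (s : T), All.IsKummer (Fib F s) →
    Nonempty (TorusDom F vol s)

/-- TRANS: the set `Om` and etale maps; strong dominability -/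
def StTrans : Prop :=
  (∀ (X Y : Type) [TopologicalSpace X] [ChartedSpace C2 X] [IsManifold 𝓘(ℂ, C2) ω X]
    [TopologicalSpace Y] [ChartedSpace C2 Y] [IsManifold 𝓘(ℂ, C2) ω Y] (b : X → Y),
    (∀ x, All.Hol b x) → ∀ x ∈ Om X,
    (fderiv ℂ (fun w => chartAt C2 (b x) (b ((chartAt C2 x).symm w))) (chartAt C2 x x)).det ≠ 0 →
    b x ∈ Om Y) ∧
  ∀ (X : Type) [TopologicalSpace X] [ChartedSpace C2 X] [IsManifold 𝓘(ℂ, C2) ω X] (G : C2 → X),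
    (∀ v, All.Hol G v) → All.Etale G 0 → G 0 ∈ Om X

end Vale.Agent.P290Z
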