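import Vale.Agent.P290Z.Spec3L
import Vale.Agent.P290Z.W.BRSpec
import Vale.Agent.P290Z.Spec2

/-! P290Z, part III: the geometric statements which enter the final assembly. -/

open Set Filter Metric
open scoped Topology Manifold ContDiff

noncomputable section

namespace Vale.Agent.P290Z.Top

open Vale.Agent.P290 Vale.Agent.P290.H805 Vale.Agent.P267
open Vale.Agent.P290Z.W Vale.Agent.P290Z.W.Kur Vale.Agent.P290Z.W.BR Vale.Agent.P290Z.Lat
open Vale.Agent.P290.H726 (bil)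
open Vale.Agent.P290.H342 (UData)
open Vale.Agent.P267.FL (TwoF)
open Vale.Agent.P267.BlockC (pair ExactTwo)
open Vale.Agent.P290.H686 (pb2)

/-- `s` is the class of the holomorphic two-form -/
def Prd (Z : W.K3) {N : ℕ} (U : UData Z.X N) (s : Fin N → ℂ) : Prop :=
  ExactTwo (omF Z - U.combC s)

/-- the same surface with the two-form multiplied by `c` -/
def scale (Z : W.K3) (c : ℂ) (hc : c ≠ 0) : W.K3 where
  X := Z.X
  manifold := Z.manifold
  t2 := Z.t2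
  compact := Z.compact
  conn := Z.conn
  b1 := Z.b1
  vol := fun e y => c * Z.vol e y
  holo := fun e he => ⟨(Z.holo e he).1.const_mul c, fun y hy =>
    ⟨mul_ne_zero hc ((Z.holo e he).2 y hy).1, fun t ht h => by
      rw [((Z.holo e he).2 y hy).2 t ht h, mul_assoc]⟩⟩

/-- `Z` is isomorphic to members of a family which converge to a Kummer surface -/
def AK (Z : W.K3) : Prop :=
  ∃ (X : W.K3) (T : Type) (_ : TopologicalSpace T) (_ : T2Space T) (M : MPre X T) (s : T)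
    (a : ℕ → T), All.IsKummer (M.k3 s).X ∧ Tendsto a atTop (𝓝 s) ∧
    ∀ n, ∃ e : Z.X ≃ₜ (M.k3 (a n)).X, Bih e

/-- A map `q` from `Z` minus a finite set to `Y` which preserves the two-forms. Curves through the
points of the finite set have holomorphic images, and the points outside the image are centres of
discs with boundary in the image. -/
structure Cover (Z Y : W.K3) where
  q : Z.X → Y.X
  Fix : Set Z.X
  fin : Fix.Finite
  hol : ∀ z ∉ Fix, All.Hol q z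
  jac : ∀ z ∉ Fix, W.H445.Om Y (q z) *
    (fderiv ℂ (fun w => chartAt C2 (q z) (q ((chartAt C2 z).symm w))) (chartAt C2 z z)).det =
      W.H445.Om Z z
  lift : ∀ (g : ℂ → Z.X) (c : ℂ), g c ∈ Fix → (∀ᶠ c' in 𝓝 c, MD g c') →
    (∀ᶠ c' in 𝓝[≠] c, g c' ≠ g c) → ∃ y, MD (Function.update (fun c' => q (g c')) c y) c
  cover : ∀ x : Y.X, x ∈ q '' Fixᶜ ∨ ∃ (g : ℂ → Y.X) (R : ℝ), 1 < R ∧ g 0 = x ∧
    (∀ c : ℂ, ‖c‖ < R → MD g c) ∧ ∀ c : ℂ, ‖c‖ = 1 → g c ∈ q '' Fixᶜ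

/-- LAT: the lattice of a K3 surface -/
def StLat : Prop := ∀ Z : W.K3, ∃ (N : ℕ) (U : UData Z.X N), IsK3L U.G

/-- HR: the period exists and satisfies the bilinear relations -/
def StHR : Prop :=
  ∀ (Z : W.K3) (N : ℕ) (U : UData Z.X N), (∃ s, Prd Z U s) ∧ ∀ s, Prd Z U s → IsPer U.G s

/-- REM: change of the marking -/
def StRem : Prop :=
  ∀ (Z : W.K3) (N : ℕ) (U : UData Z.X N) (g : Matrix (Fin N) (Fin N) ℤ), Isom U.G U.G g →
    ∃ U' : UData Z.X N, U'.G = U.G ∧ ∀ s, ExactTwo (U'.combC (act g s) - U.combC s)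

/-- ELL: an isotropic class of type `(1,1)` -/
def StEll : Prop :=
  ∀ (X : All.K3) (N : ℕ) (U : UData (toW X).X N) (s : Fin N → ℂ), IsK3L U.G →
    Prd (toW X) U s → ¬ NoIso U.G s → All.IsOka X.X

/-- FAM: the Kuranishi family with the markings of its members -/
def StFam : Prop :=
  ∀ (Z : W.K3) (N : ℕ) (U : UData Z.X N) (s : Fin N → ℂ), Prd Z U s →
    ∃ r > (0 : ℝ), ∃ (M : MFam Z (Fin N → ℂ) (Cone U.G s r)) (h : s ∈ Cone U.G s r)
      (V : ∀ t, UData (M.k3 t).X N), Bih (M.homeo ⟨s, h⟩) ∧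
      (∀ t, (V t).G = U.G ∧ Prd (M.k3 t) (V t) t ∧
        ∀ k, pb2 (M.homeo t) ((V t).combC k) = U.combC k)

/-- NIK: the theorem of Nikulin -/
def StNik : Prop :=
  ∀ (Z : W.K3) (N : ℕ) (U : UData Z.X N) (κ : KConf U.G) (s : Fin N → ℂ), Prd Z U s → GenK κ s →
    All.IsKummer Z.X

/-- TORK: the Torelli theorem for generic Kummer surfaces, with the bound for the energy -/
def StTorK : Prop :=
  ∀ (Z Z' : W.K3) (N : ℕ) (U : UData Z.X N) (U' : UData Z'.X N) (κ : KConf U.G) (s : Fin N → ℂ),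
    U'.G = U.G → Prd Z U s → Prd Z' U' s → GenK κ s →
    ∃ f : Z.X ≃ₜ Z'.X, Bih f ∧ ∀ (P : TwoF Z.X) (P' : TwoF Z'.X) (k k' : Fin N → ℂ),
      SCR P → Tames P → SCR P' → Tames P' → ExactTwo (P - U.combC k) →
      ExactTwo (P' - U'.combC k') →
      (pair P (pb2 f P')).re ≤ 4 * Real.pi ^ 2 * ‖bil U.G k k'‖

/-- TOR: the Torelli theorem -/
def StTor : Prop :=
  ∀ (Z Z' : W.K3) (N : ℕ) (U : UData Z.X N) (U' : UData Z'.X N) (s : Fin N → ℂ),
    U'.G = U.G → IsK3L U.G → Prd Z U s → Prd Z' U' s → ∃ f : Z.X ≃ₜ Z'.X, Bih f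

/-- AK: from the periods to the surfaces -/
def StAK : Prop :=
  ∀ (Z : W.K3) (N : ℕ) (U : UData Z.X N) (s : Fin N → ℂ), IsK3L U.G → Prd Z U s → ApxK U.G s → AK Z

/-- OKA: biholomorphic maps preserve the Oka property; surfaces near Kummer surfaces are Oka -/
def StOka : Prop :=
  (∀ (Z Z' : W.K3) (e : Z.X ≃ₜ Z'.X), Bih e → All.IsOka Z'.X → All.IsOka Z.X) ∧
  ∀ Z : W.K3, AK Z → All.IsOka Z.X

/-- COV: the double cover branched along eight curves -/
def StCov : Prop :=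
  ∀ (Y : W.K3) (N : ℕ) (U : UData Y.X N) (κ : KConf U.G) (v : Fin N → ℤ) (w : Fin N → ℝ) (d : ℤ),
    Prd Y U (pt v w) → bil U.G v v = 2 * d → Extra U.G w → GenN κ (pt v w) →
    ∃ Z : W.K3, Nonempty (Cover Z Y) ∧ ∀ (N' : ℕ) (U' : UData Z.X N'),
      ∃ (t : Fin N' → ℤ) (w' : Fin N' → ℝ), Prd Z U' (pt t w') ∧ bil U'.G t t = 4 * d ∧ Irr w'

/-- II2: necks descend -/
def StII2 : Prop :=
  ∀ (Z X : W.K3) (T : Type) [TopologicalSpace T] [T2Space T] (M : MPre X T) (s : T), AK Z →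
    Nonempty (Cover Z (M.k3 s)) → ∀ᶠ t in 𝓝 s, All.IsOka (M.k3 t).X

end Vale.Agent.P290Z.Top
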