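import Vale.Agent.P290Z.Spec1

/-!
# P290: a two dimensional contraction with an entire cut function
-/

open Set Metric

namespace Vale.Agent.P290Z

/-- Parts (a) and (b) of the planar lemma. -/
def PLab : Prop := ∀ (P : Set ℂ), IsCompact P → Convex ℝ P → P ∈ nhds (0 : ℂ) →
  ∀ M η ε : ℝ, 0 < η → 0 < ε → ∃ κ h : ℂ → ℂ, Differentiable ℂ κ ∧ Differentiable ℂ h ∧
    (∀ c ∈ P, ‖κ c - 1‖ < ε ∧ ‖h c - 1‖ < ε) ∧
    ∀ c : ℂ, ‖c‖ ≤ M → -1 ≤ (h c).re → ∃ s ∈ Icc (0 : ℝ) 1, ‖κ c - s‖ < η ∧ s • c ∈ P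

/-- The two dimensional version. -/
def T2S : Prop := ∀ r R ε : ℝ, 0 < r → 0 < ε →
  ∃ (β : ℂ × ℂ → ℂ × ℂ) (h : ℂ × ℂ → ℂ), Differentiable ℂ β ∧ Differentiable ℂ h ∧
    (∀ t, ‖t‖ ≤ r / 2 → ‖β t - t‖ < ε ∧ ‖h t - 1‖ < ε) ∧
    ∀ t, ‖t‖ ≤ R → -1 ≤ (h t).re → ‖β t‖ ≤ 0.9 * r

/-- the disc version -/
theorem PLab.disc (H : PLab) {ρ : ℝ} (hρ : 0 < ρ) (M : ℝ) {η ε : ℝ} (hη : 0 < η) (hε : 0 < ε) :
    ∃ κ h : ℂ → ℂ, Differentiable ℂ κ ∧ Differentiable ℂ h ∧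
      (∀ c, ‖c‖ ≤ ρ → ‖κ c - 1‖ < ε ∧ ‖h c - 1‖ < ε) ∧
      ∀ c : ℂ, ‖c‖ ≤ M → -1 ≤ (h c).re → ‖κ c‖ ≤ 1 + η ∧ ‖κ c * c‖ ≤ ρ + η := by
  have hM : 0 < |M| + 1 := by positivity
  obtain ⟨κ, h, h1, h2, h3, h4⟩ := H (closedBall 0 ρ) (isCompact_closedBall _ _)
    (convex_closedBall _ _) (closedBall_mem_nhds _ hρ) M (η / (|M| + 1)) ε (by positivity) hε
  refine ⟨κ, h, h1, h2, fun c hc => h3 c (mem_closedBall_zero_iff.2 hc), fun c hc hh => ?_⟩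
  obtain ⟨s, hs, a1, a2⟩ := h4 c hc hh
  rw [mem_closedBall_zero_iff, Complex.real_smul] at a2
  have a3 : η / (|M| + 1) ≤ η := div_le_self hη.le (by linarith [abs_nonneg M])
  have a4 : ‖(s : ℂ)‖ ≤ 1 := by rw [Complex.norm_real, Real.norm_of_nonneg hs.1]; exact hs.2
  have a5 : η / (|M| + 1) * ‖c‖ ≤ η := by
    rw [div_mul_eq_mul_div, div_le_iff₀ hM]
    nlinarith [le_abs_self M]
  constructor
  · linarith [norm_le_norm_sub_add (κ c) (s : ℂ)]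
  · have a6 : κ c * c = (κ c - s) * c + s * c := by ring
    rw [a6]
    refine (norm_add_le _ _).trans ?_
    rw [norm_mul]
    nlinarith [norm_nonneg c]

theorem t2_of (H : PLab) : T2S := by
  intro r R ε hr hε
  obtain ⟨e, he, e1, e2, e3⟩ : ∃ e : ℝ, 0 < e ∧ e ≤ 1 / 2 ∧ e ≤ 0.1 * r ∧ e * (1 + 2 * r) ≤ ε := by
    refine ⟨min (1 / 2) (min (0.1 * r) (ε / (1 + 2 * r))), by positivity, min_le_left _ _,
      (min_le_right _ _).trans (min_le_left _ _), ?_⟩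
    rw [← le_div_iff₀ (by positivity)]
    exact (min_le_right _ _).trans (min_le_right _ _)
  obtain ⟨κ, h, k1, k2, k3, k4⟩ := H.disc (ρ := 0.6 * r) (by positivity) R
    (η := 0.1 * r) (by positivity) he
  obtain ⟨C, hC⟩ := (isCompact_closedBall (0 : ℂ) R).exists_bound_of_continuousOn
    (k1.continuous.mul continuous_id).continuousOn
  obtain ⟨A, hA0, A1, A2⟩ : ∃ A : ℝ, 0 ≤ A ∧ R + C ≤ Real.exp A ∧ Real.exp (-(A / 2)) ≤ e := by
    refine ⟨max (R + C) (2 / e), le_max_of_le_right (by positivity),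
      (le_max_left _ _).trans ((le_add_of_nonneg_right zero_le_one).trans (Real.add_one_le_exp _)),
      ?_⟩
    rw [Real.exp_neg, inv_le_comm₀ (Real.exp_pos _) he]
    have := Real.add_one_le_exp (max (R + C) (2 / e) / 2)
    have h2 : 2 / e = 2 * e⁻¹ := div_eq_mul_inv _ _
    linarith [le_max_right (R + C) (2 / e)]
  obtain ⟨p, hp, p1⟩ : ∃ p : ℂ → ℂ, Differentiable ℂ p ∧ ∀ c, ‖p c‖ = Real.exp (-(A * (h c).re)) :=
    ⟨fun c => Complex.exp (-(A * h c)), by fun_prop, fun c => by rw [Complex.norm_exp]; simp⟩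
  obtain ⟨D, hD⟩ := (isCompact_closedBall (0 : ℂ) R).exists_bound_of_continuousOn
    hp.continuous.continuousOn
  obtain ⟨κ', h', l1, l2, l3, l4⟩ := H.disc (ρ := 0.6 * r) (by positivity) (R + D)
    (η := min 0.2 (0.1 * r)) (by positivity) he
  refine ⟨fun t => (κ' (t.2 - p t.1) * (κ t.1 * t.1), κ' (t.2 - p t.1) * (t.2 - p t.1)),
    fun t => h' (t.2 - p t.1), by fun_prop, by fun_prop, fun t ht => ?_, fun t ht hh => ?_⟩
  · have t1 := (norm_fst_le t).trans ht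
    have t2 := (norm_snd_le t).trans ht
    obtain ⟨a1, a2⟩ := k3 t.1 (by linarith)
    have a3 : ‖p t.1‖ ≤ e := by
      rw [p1]
      refine (Real.exp_le_exp.2 ?_).trans A2
      have a4 := (Complex.abs_re_le_norm (h t.1 - 1)).trans a2.le
      rw [Complex.sub_re, Complex.one_re, abs_le] at a4
      nlinarith [a4.1]
    have a4 : ‖t.2 - p t.1‖ ≤ 0.6 * r := by linarith [norm_sub_le t.2 (p t.1)]
    obtain ⟨b1, b2⟩ := l3 _ a4
    refine ⟨?_, by nlinarith⟩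
    rw [Prod.norm_def, max_lt_iff]
    constructor
    · have c1 : κ' (t.2 - p t.1) * (κ t.1 * t.1) - t.1 =
          ((κ' (t.2 - p t.1) - 1) * (κ t.1 - 1) + (κ' (t.2 - p t.1) - 1) + (κ t.1 - 1)) * t.1 := by
        ring
      have c2 : ‖(κ' (t.2 - p t.1) - 1) * (κ t.1 - 1) + (κ' (t.2 - p t.1) - 1) + (κ t.1 - 1)‖ ≤
          3 * e := by
        refine (norm_add₃_le).trans ?_
        rw [norm_mul]
        nlinarith [norm_nonneg (κ' (t.2 - p t.1) - 1), norm_nonneg (κ t.1 - 1)]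
      change ‖κ' (t.2 - p t.1) * (κ t.1 * t.1) - t.1‖ < ε
      rw [c1, norm_mul]
      nlinarith [mul_le_mul c2 t1 (norm_nonneg _) (by positivity), mul_pos he hr]
    · have c1 : κ' (t.2 - p t.1) * (t.2 - p t.1) - t.2 =
          (κ' (t.2 - p t.1) - 1) * (t.2 - p t.1) - p t.1 := by ring
      change ‖κ' (t.2 - p t.1) * (t.2 - p t.1) - t.2‖ < ε
      rw [c1]
      refine (norm_sub_le _ _).trans_lt ?_
      rw [norm_mul]
      nlinarith [mul_le_mul b1.le a4 (norm_nonneg _) he.le, mul_pos he hr]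
  · have t1 := (norm_fst_le t).trans ht
    have t2 := (norm_snd_le t).trans ht
    have a1 := hD t.1 (mem_closedBall_zero_iff.2 t1)
    obtain ⟨b1, b2⟩ := l4 (t.2 - p t.1) (by linarith [norm_sub_le t.2 (p t.1)]) hh
    have b3 : ‖κ' (t.2 - p t.1)‖ ≤ 1.2 := by linarith [min_le_left (0.2 : ℝ) (0.1 * r)]
    have b4 : ‖κ' (t.2 - p t.1) * (t.2 - p t.1)‖ ≤ 0.7 * r := by
      linarith [min_le_right (0.2 : ℝ) (0.1 * r)]
    rw [Prod.norm_def, max_le_iff]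
    refine ⟨?_, b4.trans (by linarith)⟩
    change ‖κ' (t.2 - p t.1) * (κ t.1 * t.1)‖ ≤ _
    rw [norm_mul]
    by_cases hc : -1 ≤ (h t.1).re
    · have c1 := (k4 t.1 t1 hc).2
      nlinarith [mul_le_mul b3 c1 (norm_nonneg _) (by norm_num)]
    · have c1 : Real.exp A ≤ ‖p t.1‖ := by
        rw [p1]
        exact Real.exp_le_exp.2 (by nlinarith [not_le.1 hc])
      have c2 : ‖κ t.1 * t.1‖ ≤ ‖t.2 - p t.1‖ := by
        have c3 : ‖κ t.1 * t.1‖ ≤ C := hC t.1 (mem_closedBall_zero_iff.2 t1)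
        have c4 := norm_sub_norm_le (p t.1) t.2
        rw [norm_sub_rev] at c4
        linarith
      rw [norm_mul] at b4
      nlinarith [mul_le_mul_of_nonneg_left c2 (norm_nonneg (κ' (t.2 - p t.1)))]

theorem StPL.ab (H : StPL) : PLab := fun P h1 h2 h3 M η ε h4 h5 => by
  obtain ⟨κ, h, -, -, -, a1, a2, a3, a4, -⟩ := H P h1 h2 h3 M η ε h4 h5
  refine ⟨κ, h, a1, a2, a3, fun c b1 b2 => ?_⟩
  obtain ⟨s, c1, c2, c3, c4⟩ := a4 c b1 b2
  exact ⟨s, ⟨c1, c2⟩, c3, c4⟩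

theorem t2 : StPL → StT2 := fun H r R ε hr hε => by
  obtain ⟨β, h, a1, a2, a3, a4⟩ := t2_of H.ab r R ε hr hε
  exact ⟨β, h, a1, a2, a3, fun t b1 b2 => (a4 t b1 b2).trans (by norm_num)⟩

end Vale.Agent.P290Z
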