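import Vale.Agent.P290Z.Spec2
import Vale.Agent.P290Z.T2
import Vale.Agent.P290Z.Cross.Trans

/-!
# P290: the crossing lemma
-/

open Set Filter Metric
open scoped Topology Manifold ContDiff

namespace Vale.Agent.P290Z

open Vale.Agent.P290 Vale.Agent.P290.H805

namespace Crx

variable {X : Type} [MetricSpace X] [ChartedSpace C2 X] [IsManifold 𝓘(ℂ, C2) ω X]

omit [IsManifold 𝓘(ℂ, C2) ω X] in
theorem cc_of (hPL : PLab) (hGlue : StGlue) {S : C2 → X} {σ : ℝ} (hσ : 0 < σ)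
    (hS : ∀ q : C2, ‖q.1‖ ≤ 4 * σ → MD S q)
    (hT : ∀ R : ℝ, ∀ δ > (0 : ℝ), ∃ (Γ : ℂ × C2 → X) (e : ℂ × C2 → C2) (l : ℝ), 0 < l ∧
      (∀ (a : ℂ) (t : C2), ‖a‖ ≤ R → ‖t‖ ≤ l → ∀ᶠ y in 𝓝 (a, t), MD Γ y) ∧
      ∀ (a : ℂ) (t : C2), ‖a‖ ≤ 3 * σ → ‖t‖ < l → DifferentiableAt ℂ e (a, t) ∧
        ‖e (a, t)‖ ≤ δ * ‖t‖ ∧ Γ (a, t) = S ((a, 0) + (t + e (a, t))))
    {R : ℝ} (hR : σ ≤ R) : CC (closedBall (0 : C2) σ) (closedBall (0 : C2) R) S := by
  intro ε hε
  have hS' : ∀ q : C2, ‖q.1‖ < 4 * σ → ∀ᶠ z in 𝓝 q, MD S z := fun q hq =>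
    ((continuous_fst.norm.continuousAt (x := q)).eventually_lt_const hq).mono fun z hz => hS z hz.le
  obtain ⟨η, hη, hηS⟩ := Tube.exists_uniform (isCompact_closedBall (0 : C2) σ) (0 : C2)
    {y | dist (S (y.1 + y.2)) (S y.1) < ε} fun x hx => by
      have a1 := (hS x ((norm_fst_le x).trans
        ((mem_closedBall_zero_iff.1 hx).trans (by linarith)))).continuousAt
      have a2 : ContinuousAt (fun y : C2 × C2 => S (y.1 + y.2)) (x, 0) :=
        ContinuousAt.comp (by simpa using a1) (continuous_fst.add continuous_snd).continuousAt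
      exact (a2.dist (ContinuousAt.comp (f := Prod.fst) a1
        continuous_fst.continuousAt)).eventually_lt_const (by simpa using hε)
  obtain ⟨ε₁, e0, e1, e2⟩ : ∃ ε₁ : ℝ, 0 < ε₁ ∧ ε₁ ≤ 1 / 16 ∧ ε₁ * σ ≤ η / 2 :=
    ⟨min (1 / 16) (η / 2 / σ), by positivity, min_le_left _ _,
      (le_div_iff₀ hσ).1 (min_le_right _ _)⟩
  obtain ⟨κ, h, k1, k2, k3, k4⟩ := hPL.disc hσ R hσ e0
  obtain ⟨R', hR'⟩ := (isCompact_closedBall (0 : ℂ) R).exists_bound_of_continuousOn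
    (f := fun c => κ c * c) (k1.continuous.mul continuous_id').continuousOn
  have hL : Good (closedBall (0 : C2) R) := ⟨isCompact_closedBall _ _, convex_closedBall _ _⟩
  have hk : Differentiable ℂ fun x : C2 => κ x.1 * x.1 := by fun_prop
  have hh : Differentiable ℂ fun x : C2 => h x.1 := by fun_prop
  have hu : Continuous fun x : C2 => (h x.1).re := Complex.continuous_re.comp hh.continuous
  have hA : ∀ x ∈ closedBall (0 : C2) R, -1 ≤ (h x.1).re → ‖κ x.1 * x.1‖ ≤ σ + σ := fun x hx a =>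
    (k4 x.1 ((norm_fst_le x).trans (mem_closedBall_zero_iff.1 hx)) a).2
  have hW : IsOpen {x : C2 | ‖κ x.1 * x.1‖ < 3 * σ ∧ (h x.1).re < -1 / 4 ∧ ‖x‖ < R + 1} :=
    (isOpen_lt hk.continuous.norm continuous_const).inter
      ((isOpen_lt hu continuous_const).inter (isOpen_lt continuous_norm continuous_const))
  have hZW : closedBall (0 : C2) R ∩ {x | -1 ≤ (h x.1).re ∧ (h x.1).re ≤ -1 / 2} ⊆
      {x : C2 | ‖κ x.1 * x.1‖ < 3 * σ ∧ (h x.1).re < -1 / 4 ∧ ‖x‖ < R + 1} := fun x hx =>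
    ⟨by linarith [hA x hx.1 hx.2.1], by linarith [hx.2.2],
      by linarith [mem_closedBall_zero_iff.1 hx.1]⟩
  obtain ⟨δ, hδ, hG⟩ := hGlue C2 _ hL _ hh (-1) (-1 / 2) (by norm_num) _ hW hZW 1 one_pos 1 one_pos
  obtain ⟨Γ, e, l, hl, t1, t2⟩ := hT R' (δ / 2) (half_pos hδ)
  obtain ⟨c, c0, c1, c2, c3⟩ : ∃ c : ℝ, 0 < c ∧ 2 * c ≤ l ∧ c ≤ σ ∧ c ≤ η / 2 :=
    ⟨min (l / 2) (min σ (η / 2)), by positivity, by linarith [min_le_left (l / 2) (min σ (η / 2))],
      (min_le_right _ _).trans (min_le_left _ _), (min_le_right _ _).trans (min_le_right _ _)⟩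
  have hR1 : 0 < R + 1 := by linarith
  obtain ⟨m, m1, m2, m3⟩ := exists_m (θ := min ε₁ (c / (R + 1))) (by positivity)
  have hc : ∀ s : C2, ‖(c : ℂ) • s‖ = c * ‖s‖ := fun s => by
    rw [norm_smul, Complex.norm_real, Real.norm_of_nonneg c0.le]
  have hb : ∀ (x s : C2), (h x.1).re ≤ -1 / 4 → ‖x‖ ≤ R + 1 → ‖s‖ < 1 →
      ‖((0, m (h x.1) * x.2) : C2) + (c : ℂ) • s‖ < 2 * c := fun x s a1 a2 a3 => by
    have a4 : ‖((0, m (h x.1) * x.2) : C2)‖ ≤ c := by
      rw [Prod.norm_def, norm_zero, max_le_iff, norm_mul]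
      refine ⟨c0.le, ?_⟩
      have a5 := (le_div_iff₀ hR1).1 ((m2 _ a1).trans (min_le_right _ _))
      exact (mul_le_mul_of_nonneg_left ((norm_snd_le x).trans a2) (norm_nonneg _)).trans a5
    refine (norm_add_le _ _).trans_lt ?_
    rw [hc]
    nlinarith
  have hd : Differentiable ℂ fun y : C2 × C2 =>
      ((κ y.1.1 * y.1.1, (0, m (h y.1.1) * y.1.2) + (c : ℂ) • y.2) : ℂ × C2) := by fun_prop
  obtain ⟨α, τ, g1, g2, g3, g4, g5⟩ := hG
    (fun y => (c : ℂ)⁻¹ • e (κ y.1.1 * y.1.1, (0, m (h y.1.1) * y.1.2) + (c : ℂ) • y.2))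
    (fun y hy => (((t2 _ _ hy.1.1.le ((hb y.1 y.2 hy.1.2.1.le hy.1.2.2.le
      (mem_ball_zero_iff.1 hy.2)).trans_le c1)).1.comp y (hd y)).const_smul
        (c : ℂ)⁻¹).differentiableWithinAt)
    fun y hy => by
      have a1 := hb y.1 y.2 hy.1.2.1.le hy.1.2.2.le (mem_ball_zero_iff.1 hy.2)
      have a2 := (t2 _ _ hy.1.1.le (a1.trans_le c1)).2.1
      rw [norm_smul, norm_inv, Complex.norm_real, Real.norm_of_nonneg c0.le, inv_mul_le_iff₀ c0]
      nlinarith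
  refine ⟨_, patch hu (a := -1) (b := -1 / 2) (c := -3 / 4) (by norm_num) (by norm_num)
    (f := fun x => S ((κ x.1 * x.1, m (h x.1) * x.2) + (c : ℂ) • α x))
    (g := fun x => Γ (κ x.1 * x.1, (0, m (h x.1) * x.2) + (c : ℂ) • τ x)) ?_ ?_ ?_,
    fun x hx => ?_⟩
  · refine eventually_nhdsSet_iff_forall.2 fun x hx => ev_comp (hS' _ ?_) ?_
    · have a1 := norm_fst_le ((c : ℂ) • α x)
      have a2 := g3 x hx.1 hx.2
      rw [hc] at a1
      refine (norm_add_le _ _).trans_lt ?_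
      nlinarith [hA x hx.1 hx.2]
    · filter_upwards [eventually_nhdsSet_iff_forall.1 g1 x hx] with y hy
      fun_prop
  · refine eventually_nhdsSet_iff_forall.2 fun x hx => ev_comp (t1 _ _ ?_ ?_) ?_
    · exact hR' x.1 (mem_closedBall_zero_iff.2
        ((norm_fst_le x).trans (mem_closedBall_zero_iff.1 hx.1)))
    · exact ((hb x _ (le_trans hx.2 (by norm_num)) (by linarith [mem_closedBall_zero_iff.1 hx.1])
        (g4 x hx.1 hx.2)).trans_le c1).le
    · filter_upwards [eventually_nhdsSet_iff_forall.1 g2 x hx] with y hy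
      fun_prop
  · refine eventually_nhdsSet_iff_forall.2 fun x hx => ?_
    filter_upwards [eventually_nhdsSet_iff_forall.1 g5 x hx, hW.mem_nhds (hZW hx),
      (g2.self_of_nhdsSet x ⟨hx.1, hx.2.2⟩).continuousAt.norm.eventually_lt_const
        (g4 x hx.1 hx.2.2)] with y a1 a2 a3
    rw [(t2 _ _ a2.1.le ((hb y _ a2.2.1.le a2.2.2.le a3).trans_le c1)).2.2, sub_eq_iff_eq_add.1 a1,
      smul_add, smul_inv_smul₀ (Complex.ofReal_ne_zero.2 c0.ne')]
    congr 1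
    ext <;> simp <;> ring
  · have a1 := mem_closedBall_zero_iff.1 hx
    obtain ⟨a2, a3⟩ := k3 x.1 ((norm_fst_le x).trans a1)
    have a4 := (Complex.abs_re_le_norm (h x.1 - 1)).trans a3.le
    rw [Complex.sub_re, Complex.one_re, abs_le] at a4
    have a5 := g3 x (mem_closedBall_zero_iff.2 (a1.trans hR)) (by linarith [a4.1])
    have a6 := (m3 _ (a3.le.trans e1)).trans (min_le_left _ _)
    rw [if_pos (by linarith [a4.1])]
    have a7 := hηS x hx ((κ x.1 * x.1, m (h x.1) * x.2) + (c : ℂ) • α x - x) (by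
      have b1 : ‖((κ x.1 * x.1, m (h x.1) * x.2) : C2) - x‖ ≤ ε₁ * σ := by
        rw [Prod.norm_def, max_le_iff]
        constructor
        · change ‖κ x.1 * x.1 - x.1‖ ≤ _
          rw [← sub_one_mul, norm_mul]
          exact mul_le_mul a2.le ((norm_fst_le x).trans a1) (norm_nonneg _) e0.le
        · change ‖m (h x.1) * x.2 - x.2‖ ≤ _
          rw [← sub_one_mul, norm_mul]
          exact mul_le_mul a6 ((norm_snd_le x).trans a1) (norm_nonneg _) e0.le
      rw [dist_zero_right, add_sub_right_comm]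
      refine (norm_add_le _ _).trans ?_
      rw [hc]
      nlinarith)
    simpa only [mem_ofPred_eq, add_sub_cancel] using a7

theorem cross_met (hPL : StPL) (hGlue : StGlue) (hInv : StInv) (hSpr : StSpr) (hLong : StLong)
    {S : C2 → X} {γ : ℂ → X} {r : ℝ} (hr : 0 < r) (hS : ∀ q : C2, ‖q.1‖ ≤ r → MD S q)
    (he : All.Etale S 0) (hγ : ∀ a, MD γ a) (h0 : ∀ a : ℂ, ‖a‖ ≤ r → S (a, 0) = γ a) :
    S 0 ∈ Om X := by
  have hS' : ∀ q : C2, ‖q.1‖ < r → ∀ᶠ z in 𝓝 q, MD S z := fun q hq =>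
    ((continuous_fst.norm.continuousAt (x := q)).eventually_lt_const hq).mono fun z hz => hS z hz.le
  have hG : ∀ y : ℂ × C2, ‖y.1 + y.2.1‖ < r →
      ∀ᶠ z in 𝓝 y, MD (fun y : ℂ × C2 => S ((y.1, 0) + y.2)) z := fun y hy =>
    ev_comp (g := fun y : ℂ × C2 => ((y.1, 0) : C2) + y.2) (hS' _ hy)
      (Eventually.of_forall fun z => by fun_prop)
  obtain ⟨ρ, hρ, hρr, U, M, ψ, u1, u2, m1, m2, -, m3, m4⟩ := hInv ℂ X {0} isCompact_singleton
    (fun y : ℂ × C2 => S ((y.1, 0) + y.2))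
    (eventually_nhdsSet_iff_forall.2 fun y hy => hG y (by
      rw [hy.1, hy.2]
      simpa using hr))
    (fun x hx => by
      rw [hx]
      simpa [Prod.mk_zero_zero] using he) (r / 4) (by positivity)
  obtain ⟨s, hs, hsU⟩ := nhds_basis_closedBall.mem_iff.1 (u1.mem_nhds (u2 rfl))
  obtain ⟨σ, hσ, s1, s2⟩ : ∃ σ : ℝ, 0 < σ ∧ 3 * σ ≤ s ∧ 4 * σ ≤ r :=
    ⟨min (s / 3) (r / 4), by positivity, by linarith [min_le_left (s / 3) (r / 4)],
      by linarith [min_le_right (s / 3) (r / 4)]⟩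
  refine (hLong X).2.2.2 S σ hσ (eventually_nhdsSet_iff_forall.2 fun q hq => hS' q ?_) he
    fun R ε hε => ?_
  · linarith [norm_fst_le q, mem_closedBall_zero_iff.1 hq]
  · obtain ⟨F, f1, f2⟩ := cc_of hPL.ab hGlue hσ (fun q hq => hS q (hq.trans s2))
      (fun R δ hδ => exists_trans hInv hSpr (G := fun y : ℂ × C2 => S ((y.1, 0) + y.2)) hγ hρ m1 m2
        (fun a ha => ⟨by simpa using h0 a (by linarith), fun t ht =>
          ⟨hG _ ((norm_add_le _ _).trans_lt (by linarith [norm_fst_le t])),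
            (m3 a (hsU (mem_closedBall_zero_iff.2 (ha.trans s1))) t ht).2.2⟩⟩)
        (fun p hp => (m4 p hp).2.2) R hδ) (le_max_right R σ) ε hε
    exact ⟨F, f1.filter_mono (nhdsSet_mono (closedBall_subset_closedBall (le_max_left _ _))), f2⟩

end Crx

theorem cross : StRunge → StPL → StGlue → StInv → StSpr → StLong → StCross := by
  intro _ h1 h2 h3 h4 h5 X _ _ _ _ _ S γ r hr hS he hγ h0
  have : SecondCountableTopology X := ChartedSpace.secondCountable_of_sigmaCompact C2 X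
  let _ : MetricSpace X := TopologicalSpace.metrizableSpaceMetric X
  exact Crx.cross_met h1 h2 h3 h4 h5 hr hS he hγ h0

end Vale.Agent.P290Z
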