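import Vale.Agent.P290Z.Spec2
import Vale.Agent.P290.R2.H514.JacClose
import Vale.Agent.P290.R2.H236.Sym

/-! P290Z: flat necks of the central fibre give approximately flat necks of the nearby fibres. -/

open Set Filter Metric
open scoped Topology

namespace Vale.Agent.P290Z

open Vale.Agent.P290 Vale.Agent.P290.H805 Vale.Agent.P290.R2.H596

namespace Dfm

section near
variable {G : C2 → C2} {z : C2} {r : ℝ} (hr : 0 < r) (hd : DifferentiableOn ℂ G (ball z r))
  (hb : ∀ y ∈ ball z r, ‖G y - y‖ ≤ r / 8)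
include hr hd hb

theorem expand {x y : C2} (hx : x ∈ ball z (r / 2)) (hy : y ∈ ball z (r / 2)) :
    ‖x - y‖ ≤ 2 * ‖G x - G y‖ := by
  have h1 := lip_of_bound (g := fun y => G y - y) hr (hd.sub differentiableOn_id) hb (by linarith)
    hx hy
  have h2 := norm_sub_le (G x - G y) (G x - x - (G y - y))
  rw [show G x - G y - (G x - x - (G y - y)) = x - y by abel] at h2
  linarith [norm_nonneg (x - y), norm_nonneg (G x - G y)]

theorem onto {b : C2} (h : ‖b - z‖ ≤ r / 8) : ∃ y ∈ ball z (r / 2), G y = b := by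
  obtain ⟨c, h1, h2⟩ := nearId_surj (g := fun y => G y - y) hr (hd.sub differentiableOn_id) hb
    (by linarith) (by linarith) h
  refine ⟨z + c, ?_, by rwa [add_sub_cancel] at h2⟩
  rw [mem_ball, dist_eq_norm, add_sub_cancel_left]
  linarith

theorem diff_of_comp {h b : C2 → C2} {y : C2} (hb' : DifferentiableAt ℂ b y)
    (he : ∀ᶠ w in 𝓝 y, h w ∈ ball z (r / 2) ∧ G (h w) = b w) : DifferentiableAt ℂ h y := by
  obtain ⟨h1, h2⟩ := he.self_of_nhds
  have hc : ContinuousAt h y := by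
    rw [ContinuousAt, tendsto_iff_norm_sub_tendsto_zero]
    have h3 := (tendsto_iff_norm_sub_tendsto_zero.1 hb'.continuousAt).const_mul 2
    rw [mul_zero] at h3
    refine squeeze_zero' (Eventually.of_forall fun _ => norm_nonneg _) ?_ h3
    filter_upwards [he] with w hw
    rw [← hw.2, ← h2]
    exact expand hr hd hb hw.1 h1
  have h3 : DifferentiableAt ℂ G (h y) :=
    hd.differentiableAt (isOpen_ball.mem_nhds (ball_subset_ball (by linarith) h1))
  have h4 := fderiv_le_of_bound (g := fun y => G y - y) hr (hd.sub differentiableOn_id) hb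
    (by linarith) h1
  rw [fderiv_fun_sub h3 differentiableAt_fun_id, fderiv_fun_id, norm_sub_rev] at h4
  let u := Units.oneSub (1 - fderiv ℂ G (h y)) (h4.trans_lt (by norm_num))
  have h5 : (u : C2 →L[ℂ] C2) = fderiv ℂ G (h y) := sub_sub_cancel _ _
  refine (HasFDerivAt.of_comp_of_leftInverse (f'symm := (↑u⁻¹ : C2 →L[ℂ] C2)) hc h3.hasFDerivAt
    hb'.hasFDerivAt (he.mono fun w hw => hw.2) fun v => ?_).differentiableAt
  rw [← h5]
  exact congrArg (fun A : C2 →L[ℂ] C2 => A v) u.inv_mul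

end near

theorem good_cell (l : Fin 3 → C2) : IsCompact (Cell l) ∧ Convex ℝ (Cell l) := by
  let L : (Fin 3 → ℝ) →ₗ[ℝ] C2 := Fintype.linearCombination ℝ l
  have h : Cell l = L '' Set.pi univ fun _ => Icc 0 1 := by
    ext y
    refine exists_congr fun t => and_congr ⟨fun h i _ => h i, fun h i => h i trivial⟩ ?_
    rw [eq_comm]
    simp [L, Fintype.linearCombination_apply]
  rw [h]
  exact ⟨(isCompact_univ_pi fun _ => isCompact_Icc).image L.continuous_of_finiteDimensional,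
    (convex_pi fun _ _ => convex_Icc 0 1).linear_image L⟩

variable {T E : Type} [TopologicalSpace T] [TopologicalSpace E] {F : Family T E}

/-- the pairs which are close to the graph of `g` over `S`, in a trivialisation -/
def Cl (F : Family T E) (x : E) (M : C2 →L[ℂ] C2) (S : Set C2) (g : C2 → E) (η : ℝ) :
    Set (C2 × E) :=
  {q | q.1 ∈ S → q.2 ∈ (F.triv x).source ∧ ‖M ((F.triv x q.2).2 - (F.triv x (g q.1)).2)‖ < η}

theorem imp_mem {S : Set C2} (hS : IsClosed S) {P : C2 × E → Prop} {q : C2 × E}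
    (h : q.1 ∈ S → ∀ᶠ q' in 𝓝 q, P q') : ∀ᶠ q' in 𝓝 q, q'.1 ∈ S → P q' := by
  by_cases hq : q.1 ∈ S
  · exact (h hq).mono fun _ h1 _ => h1
  · exact ((continuousAt_fst (p := q)).eventually (hS.isOpen_compl.mem_nhds hq)).mono
      fun _ h1 h2 => absurd h2 h1

theorem Cl_mem {x : E} (M : C2 →L[ℂ] C2) {S : Set C2} (hS : IsClosed S) {g : C2 → E} {η : ℝ}
    (hη : 0 < η) {z : C2} (h : z ∈ S → ContinuousAt g z ∧ g z ∈ (F.triv x).source) :
    Cl F x M S g η ∈ 𝓝 (z, g z) := by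
  refine imp_mem hS fun hz => ?_
  obtain ⟨h1, h2⟩ := h hz
  have c0 : ContinuousAt (fun y => (F.triv x y).2) (g z) :=
    continuousAt_snd.comp ((F.triv x).continuousAt h2)
  have c1 : ContinuousAt (fun q : C2 × E => (F.triv x q.2).2) (z, g z) :=
    ContinuousAt.comp (g := fun y => (F.triv x y).2) (f := Prod.snd) c0 continuousAt_snd
  have c2 : ContinuousAt (fun q : C2 × E => (F.triv x (g q.1)).2) (z, g z) :=
    ContinuousAt.comp (g := fun z => (F.triv x (g z)).2) (f := Prod.fst)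
      (ContinuousAt.comp (g := fun y => (F.triv x y).2) (f := g) c0 h1) continuousAt_fst
  have c3 := (M.continuous.continuousAt.comp (c1.sub c2)).norm.eventually_lt_const
    (show _ < η by simpa using hη)
  exact (continuousAt_snd.eventually ((F.triv x).open_source.mem_nhds h2)).and c3

theorem eq_of_snd {x e e' : E} (h : F.p e = F.p e') (he : e ∈ (F.triv x).source)
    (he' : e' ∈ (F.triv x).source) (h2 : (F.triv x e).2 = (F.triv x e').2) : e = e' :=
  (F.triv x).injOn he he' (by rw [F.mk_eq x he, F.mk_eq x he', h, h2])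

theorem jac_congr (vol : E → T × C2 → ℂ) (t : T) {u u' : C2 → E} {z : C2} (h : u =ᶠ[𝓝 z] u') :
    jac F vol t u z = jac F vol t u' z := by
  have h1 : (fun y => (F.triv (u' z) (u y)).2) =ᶠ[𝓝 z] fun y => (F.triv (u' z) (u' y)).2 :=
    h.mono fun y hy => by simp only [hy]
  rw [jac, jac, h.self_of_nhds, h1.fderiv_eq]

theorem jac_close {vol : E → T × C2 → ℂ} (hvol : RelForm F vol) {s : T} {g : C2 → E}
    {D K : Set C2} (hD : IsCompact D) (hK : ∀ z ∈ D, K ∈ 𝓝 z) (hg : ∀ y ∈ K, FH F s g y) {ε : ℝ}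
    (hε : 0 < ε) : ∃ 𝒪 : Set (C2 × E), (∀ z ∈ K, 𝒪 ∈ 𝓝 (z, g z)) ∧
      ∀ᶠ t in 𝓝 s, ∀ u : C2 → E, (∀ y ∈ K, FH F t u y) → (∀ y ∈ K, (y, u y) ∈ 𝒪) →
        ∀ y ∈ D, ‖jac F vol t u y - jac F vol s g y‖ < ε := by
  choose! r hr η hη hrS hsrc hev using fun (z : C2) (hz : z ∈ D) =>
    R2.H514.jac_local hvol (hK z hz) hg hε
  obtain ⟨a, ha, hcov⟩ := hD.elim_nhds_subcover (fun z => ball z (r z / 2))
    fun z hz => ball_mem_nhds _ (half_pos (hr z hz))
  refine ⟨{q | ∀ i ∈ a, q ∈ Cl F (g i) 1 (closedBall i (r i)) g (η i)}, fun z hz => ?_, ?_⟩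
  · exact (eventually_all_finset a).2 fun i hi => Cl_mem 1 isClosed_closedBall (hη i (ha i hi))
      fun h => ⟨(hg z hz).2.1, hsrc i (ha i hi) z h⟩
  · filter_upwards [(eventually_all_finset a).2 fun i hi => hev i (ha i hi)] with t ht u hu hO y hy
    obtain ⟨i, hi, hyi⟩ := mem_iUnion₂.1 (hcov hy)
    exact ht i hi u (fun q hq => hu q (hrS i (ha i hi) hq))
      (fun q hq => hO q (hrS i (ha i hi) hq) i hi hq) y hyi

theorem loc {vol : E → T × C2 → ℂ} {s : T} {g : C2 → E} {z : C2} {K : Set C2} (hK : K ∈ 𝓝 z)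
    (hg : FH F s g z) (hj : jac F vol s g z ≠ 0) : ∃ r > (0 : ℝ), ∃ M : C2 →L[ℂ] C2,
      Function.Injective M ∧ closedBall z r ⊆ K ∧ ∀ y ∈ closedBall z r,
        g y ∈ (F.triv (g z)).source ∧
          ‖M ((F.triv (g z) (g y)).2 - (F.triv (g z) (g z)).2) + z - y‖ ≤ r / 64 := by
  set L : C2 →L[ℂ] C2 := fderiv ℂ (fun y => (F.triv (g z) (g y)).2) z with hL
  have hdet : L.det ≠ 0 := right_ne_zero_of_mul hj
  let Le : C2 ≃L[ℂ] C2 := L.toContinuousLinearEquivOfDetNeZero hdet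
  have hLe : ∀ v, Le.symm (L v) = v := Le.symm_apply_apply
  have h1 : HasFDerivAt (fun y => Le.symm (F.triv (g z) (g y)).2)
      ((Le.symm : C2 →L[ℂ] C2).comp L) z :=
    (Le.symm : C2 →L[ℂ] C2).hasFDerivAt.comp z hg.2.2.hasFDerivAt
  obtain ⟨r, hr, h2⟩ := Metric.nhds_basis_closedBall.mem_iff.1
    (((h1.isLittleO.def (show (0 : ℝ) < 1 / 64 by norm_num)).and
      (hg.eventually_source (F.mem _))).and hK)
  refine ⟨r, hr, Le.symm, Le.symm.injective, fun y hy => (h2 hy).2, fun y hy => ⟨(h2 hy).1.2, ?_⟩⟩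
  have h3 := (h2 hy).1.1
  rw [ContinuousLinearMap.comp_apply, ContinuousLinearEquiv.coe_coe, hLe] at h3
  rw [mem_closedBall, dist_eq_norm] at hy
  rw [map_sub, ContinuousLinearEquiv.coe_coe, add_sub_assoc, ← neg_sub y, ← sub_eq_add_neg]
  linarith

end Dfm

open Dfm

theorem deform : StDeform := by
  intro T E _ _ F vol hvol s π l C₀ J₀ hC₀ hcell hJ₀ hπ hper
  classical
  obtain ⟨hc1, hc2⟩ := good_cell l
  obtain ⟨r₀, hr₀, hK₀⟩ := hc1.exists_cthickening_subset_open hC₀ hcell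
  set K := cthickening r₀ (Cell l) with hKdef
  set C := thickening (r₀ / 2) (Cell l) with hCdef
  have hDK : closure C ⊆ thickening r₀ (Cell l) := (closure_thickening_subset_cthickening _ _).trans
    (cthickening_subset_thickening' hr₀ (half_lt_self hr₀) _)
  have hDK' : closure C ⊆ K := hDK.trans (thickening_subset_cthickening _ _)
  have hD : IsCompact (closure C) := hc1.cthickening.of_isClosed_subset isClosed_closure hDK'
  have hKn : ∀ z ∈ closure C, K ∈ 𝓝 z := fun z hz =>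
    mem_of_superset (isOpen_thickening.mem_nhds (hDK hz)) (thickening_subset_cthickening _ _)
  have hCK : C ⊆ K := subset_closure.trans hDK'
  choose! r hr M hM hrK hloc using fun (z : C2) (hz : z ∈ closure C) =>
    loc (vol := vol) (hKn z hz) (hπ z (hK₀ (hDK' hz))).1
      (by rw [(hπ z (hK₀ (hDK' hz))).2]; exact hJ₀)
  obtain ⟨a, ha, hcov⟩ := hD.elim_nhds_subcover (fun z => ball z (r z / 32))
    fun z hz => ball_mem_nhds _ (by have := hr z hz; positivity)
  obtain ⟨ρ, hρ, hleb⟩ := lebesgue_number_lemma_of_metric (c := fun z : a => ball z.1 (r z / 32)) hD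
    (fun _ => isOpen_ball) fun y hy => by
      obtain ⟨z, hz, h⟩ := mem_iUnion₂.1 (hcov hy)
      exact mem_iUnion.2 ⟨⟨z, hz⟩, h⟩
  refine ⟨C, ρ, isOpen_thickening, self_subset_thickening (half_pos hr₀) _, hDK'.trans hK₀, hD, hρ,
    fun δ hδ 𝒪 h𝒪 => ?_⟩
  obtain ⟨η, ⟨hη1, hη2⟩, hη⟩ : ∃ η : ℝ, ((∀ z ∈ a, η < r z / 64) ∧ η < δ / 4) ∧ 0 < η :=
    (((((eventually_all_finset a).2 fun z hz => eventually_lt_nhds
      (by have := hr z (ha z hz); positivity)).and (eventually_lt_nhds (by positivity))).filter_mono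
        (nhdsWithin_le_nhds (s := Ioi 0))).and self_mem_nhdsWithin).exists
  obtain ⟨𝒪₁, h𝒪₁, hjac⟩ := jac_close hvol hD hKn (fun y hy => (hπ y (hK₀ hy)).1)
    (mul_pos hδ (norm_pos_iff.2 hJ₀))
  have hsh : ∀ i, ∀ w ∈ K, w - l i ∈ K → π w = π (w - l i) := fun i w h1 h2 => by
    rw [← hper i _ (hK₀ h2) (by rw [sub_add_cancel]; exact hK₀ h1), sub_add_cancel]
  have hdef := deformation (F := F) (t₀ := s) (K := K) (u₀ := π) ⟨hc1.cthickening, hc2.cthickening _⟩
    (mem_of_superset (hC₀.mem_nhdsSet.2 hK₀) fun y hy => (hπ y hy).1)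
    {q | (q.1 ∈ closure C → q ∈ 𝒪) ∧ q ∈ 𝒪₁ ∧ ∀ z ∈ a,
      q ∈ Cl F (π z) (M z) (closedBall z (r z)) π η ∧
        ∀ i, q ∈ Cl F (π z) (M z) ((fun w => w - l i) ⁻¹' closedBall z (r z)) π η}
    fun w hw => (imp_mem isClosed_closure fun h => h𝒪 w h).and (Eventually.and (h𝒪₁ w hw)
      ((eventually_all_finset a).2 fun z hz => Eventually.and
        (Cl_mem _ isClosed_closedBall hη fun h => ⟨(hπ w (hK₀ hw)).1.2.1, (hloc z (ha z hz) w h).1⟩)
        (eventually_all.2 fun i => Cl_mem _ (isClosed_closedBall.preimage (by fun_prop)) hη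
          fun h => ⟨(hπ w (hK₀ hw)).1.2.1, by
            rw [hsh i w hw (hrK z (ha z hz) h)]; exact (hloc z (ha z hz) _ h).1⟩)))
  filter_upwards [hdef, hjac] with t ⟨u, hu, hO⟩ hj
  have hu' : ∀ y ∈ K, FH F t u y := fun y hy => hu.self_of_nhdsSet y hy
  have hut : ∀ y ∈ K, F.p (u y) = t := fun y hy => (hu' y hy).1.self_of_nhds
  let φ : C2 → E → C2 := fun z e => M z ((F.triv (π z) e).2 - (F.triv (π z) (π z)).2) + z
  have hφ : ∀ z e e', φ z e - φ z e' = M z ((F.triv (π z) e).2 - (F.triv (π z) e').2) :=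
    fun z e e' => by simp only [φ, map_sub]; abel
  have hBK : ∀ z ∈ a, ball z (r z) ⊆ K := fun z hz => ball_subset_closedBall.trans (hrK z (ha z hz))
  have h1 : ∀ z ∈ a, ∀ y ∈ ball z (r z), u y ∈ (F.triv (π z)).source ∧
      ‖φ z (u y) - φ z (π y)‖ < η := fun z hz y hy => by
    rw [hφ]; exact ((hO y (hBK z hz hy)).2.2 z hz).1 (ball_subset_closedBall hy)
  have h2 : ∀ z ∈ a, ∀ y ∈ ball z (r z), ∀ i, y + l i ∈ K → u (y + l i) ∈ (F.triv (π z)).source ∧
      ‖φ z (u (y + l i)) - φ z (π y)‖ < η := fun z hz y hy i hi => by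
    rw [hφ, ← hper i y (hK₀ (hBK z hz hy)) (hK₀ hi)]
    exact ((hO _ hi).2.2 z hz).2 i (by simpa using ball_subset_closedBall hy)
  have hφd : ∀ z {v : C2 → E} {y : C2}, FH F t v y → v y ∈ (F.triv (π z)).source →
      DifferentiableAt ℂ (fun w => φ z (v w)) y := fun z v y h h' =>
    ((M z).differentiableAt.comp y ((h.diff h').sub_const _)).add_const _
  have hd : ∀ z ∈ a, DifferentiableOn ℂ (fun y => φ z (u y)) (ball z (r z)) := fun z hz y hy =>
    (hφd z (hu' y (hBK z hz hy)) (h1 z hz y hy).1).differentiableWithinAt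
  have h3 : ∀ z ∈ a, ∀ y ∈ ball z (r z), ‖φ z (π y) - y‖ ≤ r z / 64 := fun z hz y hy =>
    (hloc z (ha z hz) y (ball_subset_closedBall hy)).2
  have hb : ∀ z ∈ a, ∀ y ∈ ball z (r z), ‖φ z (u y) - y‖ ≤ r z / 8 := fun z hz y hy => by
    have := norm_sub_le_norm_sub_add_norm_sub (φ z (u y)) (φ z (π y)) y
    linarith [(h1 z hz y hy).2, h3 z hz y hy, hη1 z hz, hr z (ha z hz)]
  have hs : ∀ z ∈ a, ∀ c : ℝ, 1 ≤ c → ball z (r z / c) ⊆ ball z (r z) := fun z hz c hc =>
    ball_subset_ball (div_le_self (hr z (ha z hz)).le hc)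
  have hs2 : ∀ z ∈ a, ball z (r z / 32) ⊆ ball z (r z / 2) := fun z hz =>
    ball_subset_ball (by linarith [hr z (ha z hz)])
  have key : ∀ i, ∀ y ∈ C, y + l i ∈ C → ∃ c : C2, ‖c‖ ≤ 4 * η ∧ u (y + l i) = u (y + c) := by
    intro i y hy hi
    obtain ⟨z, hz, hyz⟩ := mem_iUnion₂.1 (hcov (subset_closure hy))
    have hy1 := hs z hz 32 (by norm_num) hyz
    obtain ⟨e1, e2⟩ := h2 z hz y hy1 i (hCK hi)
    obtain ⟨y', e3, e4⟩ := onto (hr z (ha z hz)) (hd z hz) (hb z hz) (b := φ z (u (y + l i))) (by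
      have a1 := norm_sub_le_norm_sub_add_norm_sub (φ z (u (y + l i))) (φ z (π y)) z
      have a2 := norm_sub_le_norm_sub_add_norm_sub (φ z (π y)) y z
      rw [mem_ball, dist_eq_norm] at hyz
      linarith [h3 z hz y hy1, hη1 z hz, hr z (ha z hz)])
    have e5 := expand (hr z (ha z hz)) (hd z hz) (hb z hz) e3 (hs2 z hz hyz)
    have hy2 := hs z hz 2 (by norm_num) e3
    refine ⟨y' - y, ?_, ?_⟩
    · have a1 := norm_sub_le_norm_sub_add_norm_sub (φ z (u (y + l i))) (φ z (π y)) (φ z (u y))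
      rw [norm_sub_rev (φ z (π y))] at a1
      simp only [e4] at e5
      linarith [(h1 z hz y hy1).2]
    · rw [add_sub_cancel]
      refine eq_of_snd (by rw [hut _ (hCK hi), hut _ (hBK z hz hy2)]) e1 (h1 z hz y' hy2).1
        (sub_eq_zero.1 (hM z (ha z hz) ?_))
      rw [← hφ, map_zero, ← e4, sub_self]
  choose! Ei hE1 hE2 using key
  have hev : ∀ i, ∀ y ∈ C, y + l i ∈ C → ∀ᶠ w in 𝓝 y, w ∈ C ∧ w + l i ∈ C := fun i y hy hi =>
    Eventually.and (isOpen_thickening.mem_nhds hy)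
      ((continuousAt_id.add continuousAt_const).eventually (isOpen_thickening.mem_nhds hi))
  have hsh' : ∀ i y, DifferentiableAt ℂ (fun w : C2 => w + l i) y := fun i y =>
    differentiableAt_fun_id.add_const _
  have hdiff : ∀ i, ∀ y ∈ C, y + l i ∈ C → DifferentiableAt ℂ (fun w => w + Ei i w) y := by
    intro i y hy hi
    obtain ⟨z, hz, hyz⟩ := mem_iUnion₂.1 (hcov (subset_closure hy))
    refine diff_of_comp (hr z (ha z hz)) (hd z hz) (hb z hz) (b := fun w => φ z (u (w + l i)))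
      (hφd z (FH.comp (q := fun w => w + l i) (hu' _ (hCK hi)) (hsh' i y))
        (h2 z hz y (hs z hz 32 (by norm_num) hyz) i (hCK hi)).1) ?_
    filter_upwards [hev i y hy hi, isOpen_ball.mem_nhds hyz] with w hw hw'
    refine ⟨?_, by rw [hE2 i w hw.1 hw.2]⟩
    rw [mem_ball, dist_eq_norm] at hw' ⊢
    have a1 := norm_add_le (w - z) (Ei i w)
    rw [add_sub_right_comm]
    linarith [hE1 i w hw.1 hw.2, hη1 z hz, hr z (ha z hz)]
  refine ⟨u, Ei, fun y hy => ⟨hu' y (hCK hy), (hO y (hCK hy)).1 (subset_closure hy)⟩,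
    fun y hy y' _ hyy e => ?_, fun i y hy hi => ⟨?_, by linarith [hE1 i y hy hi]⟩, hE2,
    fun y hy => ⟨?_, ?_⟩, fun i y hy hi hi' => ?_⟩
  · obtain ⟨z, hz⟩ := hleb y (subset_closure hy)
    have e1 := expand (hr z (ha z z.2)) (hd z z.2) (hb z z.2) (hs2 z z.2 (hz (mem_ball_self hρ)))
      (hs2 z z.2 (hz (show y' ∈ ball y ρ by rwa [mem_ball, dist_eq_norm, norm_sub_rev])))
    simp only [e, sub_self, norm_zero, mul_zero] at e1
    exact sub_eq_zero.1 (norm_le_zero_iff.1 e1)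
  · simpa using (hdiff i y hy hi).sub differentiableAt_fun_id
  · exact (R2.H236.jac_diff R2.H514.stJac hvol
      (mem_of_superset (hKn y (subset_closure hy)) hu')).const_mul _
  · have e1 := hj u hu' (fun y hy => (hO y hy).2.1) y (subset_closure hy)
    rw [(hπ y (hK₀ (hCK hy))).2] at e1
    rw [← inv_mul_cancel₀ hJ₀, ← mul_sub, norm_mul, norm_inv,
      inv_mul_le_iff₀ (norm_pos_iff.2 hJ₀), mul_comm]
    exact e1.le
  · have e1 := R2.H236.jac_comp F vol (φ := fun w => w + l i) (hu' _ (hCK hi)) (hsh' i y)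
    have e2 := R2.H236.jac_comp F vol (φ := fun w => w + Ei i w) (hu' _ (hCK hi')) (hdiff i y hy hi)
    rw [fderiv_add_const, fderiv_fun_id, jac_congr vol t (u' := fun w => u (w + Ei i w))
      ((hev i y hy hi).mono fun w hw => hE2 i w hw.1 hw.2), e2] at e1
    have e3 : (ContinuousLinearMap.id ℂ C2).det = 1 := LinearMap.det_id
    rw [e3, mul_one] at e1
    rw [← e1, mul_assoc]

end Vale.Agent.P290Z
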