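import Vale.Agent.P290Z.Spec1

/-! Removing one constraint. -/

set_option linter.all false

open Set Filter Metric
open scoped Topology Manifold ContDiff

namespace Vale.Agent.P290Z

open Vale.Agent.P290

namespace Enl

theorem exists_eta {E : Type} [PseudoMetricSpace E] {L : Set E} (hL : IsCompact L) {d : E → ℝ}
    (hd : Continuous d) {N : Set E} (hN : IsOpen N) (h : ∀ x ∈ L, d x ≤ 0 → x ∈ N) :
    ∃ η > (0 : ℝ), ∀ x, ∀ k ∈ L, dist x k ≤ η → d x ≤ η → x ∈ N := by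
  obtain ⟨a, ha, h1⟩ := (hL.diff hN).exists_forall_le' hd.continuousOn (a := 0)
    fun b hb => not_le.1 fun h0 => hb.2 (h b hb.1 h0)
  obtain ⟨δ, hδ, h2⟩ := hL.exists_cthickening_subset_open
    (hN.union (isOpen_lt (continuous_const (y := a / 2)) hd)) fun x hx => by
      by_cases h3 : x ∈ N
      · exact Or.inl h3
      · exact Or.inr ((half_lt_self ha).trans_le (h1 x ⟨hx, h3⟩))
  refine ⟨min δ (a / 2), lt_min hδ (half_pos ha), fun x k hk h3 h4 => ?_⟩
  exact (h2 (mem_cthickening_of_dist_le x k δ L hk (h3.trans (min_le_left _ _)))).resolve_right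
    (not_lt.2 (h4.trans (min_le_right _ _)))

section

variable {W : Type} [NormedAddCommGroup W] [NormedSpace ℂ W]

theorem good_smul {L : Set W} (hL : Good L) (h0 : (0 : W) ∈ L) {x : W} (hx : x ∈ L) {s : ℝ}
    (h1 : 0 ≤ s) (h2 : s ≤ 1) : (s : ℂ) • x ∈ L :=
  hL.2.smul_mem_of_zero_mem h0 hx ⟨h1, h2⟩

theorem good_cthickening [FiniteDimensional ℂ W] {L : Set W} (hL : Good L) (δ : ℝ) :
    Good (cthickening δ L) :=
  haveI : ProperSpace W := FiniteDimensional.proper ℂ W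
  ⟨hL.1.cthickening, hL.2.cthickening δ⟩

theorem good_inter {L : Set W} (hL : Good L) (l : W →L[ℂ] ℂ) {P : Set ℂ} (h1 : IsClosed P)
    (h2 : Convex ℝ P) : Good (L ∩ {x | l x ∈ P}) := by
  refine ⟨hL.1.inter_right (h1.preimage l.continuous), hL.2.inter fun x hx y hy a b ha hb h => ?_⟩
  have := h2 hx hy ha hb h
  change l ((a : ℂ) • x + (b : ℂ) • y) ∈ P
  rw [map_add, map_smul, map_smul]
  exact this

theorem dist_smul_le {a b : ℂ} {x : W} {θ M : ℝ} (hM : 0 < M) (h : ‖a - b‖ < θ / M)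
    (hx : ‖x‖ ≤ M) : dist (a • x) (b • x) ≤ θ := by
  rw [dist_eq_norm, ← sub_smul, norm_smul]
  rw [lt_div_iff₀ hM] at h
  exact (mul_le_mul_of_nonneg_left hx (norm_nonneg _)).trans h.le

theorem dist_smul_real {s : ℝ} (h1 : 0 ≤ s) (h2 : s ≤ 1) (x y : W) :
    dist ((s : ℂ) • x) ((s : ℂ) • y) ≤ dist x y := by
  rw [dist_smul₀, Complex.norm_real, Real.norm_of_nonneg h1]
  exact mul_le_of_le_one_left dist_nonneg h2

variable {X : Type} [TopologicalSpace X] [ChartedSpace C2 X]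

theorem hn_comp {W' : Type} [NormedAddCommGroup W'] [NormedSpace ℂ W'] {S : Set W} {F : W → X}
    (hF : HN S F) {φ : W' → W} (hφ : Differentiable ℂ φ) {T : Set W'} (h : MapsTo φ T S) :
    HN T fun x => F (φ x) :=
  ((hφ.continuous.tendsto_nhdsSet h).eventually hF).mono fun x hx =>
    MDifferentiableAt.comp x hx (hφ x).mdifferentiableAt

end

variable {V X : Type} [NormedAddCommGroup V] [NormedSpace ℂ V] [MetricSpace X]
  [ChartedSpace C2 X]

/-- The throwing data that work near the slice over `c` with the tolerance `θ`. -/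
def Near (L K : Set (ℂ × V)) (f : ℂ × V → X) (θ : ℝ) (c : ℂ) : Prop :=
  ∃ (F : Set V) (O : Set (V × X)), Thr F O ∧
    (∀ y, ∀ k ∈ L, dist (c, y) k ≤ 2 * θ → y ∈ F) ∧
    ∀ x y, ∀ k ∈ K, dist x k ≤ θ → dist y k.2 ≤ 2 * θ → dist x.1 c ≤ θ → (y, f x) ∈ O

theorem near {L K : Set (ℂ × V)} (hL : IsCompact L) (hK : IsCompact K) (hKL : K ⊆ L)
    {f : ℂ × V → X} (hf : ∀ x ∈ K, ContinuousAt f x) {T : Set ℂ} (hT : IsCompact T)
    (h : ∀ c ∈ T, ∃ F : Set V, IsCompact F ∧ {y | (c, y) ∈ L} ⊆ interior F ∧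
      PP F (fun y => f (c, y))) : ∀ᶠ θ in 𝓝 (0 : ℝ), ∀ c ∈ T, Near L K f θ c := by
  refine hT.eventually_forall_of_forall_eventually fun c hc => ?_
  obtain ⟨F, -, h1, O, h2, h3⟩ := h c hc
  obtain ⟨η₁, hη₁, h4⟩ := exists_eta hL (d := fun x => dist x.1 c) (by fun_prop)
    (N := Prod.snd ⁻¹' interior F) (isOpen_interior.preimage continuous_snd) fun x hx h0 => by
      have : x.1 = c := dist_le_zero.1 h0
      apply h1
      change (c, x.2) ∈ L
      rwa [← this]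
  obtain ⟨η₂, hη₂, h5⟩ := exists_eta (hK.image (f := fun x : ℂ × V => (x, x.2)) (by fun_prop))
    (d := fun p => dist p.1.1 c) (by fun_prop)
    (N := interior {p : (ℂ × V) × V | (p.2, f p.1) ∈ O}) isOpen_interior (by
      rintro _ ⟨x, hx, rfl⟩ h0
      have h6 : x.1 = c := dist_le_zero.1 h0
      have h7 : (c, x.2) = x := by rw [← h6]
      have h8 : (x.2, f x) ∈ O := by
        have : (x.2, f (c, x.2)) ∈ O :=
          h3 x.2 (interior_subset (h1 (show (c, x.2) ∈ L from h7.symm ▸ hKL hx)))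
        rwa [h7] at this
      have h9 : ContinuousAt (fun p : (ℂ × V) × V => (p.2, f p.1)) (x, x.2) :=
        continuousAt_snd.prodMk (ContinuousAt.comp (f := Prod.fst) (hf x hx) continuousAt_fst)
      exact mem_interior_iff_mem_nhds.2 (h9 (h2.1.mem_nhds h8)))
  have e1 : ∀ᶠ z : ℝ × ℂ in 𝓝 (0, c), 2 * |z.1| + dist z.2 c < min η₁ η₂ :=
    (show ContinuousAt (fun z : ℝ × ℂ => 2 * |z.1| + dist z.2 c) (0, c) by fun_prop).eventually
      (gt_mem_nhds (by simpa using And.intro hη₁ hη₂))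
  filter_upwards [e1] with z hz
  have a1 := min_le_left η₁ η₂
  have a2 := min_le_right η₁ η₂
  have a3 := le_abs_self z.1
  have a4 := abs_nonneg z.1
  have a5 := dist_nonneg (x := z.2) (y := c)
  refine ⟨F, O, h2, fun y k hk h6 => interior_subset
    (h4 (z.2, y) k hk (by linarith) (by change dist z.2 c ≤ _; linarith)),
    fun x y k hk h6 h7 h8 => ?_⟩
  refine interior_subset (s := {p : (ℂ × V) × V | (p.2, f p.1) ∈ O})
    (h5 (x, y) (k, k.2) ⟨k, hk, rfl⟩ ?_ ?_)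
  · rw [Prod.dist_eq]
    exact max_le (by change dist x k ≤ _; linarith) (by change dist y k.2 ≤ _; linarith)
  · change dist x.1 c ≤ _
    linarith [dist_triangle x.1 z.2 c]

end Enl

open Enl

theorem enl (hPL : StPL) (hSpr : StSpr) (hThrow : StThrow) (hCalc : StCalc) : StEnl := by
  intro V X _ _ _ _ _ _ L hL h0 P hP hPc hP0 f hf hF ε hε
  set K := L ∩ {x : ℂ × V | x.1 ∈ P} with hKdef
  have hK : Good K := good_inter hL (ContinuousLinearMap.fst ℂ ℂ V) hP.isClosed hPc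
  obtain ⟨U₀, hU₀, hKU, hU₀f⟩ := mem_nhdsSet_iff_exists.1 hf
  obtain ⟨δ, hδ, hδU⟩ := hK.1.exists_cthickening_subset_open hU₀ hKU
  have hK' := good_cthickening hK δ
  have hf' : HN (cthickening δ K) f := mem_nhdsSet_iff_exists.2 ⟨U₀, hU₀, hδU, hU₀f⟩
  obtain ⟨F, hF1, hF2, hF3⟩ := hSpr _ X _ hK' f hf'
  have hc : ∀ x ∈ cthickening δ K, ContinuousAt f x := fun x hx =>
    MDifferentiableAt.continuousAt (hf'.self_of_nhdsSet x hx)
  obtain ⟨u, hu, hu'⟩ := Metric.uniformContinuousOn_iff.1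
    (hK'.1.uniformContinuousOn_of_continuous fun x hx => (hc x hx).continuousWithinAt) (ε / 2)
    (half_pos hε)
  obtain ⟨M, hM0, hM⟩ := hL.1.isBounded.subset_closedBall_lt 0 (0 : ℂ × V)
  have hM' : ∀ x ∈ L, ‖x‖ ≤ M := fun x hx => mem_closedBall_zero_iff.1 (hM hx)
  have hfr : IsCompact (frontier P) :=
    hP.of_isClosed_subset isClosed_frontier hP.isClosed.frontier_subset
  obtain ⟨θ, ⟨hN, hθ⟩, hθ0⟩ := ((((near hL.1 hK.1 inter_subset_left
    (fun x hx => hc x (self_subset_cthickening _ hx)) hfr hF).and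
    (gt_mem_nhds (lt_min hδ (lt_min hu zero_lt_one)))).filter_mono nhdsWithin_le_nhds).and
    (self_mem_nhdsWithin (s := Ioi (0 : ℝ)))).exists
  have hθ0 : 0 < θ := hθ0
  obtain ⟨hθδ, hθ'⟩ := lt_min_iff.1 hθ
  obtain ⟨hθu, hθ1⟩ := lt_min_iff.1 hθ'
  have hM1 : 0 < M + 1 := by linarith
  have hη : 0 < θ / (M + 1) := div_pos hθ0 hM1
  obtain ⟨κ, h, n, c, A, hκ, hh, pa, pb, pc, pA, pD, pd, pe⟩ :=
    hPL P hP hPc hP0 M (θ / (M + 1)) (θ / (M + 1)) hη hη
  choose Fc Oc hT hN1 hN2 using fun j => hN (c j) (pA j).1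
  have hz : ∀ x ∈ L, ‖x.1‖ ≤ M := fun x hx => (norm_fst_le x).trans (hM' x hx)
  have hκK : ∀ x ∈ L, -1 ≤ (h x.1).re → ∃ k ∈ K, dist (κ x.1 • x) k ≤ θ := by
    intro x hx h1
    obtain ⟨s, s0, s1, h2, h3⟩ := pb x.1 (hz x hx) h1
    exact ⟨(s : ℂ) • x, ⟨good_smul hL h0 hx s0 s1, h3⟩,
      dist_smul_le hM1 h2 ((hM' x hx).trans (by linarith))⟩
  have hκK' : ∀ x ∈ L, -1 ≤ (h x.1).re → κ x.1 • x ∈ cthickening δ K := by
    intro x hx h1
    obtain ⟨k, hk, h2⟩ := hκK x hx h1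
    exact mem_cthickening_of_dist_le _ k δ K hk (h2.trans hθδ.le)
  let B : Fin n → Set (ℂ × V) := fun j => Prod.fst ⁻¹' interior (A j) ∩ thickening θ L
  let π : Fin n → ℂ × V → V := fun j x => (c j / x.1) • x.2
  have hB : ∀ j, IsOpen (B j) := fun j =>
    (isOpen_interior.preimage continuous_fst).inter isOpen_thickening
  have hπ : ∀ j, ∀ x ∈ B j, (c j / x.1) • x = (c j, π j x) := fun j x hx =>
    Prod.ext (div_mul_cancel₀ _ (pd j _ (interior_subset hx.1)).1) rfl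
  obtain ⟨-, c2, c3⟩ := hCalc X
  have hT' : ∀ j, Thr (B j) {p : (ℂ × V) × X | p.1 ∈ B j ∧ (π j p.1, p.2) ∈ Oc j} := by
    intro j
    refine c2 V (ℂ × V) (Fc j) (Oc j) (π j) (B j) (B j) (hT j) (hB j) (fun x hx => ?_) subset_rfl
      fun x hx => ?_
    · have := (pd j _ (interior_subset hx.1)).1
      refine DifferentiableAt.differentiableWithinAt ?_
      have h1 : DifferentiableAt ℂ (fun z : ℂ => c j / z) x.1 :=
        (differentiableAt_const _).div differentiableAt_id this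
      exact (h1.comp x differentiableAt_fst).smul differentiableAt_snd
    · obtain ⟨-, s, s0, s1, h1⟩ := pd j _ (interior_subset hx.1)
      obtain ⟨k, hk, h2⟩ := mem_thickening_iff.1 hx.2
      refine hN1 j _ _ (good_smul hL h0 hk s0 s1) ?_
      have h3 : ‖x‖ ≤ M + 1 := by
        have := norm_le_norm_add_norm_sub' x k
        rw [dist_eq_norm] at h2
        linarith [hM' k hk]
      have h4 := dist_smul_le hM1 h1 h3
      have h5 := dist_smul_real s0 s1 x k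
      rw [← hπ j x hx]
      linarith [dist_triangle ((c j / x.1) • x) ((s : ℂ) • x) ((s : ℂ) • k)]
  have hU := c3 (ℂ × V) (Fin n) B B _ hB
    (fun i j hij => disjoint_left.2 fun x h1 h2 =>
      disjoint_left.1 (pD hij) (interior_subset h1.1) (interior_subset h2.1))
    (fun _ => subset_rfl) (fun _ _ hp => hp.1) hT' ⟨f 0⟩
  have hmem : ∀ x ∈ L, (h x.1).re ≤ -1 / 2 → ∃ j, x ∈ B j := fun x hx h1 =>
    (pc x.1 (hz x hx) h1).imp fun j hj => ⟨hj, self_subset_thickening hθ0 _ hx⟩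
  have hG0 : ∀ x ∈ L, -1 ≤ (h x.1).re → F (κ x.1 • x, 0) = f (κ x.1 • x) := fun x hx h1 =>
    hF2.self_of_nhdsSet _ (hκK' x hx h1)
  obtain ⟨G, hG1, hG2⟩ := hThrow (ℂ × V) X L hL (fun x => h x.1) (hh.comp differentiable_fst)
    (fun p => F (κ p.1.1 • p.1, p.2)) _ _
    (hn_comp hF1 (φ := fun p : (ℂ × V) × C2 => (κ p.1.1 • p.1, p.2)) (by fun_prop)
      fun p hp => ⟨hκK' p.1 hp.1.1 hp.1.2, hp.2⟩)
    (fun x hx h1 h2 => ⟨hF3 _ (hκK' x hx h1), by
      obtain ⟨j, hj⟩ := hmem x hx h2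
      obtain ⟨k, hk, h3⟩ := hκK x hx h1
      have h4 := dist_smul_le hM1 (pe j _ (interior_subset hj.1) (hz x hx) h1)
        ((hM' x hx).trans (by linarith : M ≤ M + 1))
      rw [hπ j x hj] at h4
      refine mem_iUnion.2 ⟨j, hj, ?_⟩
      change (π j x, F (κ x.1 • x, 0)) ∈ Oc j
      rw [hG0 x hx h1]
      have h5 : dist (κ x.1 • x).2 (π j x) ≤ θ := (le_max_right _ _).trans h4
      have h6 : dist (κ x.1 • x).2 k.2 ≤ θ := (le_max_right _ _).trans h3
      refine hN2 j _ _ k hk h3 ?_ ((le_max_left _ _).trans h4)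
      linarith [dist_triangle_left (π j x) k.2 (κ x.1 • x).2]⟩)
    (fun x hx => by
      rw [(isOpen_iUnion hB).interior_eq]
      exact mem_iUnion.2 (hmem x hx.1 hx.2)) hU (ε / 2) (half_pos hε)
  refine ⟨G, hG1, fun x hx => ?_⟩
  obtain ⟨h1, h2⟩ := pa x.1 hx.2
  have h3 : -1 ≤ (h x.1).re := by
    have a1 := (abs_le.1 (Complex.abs_re_le_norm (h x.1 - 1))).1
    have a2 : θ / (M + 1) ≤ θ := div_le_self hθ0.le (by linarith)
    rw [Complex.sub_re, Complex.one_re] at a1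
    linarith
  have h4 := hG2 x ⟨hx.1, h3⟩
  have h5 := dist_smul_le hM1 h1 ((hM' x hx.1).trans (by linarith : M ≤ M + 1))
  rw [one_smul] at h5
  have h6 := hu' _ (hκK' x hx.1 h3) x (self_subset_cthickening _ hx) (h5.trans_lt hθu)
  simp only at h4
  rw [hG0 x hx.1 h3] at h4
  linarith [dist_triangle (G x) (f (κ x.1 • x)) (f x)]

end Vale.Agent.P290Z
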