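import Vale.Agent.P290Z.Spec1
import Vale.Agent.P290Z.Ext.Core

/-!
The steps EXT, BEXT, APPROX and GLUE.
-/

open Set Filter Metric
open scoped Topology

namespace Vale.Agent.P290Z

open Vale.Agent.P290

theorem ext : StExt := fun _ _ _ _ _ _ hL hT _ hh _ hU hLU _ hf =>
  Ext.scalar (good_prod hL hT) hh hU (fun x hx => hLU x hx.1 hx.2) hf

theorem bext : StBExt := by
  intro V _ _ _ L T hL hT h hh U hU hLU
  obtain ⟨W, C, -, h2, h3, h4⟩ := bext_graph (E := ℂ) hL hT hh hU hLU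
  have h5 := interior_subset.trans h2
  refine ⟨C, h3, fun f hf δ hb hδ => ?_⟩
  obtain ⟨F, k1, k2, k3⟩ := h4 f δ hδ hf hb
  exact ⟨F, k1.mono h5, fun y hy => k2 y (h5 hy), fun x hx => (k3 x (h5 hx)).2⟩

theorem approx : StApprox := fun _ _ _ _ _ hL _ hh _ _ _ hf ε hε => approx_strip hL hh hf ε hε

theorem glue : StGlue := by
  intro V _ _ _ L hL h hh a b hab W hW hLW r hr ε hε
  obtain ⟨R, hR⟩ := hL.1.exists_bound_of_continuousOn hh.continuous.continuousOn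
  have hD : ∀ x ∈ L, h x ∈ closedBall (0 : ℂ) R := fun x hx => mem_closedBall_zero_iff.2 (hR x hx)
  have hG : ∀ T : Set ℂ, IsClosed T → Convex ℝ T → Good (closedBall (0 : ℂ) R ∩ T) :=
    fun T h1 h2 => ⟨(isCompact_closedBall _ _).inter_right h1, (convex_closedBall _ _).inter h2⟩
  have hA := good_prod hL (hG {z | a ≤ z.re} (isClosed_le continuous_const Complex.continuous_re)
    (convex_halfSpace_re_ge a))
  have hB := good_prod hL (hG {z | z.re ≤ b} (isClosed_le Complex.continuous_re continuous_const)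
    (convex_halfSpace_re_le b))
  have hAB : L ×ˢ (closedBall (0 : ℂ) R ∩ {z | a ≤ z.re}) ∪
      L ×ˢ (closedBall (0 : ℂ) R ∩ {z | z.re ≤ b}) = L ×ˢ closedBall (0 : ℂ) R := by
    refine Subset.antisymm (union_subset (fun p hp => ⟨hp.1, hp.2.1⟩) fun p hp => ⟨hp.1, hp.2.1⟩)
      fun p hp => ?_
    rcases le_total a p.2.re with e | e
    · exact Or.inl ⟨hp.1, hp.2, e⟩
    · exact Or.inr ⟨hp.1, hp.2, e.trans hab⟩
  obtain ⟨W', C, w1, w2, w3, w4⟩ := bext_param (E := C2) (P := C2) hL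
    (hG _ (closed_strip a b) (convex_strip a b)) hh hW (fun x hx hx' => hLW ⟨hx, hx'.2⟩)
    (half_lt_self hr)
  obtain ⟨δ, hδ, hn⟩ := K.ns_path hA hB (hAB ▸ hL.2.prod (convex_closedBall _ _)) w1
    (fun p hp => w2 ⟨hp.1.1, hp.1.2.1, hp.1.2.2, hp.2.2.2⟩) (half_pos hr) (min ε (r / 2))
    (lt_min hε (half_pos hr))
  refine ⟨δ / C, div_pos hδ w3, fun e he hb => ?_⟩
  obtain ⟨F, f1, f2, f3⟩ := w4 e _ (div_pos hδ w3).le he hb
  rw [mul_div_cancel₀ _ w3.ne'] at f2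
  obtain ⟨α, τ, k1, k2, k3, k4, k5⟩ := hn (fun _ => F) (fun _ _ => f1)
    (f1.continuousOn.comp continuous_snd.continuousOn fun _ hx => hx.2) fun _ _ => f2
  have h0 : (0 : ℝ) ∈ Icc (0 : ℝ) 1 := ⟨le_rfl, zero_le_one⟩
  have hg : Differentiable ℂ fun x => (x, h x) := differentiable_id.prodMk hh
  have hc : ∀ {S : Set V} {S' : Set (V × ℂ)} {β : V × ℂ → C2}, MapsTo (fun x => (x, h x)) S S' →
      HolNear S' β → HolNear S fun x => β (x, h x) := fun hm hβ =>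
    ((hg.continuous.tendsto_nhdsSet hm).eventually hβ).mono fun x hx => hx.comp x (hg x)
  have mA : ∀ x ∈ L, a ≤ (h x).re → (x, h x) ∈ L ×ˢ (closedBall (0 : ℂ) R ∩ {z | a ≤ z.re}) :=
    fun x hx hx' => ⟨hx, hD x hx, hx'⟩
  have mB : ∀ x ∈ L, (h x).re ≤ b → (x, h x) ∈ L ×ˢ (closedBall (0 : ℂ) R ∩ {z | z.re ≤ b}) :=
    fun x hx hx' => ⟨hx, hD x hx, hx'⟩
  have t1 : HolNear (L ∩ {x | (h x).re ≤ b}) fun x => τ 0 (x, h x) :=
    hc (fun x hx => mB x hx.1 hx.2) (k2.holNear h0)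
  refine ⟨fun x => α 0 (x, h x), fun x => τ 0 (x, h x),
    hc (fun x hx => mA x hx.1 hx.2) (k1.holNear h0), t1,
    fun x hx hx' => (k3 0 h0 _ (mA x hx hx')).trans_le (min_le_left _ _),
    fun x hx hx' => (k4 0 h0 _ (mB x hx hx')).trans_le (min_le_left _ _), ?_⟩
  have t2 : ∀ᶠ x in 𝓝ˢ (L ∩ {x | a ≤ (h x).re ∧ (h x).re ≤ b}), τ 0 (x, h x) ∈ ball (0 : C2) (r / 2) :=
    eventually_nhdsSet_iff_forall.2 fun x hx =>
      (t1.self_of_nhdsSet x ⟨hx.1, hx.2.2⟩).continuousAt.eventually (isOpen_ball.mem_nhds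
        (mem_ball_zero_iff.2 ((k4 0 h0 _ (mB x hx.1 hx.2.2)).trans_le (min_le_right _ _))))
  have t3 : ∀ᶠ x in 𝓝ˢ (L ∩ {x | a ≤ (h x).re ∧ (h x).re ≤ b}), (x, h x) ∈ W' :=
    (w1.preimage hg.continuous).mem_nhdsSet.2 fun x hx => w2 ⟨hx.1, hD x hx.1, hx.2⟩
  filter_upwards [t2, t3, (hg.continuous.tendsto_nhdsSet (s := L ∩ {x | a ≤ (h x).re ∧ (h x).re ≤ b})
    fun x hx => mem_inter (mA x hx.1 hx.2.1) (mB x hx.1 hx.2.2)).eventually k5] with x e1 e2 e3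
  rw [e3 0 h0, (f3 x _ e2 e1).2]

end Vale.Agent.P290Z
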