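import Vale.Agent.P290Z.Omega.A
import Vale.Agent.P290Z.Per0.Hol

/-! P290Z, FOU: Fourier series of holomorphic periodic functions. -/

open Set Filter Metric MeasureTheory UnitAddTorus
open scoped Topology

noncomputable section

namespace Vale.Agent.P290Z

namespace Fou

open Omg

/-- the torus -/
abbrev T3 : Type := UnitAddTorus (Fin 3)

/-- the Haar measure of the torus -/
abbrev μT : Measure T3 := Measure.pi fun _ => AddCircle.haarAddCircle

/-- a real vector as a complex vector -/
def rc (t : Fin 3 → ℝ) : C3 := fun i => (t i : ℂ)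

/-- the class of a real vector -/
def cl (t : Fin 3 → ℝ) : T3 := fun i => (t i : UnitAddCircle)

/-- a representative -/
def rep (q : T3) : Fin 3 → ℝ := fun i => Quotient.out (q i)

theorem cl_rep (q : T3) : cl (rep q) = q := funext fun i => QuotientAddGroup.out_eq' (q i)

theorem cl_surj : Function.Surjective cl := fun q => ⟨rep q, cl_rep q⟩

theorem cl_add (s t : Fin 3 → ℝ) : cl (s + t) = cl s + cl t := rfl

theorem rc_add (s t : Fin 3 → ℝ) : rc (s + t) = rc s + rc t := by
  funext i
  simp [rc]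

theorem add_rc_mem {h : ℝ} {x : C3} (hx : x ∈ Str h) (t : Fin 3 → ℝ) : x + rc t ∈ Str h := by
  intro i
  simpa [rc] using hx i

theorem per_single {h : ℝ} {f : C3 → ℂ} (hf : Per h f) (i : Fin 3) (n : ℤ) :
    ∀ x ∈ Str h, f (x + rc (Pi.single i (n : ℝ))) = f x := by
  have e : ∀ (x : C3) (a : ℝ), x + rc (Pi.single i (a + 1)) = x + rc (Pi.single i a) + ee i := by
    intro x a
    rw [Pi.single_add, rc_add, ← add_assoc]
    congr 1
    funext j
    by_cases hj : j = i
    · subst hj
      simp [rc, ee]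
    · simp [rc, ee, hj]
  intro x hx
  induction n using Int.induction_on with
  | zero =>
    congr 1
    funext j
    simp [rc]
  | succ n ih =>
    rw [Int.cast_add, Int.cast_one, e, hf _ (add_rc_mem hx _), ih]
  | pred n ih =>
    rw [← ih, ← hf _ (add_rc_mem hx _) i, ← e]
    congr 4
    push_cast
    ring

theorem per_cl {h : ℝ} {f : C3 → ℂ} (hf : Per h f) {x : C3} (hx : x ∈ Str h) {s t : Fin 3 → ℝ}
    (hst : cl s = cl t) : f (x + rc s) = f (x + rc t) := by
  have h1 : ∀ i, ∃ n : ℤ, t i = s i + n := fun i => by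
    have h2 : (s i : UnitAddCircle) = t i := congrFun hst i
    obtain ⟨n, hn⟩ := AddSubgroup.mem_zmultiples_iff.1 (QuotientAddGroup.eq.1 h2)
    exact ⟨n, by rw [zsmul_eq_mul, mul_one] at hn; linarith⟩
  choose n hn using h1
  have h3 : t = s + Pi.single 0 (n 0 : ℝ) + Pi.single 1 (n 1 : ℝ) + Pi.single 2 (n 2 : ℝ) := by
    funext i
    fin_cases i <;> simp [hn]
  rw [h3, rc_add, ← add_assoc, per_single hf _ _ _ (add_rc_mem hx _), rc_add, ← add_assoc,
    per_single hf _ _ _ (add_rc_mem hx _), rc_add, ← add_assoc,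
    per_single hf _ _ _ (add_rc_mem hx _)]

/-- the function on the torus at the height `y` -/
def lf (f : C3 → ℂ) (y : C3) (q : T3) : ℂ := f (y + rc (rep q))

theorem lf_cl {h : ℝ} {f : C3 → ℂ} (hf : Per h f) {y : C3} (hy : y ∈ Str h) (t : Fin 3 → ℝ) :
    lf f y (cl t) = f (y + rc t) := per_cl hf hy (cl_rep _)

theorem cont_lf {h : ℝ} {f : C3 → ℂ} (hd : DifferentiableOn ℂ f (Str h)) (hf : Per h f) {y : C3}
    (hy : y ∈ Str h) : Continuous (lf f y) := by
  have hq : IsOpenQuotientMap cl :=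
    IsOpenQuotientMap.piMap fun _ => QuotientAddGroup.isOpenQuotientMap_mk
  rw [← hq.continuous_comp_iff]
  have e : lf f y ∘ cl = fun t => f (y + rc t) := funext fun t => lf_cl hf hy t
  rw [e]
  refine hd.continuousOn.comp_continuous ?_ (add_rc_mem hy)
  unfold rc
  fun_prop

/-- the mean at the height `y` -/
def av (f : C3 → ℂ) (y : C3) : ℂ := ∫ q, lf f y q ∂μT

theorem av_diff {h M : ℝ} {f : C3 → ℂ} (hd : DifferentiableOn ℂ f (Str h)) (hf : Per h f)
    (hM : ∀ x ∈ Str h, ‖f x‖ ≤ M) : DifferentiableOn ℂ (av f) (Str h) :=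
  Per0.differentiableOn_integral (isOpen_str h) (bound := fun _ => M)
    (fun y hy => (cont_lf hd hf hy).aestronglyMeasurable)
    (Eventually.of_forall fun q => hd.comp (f := fun y => y + rc (rep q)) (by fun_prop)
      fun y hy => add_rc_mem hy _)
    (Eventually.of_forall fun q y hy => hM _ (add_rc_mem hy _)) (integrable_const _)

theorem av_add {h : ℝ} {f : C3 → ℂ} (hf : Per h f) {y : C3} (hy : y ∈ Str h) (s : Fin 3 → ℝ) :
    av f (y + rc s) = av f y := by
  unfold av
  rw [← integral_add_left_eq_self (lf f y) (cl s)]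
  congr 1
  funext q
  obtain ⟨t, rfl⟩ := cl_surj q
  rw [← cl_add, lf_cl hf hy, lf_cl hf (add_rc_mem hy s), rc_add, add_assoc]

theorem av_const {h M : ℝ} {f : C3 → ℂ} (hd : DifferentiableOn ℂ f (Str h)) (hf : Per h f)
    (hM : ∀ x ∈ Str h, ‖f x‖ ≤ M) {x y : C3} (hx : x ∈ Str h) (hy : y ∈ Str h) :
    av f x = av f y := by
  have hD := av_diff hd hf hM
  refine (isOpen_str h).is_const_of_fderiv_eq_zero (convex_str h).isPreconnected hD
    (fun z hz => ?_) hx hy
  have h1 := (hD.differentiableAt ((isOpen_str h).mem_nhds hz)).hasFDerivAt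
  have h2 : ∀ i, fderiv ℂ (av f) z (ee i) = 0 := fun i => by
    have h3 := (h1.restrictScalars ℝ).hasLineDerivAt (ee i)
    have e : (fun t : ℝ => av f (z + t • ee i)) = fun _ => av f z := by
      funext t
      rw [← av_add hf hz (Pi.single i t)]
      congr 2
      funext j
      by_cases hj : j = i
      · subst hj
        simp [rc, ee]
      · simp [rc, ee, hj]
    rw [HasLineDerivAt, e] at h3
    exact h3.unique (hasDerivAt_const _ _)
  refine ContinuousLinearMap.ext fun v => ?_
  have h4 : v = ∑ i, v i • ee i := by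
    funext j
    simp [ee, Pi.single_apply]
  rw [h4, map_sum]
  simp [h2]

theorem ex_add' (m : Z3) (x y : C3) : ex m (x + y) = ex m x * ex m y := by
  rw [ex_eq, ex_eq, ex_eq, map_add, Complex.exp_add]

theorem mF_cl (m : Z3) (t : Fin 3 → ℝ) : mFourier m (cl t) = ex m (rc t) := by
  simp only [mFourier, ContinuousMap.coe_mk, cl, fourier_coe_apply, ex, rc, Finset.mul_sum,
    Complex.exp_sum]
  refine Finset.prod_congr rfl fun i _ => ?_
  congr 1
  push_cast
  ring

theorem ex_per (h : ℝ) (m : Z3) : Per h (ex m) := fun x _ i => by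
  rw [ex_add', ex_eq m (ee i), DL_apply]
  have : ∑ j, (m j : ℂ) * ee i j = m i := by simp [ee, Pi.single_apply]
  rw [this, mul_comm _ (m i : ℂ), Complex.exp_int_mul_two_pi_mul_I, mul_one]

/-- the coefficients -/
def co (f : C3 → ℂ) (m : Z3) : ℂ := av (fun x => ex (-m) x * f x) 0

theorem coeff_eq {h M : ℝ} {f : C3 → ℂ} (hd : DifferentiableOn ℂ f (Str h)) (hf : Per h f)
    (hM : ∀ x ∈ Str h, ‖f x‖ ≤ M) {y : C3} (hy : y ∈ Str h) (m : Z3) :
    mFourierCoeff (lf f y) m = co f m * ex m y := by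
  have h0 : (0 : C3) ∈ Str h := fun i => by simpa using (abs_nonneg _).trans_lt (hy i)
  have h1 : co f m = av (fun x => ex (-m) x * f x) y := by
    refine av_const (M := wgt h (-m) * M) (f := fun x => ex (-m) x * f x)
      (DifferentiableOn.fun_mul ?_ hd) (fun x hx i => ?_) (fun x hx => ?_) h0 hy
    · rw [show ex (-m) = fun x => Complex.exp (DL (-m) x) from funext (ex_eq _)]
      fun_prop
    · simp only [ex_per h _ x hx i, hf x hx i]
    · rw [norm_mul]
      exact mul_le_mul (norm_ex_le hx _) (hM x hx) (norm_nonneg _) (wgt_pos _ _).le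
  rw [h1, av, ← integral_mul_const]
  refine integral_congr_ae (Eventually.of_forall fun q => ?_)
  have h2 := mF_cl (-m) (rep q)
  rw [cl_rep] at h2
  have h3 := ex_add (-m) m y
  rw [neg_add_cancel, ex_zero] at h3
  simp only [lf, smul_eq_mul, h2, ex_add']
  linear_combination (ex (-m) (rc (rep q)) * f (y + rc (rep q))) * h3

theorem norm_mF (m : Z3) (q : T3) : ‖mFourier m q‖ = 1 := by
  simp only [mFourier, fourier_apply, ContinuousMap.coe_mk, norm_prod, Circle.norm_coe,
    Finset.prod_const_one]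

theorem co_le {h M : ℝ} (hh : 0 < h) {f : C3 → ℂ} (hd : DifferentiableOn ℂ f (Str h))
    (hf : Per h f) (hM : ∀ x ∈ Str h, ‖f x‖ ≤ M) (m : Z3) : ‖co f m‖ * wgt h m ≤ M := by
  have h1 : Tendsto (fun k => ‖co f m‖ * wgt k m) (𝓝[<] h) (𝓝 (‖co f m‖ * wgt h m)) := by
    refine tendsto_nhdsWithin_of_tendsto_nhds (Continuous.tendsto ?_ h)
    unfold wgt
    fun_prop
  refine le_of_tendsto h1 ?_
  filter_upwards [Ioo_mem_nhdsLT hh] with k hk
  let y : C3 := fun i => -(k * (Int.sign (m i) : ℝ) : ℝ) * Complex.I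
  have hy : y ∈ Str h := fun i => by
    have h2 : |((Int.sign (m i) : ℤ) : ℝ)| ≤ 1 := by
      rcases Int.lt_trichotomy (m i) 0 with h | h | h
      · simp [Int.sign_eq_neg_one_of_neg h]
      · simp [h]
      · simp [Int.sign_eq_one_of_pos h]
    have h3 : (y i).im = -(k * (Int.sign (m i) : ℝ)) := by simp [y]
    rw [h3, abs_neg, abs_mul, abs_of_pos hk.1]
    nlinarith [hk.1, hk.2]
  have h4 : ex m y = (wgt k m : ℝ) := by
    unfold ex wgt
    rw [Complex.ofReal_exp]
    congr 1
    push_cast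
    rw [mul_assoc (2 * (Real.pi : ℂ)), mul_assoc (2 * (Real.pi : ℂ)), Finset.mul_sum,
      Finset.mul_sum _ _ (k : ℂ)]
    congr 1
    refine Finset.sum_congr rfl fun i _ => ?_
    have h5 : ((|(m i : ℝ)| : ℝ) : ℂ) = (m i : ℂ) * (Int.sign (m i) : ℤ) := by
      rw [← Int.cast_abs, ← Int.natCast_natAbs, ← Int.mul_sign_self]
      push_cast
      rfl
    rw [h5]
    simp only [y]
    push_cast
    linear_combination (-(k : ℂ) * m i * (Int.sign (m i) : ℤ)) * Complex.I_mul_I
  have h6 : ‖mFourierCoeff (lf f y) m‖ ≤ M * μT.real univ :=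
    norm_integral_le_of_norm_le_const (μ := μT) (Eventually.of_forall fun q => by
      rw [norm_smul, norm_mF, one_mul]
      exact hM _ (add_rc_mem hy _))
  rwa [coeff_eq hd hf hM hy, h4, norm_mul, Complex.norm_real, Real.norm_of_nonneg (wgt_pos _ _).le,
    probReal_univ, mul_one] at h6

theorem int_mF {k : Z3} (hk : k ≠ 0) : ∫ q, mFourier k q ∂μT = 0 := by
  obtain ⟨i, hi⟩ := Function.ne_iff.1 hk
  refine integral_eq_zero_of_add_right_eq_neg (g := cl (Pi.single i (1 / (2 * (k i : ℝ)))))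
    fun q => ?_
  obtain ⟨t, rfl⟩ := cl_surj q
  rw [← cl_add, mF_cl, mF_cl, rc_add, ex_add', ex_eq k (rc (Pi.single _ _)), DL_apply]
  have h0 : (k i : ℂ) ≠ 0 := by exact_mod_cast hi
  have h1 : ∑ j, (k j : ℂ) * rc (Pi.single i (1 / (2 * (k i : ℝ)))) j = 1 / 2 := by
    rw [Finset.sum_eq_single i (fun j _ hj => by simp [rc, hj]) (by simp)]
    simp only [rc, Pi.single_eq_same]
    push_cast
    field_simp
  rw [h1, show (2 * Real.pi * Complex.I * (1 / 2) : ℂ) = Real.pi * Complex.I by ring,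
    Complex.exp_pi_mul_I, mul_neg, mul_one]

theorem coeff_of_hasSum {b : Z3 → ℂ} (hb : Summable fun m => ‖b m‖) {F : T3 → ℂ}
    (hF : ∀ q, HasSum (fun m => b m * mFourier m q) (F q)) (n : Z3) :
    mFourierCoeff F n = b n := by
  have h1 := hasSum_integral_of_summable_integral_norm (μ := μT)
    (F := fun m q => b m * mFourier (-n + m) q)
    (fun m => (Continuous.integrable_of_hasCompactSupport (by fun_prop)
      (HasCompactSupport.of_compactSpace _))) (by simpa [norm_mF] using hb)
  have h2 : ∀ q, ∑' m, b m * mFourier (-n + m) q = mFourier (-n) q • F q := fun q => by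
    refine HasSum.tsum_eq (((hF q).mul_left (mFourier (-n) q)).congr_fun fun m => ?_)
    rw [mFourier_add]
    ring
  simp only [h2, integral_const_mul] at h1
  have h3 := hasSum_single (f := fun m => b m * ∫ q, mFourier (-n + m) q ∂μT) n fun m hm => by
    rw [int_mF (fun h => hm (neg_add_eq_zero.1 h).symm), mul_zero]
  have h4 := h1.unique h3
  rw [neg_add_cancel, mFourier_zero] at h4
  exact h4.trans (by simp)

end Fou

open Fou Omg in
/-- FOU -/
theorem fou : StFou := by
  intro h hh f hd hf M hM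
  have hc := co_le hh hd hf hM
  refine ⟨co f, hc, fun x hx => ?_, fun b hb hs => funext fun n => ?_⟩
  · obtain ⟨k, hk, hxk⟩ := exists_lt hx
    have h1 : mFourierCoeff (⟨lf f x, cont_lf hd hf hx⟩ : C(T3, ℂ)) = fun m => co f m * ex m x :=
      funext fun m => coeff_eq hd hf hM hx m
    have h2 := hasSum_mFourier_series_apply_of_summable (f := ⟨lf f x, cont_lf hd hf hx⟩)
      (h1 ▸ ((sm_of_le hk hc).1.hasSum hxk).summable) (cl 0)
    have h3 : rc 0 = 0 := funext fun i => by simp [rc]
    simpa only [mF_cl, h3, ex_at_zero, smul_eq_mul, mul_one, ContinuousMap.coe_mk,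
      lf_cl hf hx, add_zero, coeff_eq hd hf hM hx] using h2
  · have h0 : (0 : C3) ∈ Str h := fun i => by simpa using hh
    have h1 := coeff_eq hd hf hM h0 n
    rw [ex_at_zero, mul_one] at h1
    rw [← h1]
    refine (coeff_of_hasSum hb (fun q => ?_) n).symm
    obtain ⟨t, rfl⟩ := cl_surj q
    simp only [mF_cl, lf_cl hf h0, zero_add]
    exact hs t

end Vale.Agent.P290Z
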