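import Vale.Agent.P290Z.Lat.Spec
import Vale.Agent.P290Z.N.Lat

/-! P290Z, part III: the lattice of a Kummer surface, Kummer and Nikulin configurations, and the
lattice statements which enter the final assembly. -/

open Set Matrix

namespace Vale.Agent.P290Z.Top

open Vale.Agent.P290.H726 (bil)
open Vale.Agent.P290Z.Lat

section defs

variable {ι : Type} [Fintype ι] [DecidableEq ι]

/-- an isometry from the lattice in Kummer coordinates onto the lattice with Gram matrix `G` -/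
structure KConf (G : Matrix ι ι ℤ) where
  g : Matrix ι (Fin 22) ℤ
  isom : Isom N.G0 G g

/-- the sixteen classes -/
def KConf.E {G : Matrix ι ι ℤ} (κ : KConf G) (a : Fin 16) : ι → ℤ := act κ.g (N.e a)

/-- the integral classes of type `(1,1)` form the Kummer lattice -/
def GenK {G : Matrix ι ι ℤ} (κ : KConf G) (p : ι → ℂ) : Prop := Gen G κ.E p

/-- the integral classes of type `(1,1)` form the Nikulin lattice -/
def GenN {G : Matrix ι ι ℤ} (κ : KConf G) (p : ι → ℂ) : Prop :=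
  Gen G (fun i : Fin 8 => κ.E (N.ev i)) p

/-- no nonzero multiple of `w` is integral -/
def Irr (w : ι → ℝ) : Prop := ∀ (r : ℝ) (x : ι → ℤ), r • w = cs ℝ x → r = 0

/-- the products of `w` with integral vectors have irrational squares or vanish -/
def Extra (G : Matrix ι ι ℤ) (w : ι → ℝ) : Prop :=
  ∀ (y : ι → ℤ) (q : ℚ), bil G w (cs ℝ y) ^ 2 = q → bil G w (cs ℝ y) = 0

/-- near `s` there are generic Kummer periods in the closure of the orbit of `s` -/
def ApxK (G : Matrix ι ι ℤ) (s : ι → ℂ) : Prop :=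
  ∀ r > (0 : ℝ), ∃ t ∈ Cl G ∅ s, ‖t - s‖ < r ∧ IsPer G t ∧ ∃ κ : KConf G, GenK κ t

/-- near `s` there are generic Nikulin periods of odd type in the closure of the orbit of `s` -/
def ApxN (G : Matrix ι ι ℤ) (s : ι → ℂ) : Prop :=
  ∀ r > (0 : ℝ), ∃ (v : ι → ℤ) (w : ι → ℝ) (d : ℤ), pt v w ∈ Cl G ∅ s ∧ ‖pt v w - s‖ < r ∧
    IsPer G (pt v w) ∧ Odd d ∧ bil G v v = 2 * d ∧ Extra G w ∧ ∃ κ : KConf G, GenN κ (pt v w)

end defs

/-- CONF: every even unimodular lattice of signature `(3, 19)` has a Kummer configuration -/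
def StConf : Prop :=
  ∀ (ι : Type) [Fintype ι] [DecidableEq ι] (G : Matrix ι ι ℤ), IsK3L G → Nonempty (KConf G)

/-- ORB C: planes with exactly one rational line -/
def StOrbC : Prop :=
  ∀ (ι : Type) [Fintype ι] [DecidableEq ι] (G : Matrix ι ι ℤ), IsK3L G →
    ∀ (v : ι → ℤ) (b b' : ι → ℝ), Prim G v → IsPer G (pt v b) → Irr b →
      IsPer G (pt v b') → pt v b' ∈ Cl G ∅ (pt v b)

/-- RAT: rational planes are orthogonal to an isotropic vector -/
def StRat : Prop :=
  ∀ (ι : Type) [Fintype ι] [DecidableEq ι] (G : Matrix ι ι ℤ), IsK3L G →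
    ∀ (v : ι → ℤ) (b : ι → ℝ), IsPer G (pt v b) → NoIso G (pt v b) → Irr b

/-- DENS: generic Kummer periods are dense -/
def StDens : Prop :=
  ∀ (ι : Type) [Fintype ι] [DecidableEq ι] (G : Matrix ι ι ℤ), IsK3L G →
    ∀ p : ι → ℂ, IsPer G p → p ∈ closure {q | IsPer G q ∧ ∃ κ : KConf G, GenK κ q}

/-- APX: periods without isotropic vectors -/
def StApx : Prop :=
  ∀ (ι : Type) [Fintype ι] [DecidableEq ι] (G : Matrix ι ι ℤ), IsK3L G →
    ∀ s : ι → ℂ, IsPer G s → NoIso G s → ∃ l : ℂ, l ≠ 0 ∧ (ApxK G (l • s) ∨ ApxN G (l • s))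

/-- APX Z: the period of the double cover -/
def StApxZ : Prop :=
  ∀ (ι : Type) [Fintype ι] [DecidableEq ι] (G : Matrix ι ι ℤ), IsK3L G →
    ∀ (t : ι → ℤ) (w : ι → ℝ) (d : ℤ), IsPer G (pt t w) → Odd d → bil G t t = 4 * d → Irr w →
      ∃ l : ℂ, l ≠ 0 ∧ ApxK G (l • pt t w)

end Vale.Agent.P290Z.Top
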