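import Vale.Agent.P290Z.Calc
import Vale.Agent.P290Z.Inv.Loc
import Vale.Agent.P290.H580.Unif

/-! CALC 2: throwing data from long approximants. -/

open Set Filter Metric
open scoped Topology Manifold ContDiff

namespace Vale.Agent.P290Z

open Vale.Agent.P290 Calc

namespace Long

variable {X : Type} [MetricSpace X] [ChartedSpace C2 X] [IsManifold 𝓘(ℂ, C2) ω X]

theorem one (hI : StInv) (V : Type) [NormedAddCommGroup V] [NormedSpace ℂ V]
    [FiniteDimensional ℂ V] (K : Set V) (F : V × C2 → X) (r : ℝ) (hK : IsCompact K) (hr : 0 < r)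
    (hF : HN (K ×ˢ closedBall (0 : C2) r) F) (hE : ∀ x ∈ K, All.Etale (fun s => F (x, s)) 0)
    (hC : ∀ R : ℝ, CC (K ×ˢ closedBall (0 : C2) r) (K ×ˢ closedBall (0 : C2) R) F) :
    PP K (fun x => F (x, 0)) := by
  obtain ⟨ρ, hρ, hρr, U, M, ψ, -, hKU, hM, hψ, -, h1, h2⟩ := hI V X K hK F
    (hn_mono hF (prod_mono_right (singleton_subset_iff.2 (mem_closedBall_self hr.le)))) hE (r / 2)
    (half_pos hr)
  have hr' : (r : ℂ) ≠ 0 := by exact_mod_cast hr.ne'
  have nr : ∀ t : C2, ‖(r : ℂ) • t‖ = r * ‖t‖ := fun t => by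
    rw [norm_smul, Complex.norm_real, Real.norm_of_nonneg hr.le]
  have pull : ∀ (R : ℝ) (T : V × C2 → X), HN (K ×ˢ closedBall (0 : C2) (r * R)) T →
      HN (K ×ˢ closedBall (0 : C2) R) (fun z : V × C2 => T (z.1, (r : ℂ) • z.2)) := by
    intro R T hT
    refine hn_pull (q := fun z : V × C2 => (z.1, (r : ℂ) • z.2)) hT
      (fun w _ => Eventually.of_forall fun u => by fun_prop) fun w hw => ⟨hw.1, ?_⟩
    rw [mem_closedBall_zero_iff, nr]
    exact mul_le_mul_of_nonneg_left (mem_closedBall_zero_iff.1 hw.2) hr.le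
  refine ⟨M, ⟨hM, fun z => F (z.1, (r : ℂ) • z.2), fun p => (r : ℂ)⁻¹ • ψ p,
    pull 1 F (by rwa [mul_one]), ?_, fun p hp => ⟨?_, ?_⟩, fun R ε hε => ?_⟩,
    fun x hx => (h1 x (hKU hx) 0 (by simpa using hρ)).2.2.1⟩
  · intro W _ _ a b w ha hb hw
    exact (hψ W a b w ha hb hw).const_smul (r : ℂ)⁻¹
  · have := (h2 p hp).2.1
    rw [norm_smul, norm_inv, Complex.norm_real, Real.norm_of_nonneg hr.le, inv_mul_lt_iff₀ hr]
    linarith
  · simp only [smul_inv_smul₀ hr']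
    exact (h2 p hp).2.2
  · obtain ⟨F', a1, a2⟩ := hC (r * R) ε hε
    refine ⟨fun z => F' (z.1, (r : ℂ) • z.2), pull R F' a1, fun x hx t ht => a2 _ ⟨hx, ?_⟩⟩
    rw [mem_closedBall_zero_iff, nr]
    exact mul_le_of_le_one_right hr.le ht

theorem two (hI : StInv) (y : X) (hy : y ∈ Om X) : ∃ N : Set X, IsOpen N ∧ y ∈ N ∧
    ∀ (V : Type) [NormedAddCommGroup V] [NormedSpace ℂ V] (B : Set V), Thr B (univ ×ˢ N) := by
  obtain ⟨S, hS, hE, hS0, hA⟩ := hy
  have pull : ∀ (V : Type) [NormedAddCommGroup V] [NormedSpace ℂ V] (B : Set V) (A : Set C2)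
      (T : C2 → X), HN A T → HN (B ×ˢ A) (fun z : V × C2 => T z.2) := fun V _ _ B A T hT =>
    hn_pull (q := Prod.snd) hT (fun w _ => Eventually.of_forall fun u => differentiableAt_snd)
      fun w hw => hw.2
  obtain ⟨ρ, hρ, hρr, U, M, ψ, -, hKU, hM, hψ, -, h1, h2⟩ := hI ℂ X {0} isCompact_singleton
    (fun z => S z.2) (pull ℂ _ _ S (hn_mono hS
      (singleton_subset_iff.2 (mem_closedBall_self zero_le_one)))) (fun _ _ => hE) (1 / 2)
    one_half_pos
  refine ⟨{q | ((0 : ℂ), q) ∈ M}, hM.preimage (by fun_prop), ?_, fun V _ _ B => ⟨?_,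
    fun z => S z.2, fun p => ψ (0, p.2), pull V B _ S hS, ?_, fun p hp => ⟨?_, ?_⟩,
    fun R ε hε => ?_⟩⟩
  · rw [← hS0]
    exact (h1 0 (hKU rfl) 0 (by simpa using hρ)).2.2.1
  · exact isOpen_univ.prod (hM.preimage (by fun_prop))
  · intro W _ _ a b w _ hb hw
    exact hψ W (fun _ => 0) b w (differentiableAt_const _) hb hw.2
  · exact (h2 _ hp.2).2.1.trans_le hρr
  · exact (h2 _ hp.2).2.2
  · obtain ⟨S', a1, a2⟩ := hA R {q | dist q.2 (S q.1) < ε} fun t ht => by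
      have c0 : ContinuousAt S t :=
        MDifferentiableAt.continuousAt (eventually_nhdsSet_iff_forall.1 hS t ht).self_of_nhds
      have c1 : ContinuousAt (fun q : C2 × X => dist q.2 (S q.1)) (t, S t) :=
        continuousAt_snd.dist (ContinuousAt.comp (g := S) (f := Prod.fst) c0 continuousAt_fst)
      exact c1.eventually_lt_const (by simpa using hε)
    exact ⟨fun z => S' z.2, pull V B _ S' a1, fun x _ t ht => a2 t (mem_closedBall_zero_iff.2 ht)⟩

theorem three (V : Type) [NormedAddCommGroup V] [NormedSpace ℂ V] (B : Set V) (O : Set (V × X))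
    (hT : Thr B O) (p : V × X) (hp : p ∈ O) (hB : p.1 ∈ B) : p.2 ∈ Om X := by
  obtain ⟨hO, S, ψ, h1, h2, h3, h4⟩ := hT
  have hψ := (h3 p hp).1
  have nb : ∀ (R : ℝ) (t : C2), ‖t‖ ≤ R → ‖ψ p + (1 / 2 : ℂ) • t‖ ≤ 1 / 2 + R / 2 := by
    intro R t ht
    refine (norm_add_le _ _).trans (add_le_add hψ.le ?_)
    rw [norm_smul]
    have : ‖(1 / 2 : ℂ)‖ = 1 / 2 := by simp
    rw [this]
    linarith
  have pull : ∀ (R : ℝ) (T : V × C2 → X), HN (B ×ˢ closedBall (0 : C2) (1 / 2 + R / 2)) T →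
      HN (closedBall (0 : C2) R) (fun t : C2 => T (p.1, ψ p + (1 / 2 : ℂ) • t)) := by
    intro R T hT
    exact hn_pull (q := fun t : C2 => (p.1, ψ p + (1 / 2 : ℂ) • t)) hT
      (fun w _ => Eventually.of_forall fun u => by fun_prop) fun w hw =>
        ⟨hB, mem_closedBall_zero_iff.2 (nb R w (mem_closedBall_zero_iff.1 hw))⟩
  have hS0 := pull 1 S (by rwa [add_halves])
  have e0 : S (p.1, ψ p + (1 / 2 : ℂ) • (0 : C2)) = p.2 := by
    rw [smul_zero, add_zero]; exact (h3 p hp).2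
  refine ⟨fun t => S (p.1, ψ p + (1 / 2 : ℂ) • t), hS0, ?_, e0, fun R 𝒪 h𝒪 => ?_⟩
  · have m0 := (eventually_nhdsSet_iff_forall.1 hS0 0 (mem_closedBall_self zero_le_one)).self_of_nhds
    obtain ⟨c0, d0⟩ := Inv.md_iff.1 m0
    refine ⟨c0, d0, ?_⟩
    beta_reduce
    rw [e0] at d0 ⊢
    set φ := chartAt C2 p.2 with hφ
    have ht : φ p.2 ∈ φ.target := mem_chart_target C2 p.2
    have hl : φ.symm (φ p.2) = p.2 := φ.left_inv (mem_chart_source C2 p.2)
    have hb : MD (fun w : C2 => φ.symm w) (φ p.2) :=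
      ((contMDiffOn_chart_symm (n := ω)).contMDiffAt
        (φ.open_target.mem_nhds ht)).mdifferentiableAt (by simp)
    have hd := h2 C2 (fun _ => p.1) (fun w => φ.symm w) (φ p.2) (differentiableAt_const _) hb
      (by rw [hl]; exact hp)
    set q : C2 → C2 := fun w => (2 : ℂ) • (ψ (p.1, φ.symm w) - ψ p) with hq
    have hq0 : q (φ p.2) = 0 := by simp only [hq, hl, Prod.mk.eta, sub_self, smul_zero]
    have hqd : DifferentiableAt ℂ q (φ p.2) := (hd.sub_const _).const_smul (2 : ℂ)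
    have ev : (fun w => φ (S (p.1, ψ p + (1 / 2 : ℂ) • q w))) =ᶠ[𝓝 (φ p.2)] id := by
      have c1 : ContinuousAt (fun w : C2 => (p.1, φ.symm w)) (φ p.2) :=
        continuousAt_const.prodMk (MDifferentiableAt.continuousAt hb)
      filter_upwards [c1.eventually (hO.mem_nhds (by beta_reduce; rw [hl]; exact hp)),
        φ.open_target.mem_nhds ht] with w a1 a2
      have e1 : ψ p + (1 / 2 : ℂ) • q w = ψ (p.1, φ.symm w) := by
        simp only [hq, smul_smul]; norm_num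
      rw [e1, (h3 _ a1).2]
      exact φ.right_inv a2
    have hc := fderiv_comp (g := fun t : C2 => φ (S (p.1, ψ p + (1 / 2 : ℂ) • t))) (f := q)
      (φ p.2) (by rw [hq0]; exact d0) hqd
    rw [hq0] at hc
    have hid : (fderiv ℂ (fun t : C2 => φ (S (p.1, ψ p + (1 / 2 : ℂ) • t))) 0).comp
        (fderiv ℂ q (φ p.2)) = ContinuousLinearMap.id ℂ C2 := by
      rw [← hc]
      exact ev.fderiv_eq.trans fderiv_id
    refine Inv.det_ne_iff.2 ?_
    refine (LinearMap.injective_iff_surjective (f := (fderiv ℂ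
      (fun t : C2 => φ (S (p.1, ψ p + (1 / 2 : ℂ) • t))) 0).toLinearMap)).2 fun v => ?_
    exact ⟨fderiv ℂ q (φ p.2) v, congrArg (fun L : C2 →L[ℂ] C2 => L v) hid⟩
  · obtain ⟨δ, hδ, hδ'⟩ := H580.unif_nbhd (isCompact_closedBall (0 : C2) 1) _
      (fun z hz => MDifferentiableAt.continuousAt
        (eventually_nhdsSet_iff_forall.1 hS0 z hz).self_of_nhds) 𝒪 h𝒪
    obtain ⟨S', a1, a2⟩ := h4 (1 / 2 + R / 2) δ hδ
    refine ⟨fun t => S' (p.1, ψ p + (1 / 2 : ℂ) • t), pull R S' a1, fun t ht => hδ' t ht _ ?_⟩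
    refine a2 _ hB _ ?_
    have := nb 1 t (mem_closedBall_zero_iff.1 ht)
    linarith

end Long

theorem long (hI : StInv) : StLong := by
  intro X _ _ _
  refine ⟨fun V _ _ _ K F r => Long.one hI V K F r, Long.two hI, fun V _ _ => Long.three V, ?_⟩
  intro S r hr hS hE hC
  have pull : ∀ (A : Set C2) (T : C2 → X), HN A T →
      HN (({0} : Set ℂ) ×ˢ A) (fun z : ℂ × C2 => T z.2) := fun A T hT =>
    hn_pull (q := Prod.snd) hT (fun w _ => Eventually.of_forall fun u => differentiableAt_snd)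
      fun w hw => hw.2
  obtain ⟨O, hO, h0⟩ := Long.one hI ℂ {0} (fun z => S z.2) r isCompact_singleton hr (pull _ S hS)
    (fun _ _ => hE) fun R ε hε => by
      obtain ⟨S', a1, a2⟩ := hC R ε hε
      exact ⟨fun z => S' z.2, pull _ S' a1, fun x hx => a2 _ hx.2⟩
  exact Long.three ℂ _ O hO (0, S 0) (h0 0 rfl) rfl

end Vale.Agent.P290Z
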