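import Vale.Agent.P290Z.Spec2

/-! P290Z: the tube of an approximately flat neck. -/

open Set Filter Metric MeasureTheory
open scoped Topology Manifold ContDiff ComplexConjugate

namespace Vale.Agent.P290Z

open Vale.Agent.P290 Vale.Agent.P290.H805

namespace Nk

/-! ### periodisation -/

/-- integer vectors -/
def iv (m : Fin 3 → ℤ) : C3 := fun i => (m i : ℂ)

/-- the integer part -/
noncomputable def fl (x : C3) : Fin 3 → ℤ := fun i => ⌊(x i).re⌋

/-- the periodic extension -/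
noncomputable def per {Y : Type} (f : C3 → Y) (x : C3) : Y := f (x - iv (fl x))

/-- compatibility on the box -/
def Cmp {Y : Type} (d h : ℝ) (f : C3 → Y) : Prop :=
  ∀ i, ∀ x ∈ Box d h, x + ee i ∈ Box d h → f (x + ee i) = f x

variable {Y : Type} {d h : ℝ} {f : C3 → Y}

theorem isOpen_Box (d h : ℝ) : IsOpen (Box d h) := by
  have : Box d h = ⋂ i, {x : C3 | -d < (x i).re ∧ (x i).re < 1 + d ∧ |(x i).im| < h} := by
    ext x
    simp [Box]
  rw [this]
  refine isOpen_iInter_of_finite fun i => ?_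
  have h1 : Continuous fun x : C3 => (x i).re := by fun_prop
  have h2 : Continuous fun x : C3 => |(x i).im| := by fun_prop
  exact (isOpen_lt continuous_const h1).inter
    ((isOpen_lt h1 continuous_const).inter (isOpen_lt h2 continuous_const))

theorem isOpen_Str (h : ℝ) : IsOpen (Str h) := by
  have : Str h = ⋂ i, {x : C3 | |(x i).im| < h} := by
    ext x
    simp [Str]
  rw [this]
  exact isOpen_iInter_of_finite fun i => isOpen_lt (by fun_prop) continuous_const

theorem Str_mono {h h' : ℝ} (hh : h ≤ h') : Str h ⊆ Str h' := fun _ hx i => (hx i).trans_le hh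

theorem Cmp.nat (hf : Cmp d h f) (i : Fin 3) (n : ℕ) {u : C3} (hu : u ∈ Box d h)
    (hn : u + (n : ℂ) • ee i ∈ Box d h) : f (u + (n : ℂ) • ee i) = f u := by
  induction n with
  | zero => simp
  | succ n ih =>
    have h1 : u + (n : ℂ) • ee i ∈ Box d h := by
      intro j
      have h2 := hu j
      have h3 := hn j
      have h4 : (0 : ℝ) ≤ n := Nat.cast_nonneg n
      by_cases hj : j = i
      · subst hj
        simp [ee] at h3 ⊢
        exact ⟨by linarith [h2.1], by linarith [h3.2.1], h2.2.2⟩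
      · simpa [ee, Pi.single_eq_of_ne hj] using h2
    have h2 : u + ((n + 1 : ℕ) : ℂ) • ee i = u + (n : ℂ) • ee i + ee i := by
      push_cast
      rw [add_smul, one_smul, add_assoc]
    rw [h2] at hn ⊢
    rw [hf i _ h1 hn, ih h1]

theorem Cmp.int (hf : Cmp d h f) (i : Fin 3) (n : ℤ) {u : C3} (hu : u ∈ Box d h)
    (hn : u + (n : ℂ) • ee i ∈ Box d h) : f (u + (n : ℂ) • ee i) = f u := by
  obtain ⟨k, rfl | rfl⟩ := n.eq_nat_or_neg
  · exact hf.nat i k hu hn
  · have h1 : u = u + ((-(k : ℤ) : ℤ) : ℂ) • ee i + (k : ℂ) • ee i := by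
      push_cast
      rw [neg_smul, neg_add_cancel_right]
    have h2 := hf.nat i k hn (h1 ▸ hu)
    rw [← h1] at h2
    exact h2.symm

theorem Cmp.vec (hf : Cmp d h f) (m : Fin 3 → ℤ) {u : C3} (hu : u ∈ Box d h)
    (hn : u + iv m ∈ Box d h) : f (u + iv m) = f u := by
  have e : u + iv m = u + (m 0 : ℂ) • ee 0 + (m 1 : ℂ) • ee 1 + (m 2 : ℂ) • ee 2 := by
    funext j
    fin_cases j <;> simp [iv, ee]
  have h1 : u + (m 0 : ℂ) • ee 0 ∈ Box d h := by
    intro j
    have h2 := hu j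
    have h3 := hn j
    fin_cases j <;> simp_all [iv, ee]
  have h2 : u + (m 0 : ℂ) • ee 0 + (m 1 : ℂ) • ee 1 ∈ Box d h := by
    intro j
    have h2 := hu j
    have h3 := hn j
    fin_cases j <;> simp_all [iv, ee]
  rw [e] at hn ⊢
  rw [hf.int 2 _ h2 hn, hf.int 1 _ h1 h2, hf.int 0 _ hu h1]

theorem red_ball {h' r : ℝ} (hr : r ≤ d) (hr' : h' + r ≤ h) {x : C3}
    (hx : x ∈ Str h') : ball (x - iv (fl x)) r ⊆ Box d h := by
  intro z hz i
  have h1 : ‖z i - (x - iv (fl x)) i‖ < r :=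
    (norm_le_pi_norm (z - (x - iv (fl x))) i).trans_lt (mem_ball_iff_norm.1 hz)
  have h2 := (Complex.abs_re_le_norm _).trans_lt h1
  have h3 := (Complex.abs_im_le_norm _).trans_lt h1
  have h4 := hx i
  have h5 := Int.floor_le (x i).re
  have h6 := Int.lt_floor_add_one (x i).re
  simp only [iv, fl, Pi.sub_apply, Complex.sub_re, Complex.sub_im, Complex.intCast_re,
    Complex.intCast_im, sub_zero, abs_lt] at h2 h3 h4 ⊢
  refine ⟨?_, ?_, ?_, ?_⟩ <;> linarith [h2.1, h2.2, h3.1, h3.2, h4.1, h4.2]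

theorem red_mem (hd : 0 < d) {x : C3} (hx : x ∈ Str h) : x - iv (fl x) ∈ Box d h := by
  intro i
  have h5 := Int.floor_le (x i).re
  have h6 := Int.lt_floor_add_one (x i).re
  simp only [iv, fl, Pi.sub_apply, Complex.sub_re, Complex.sub_im, Complex.intCast_re,
    Complex.intCast_im, sub_zero]
  exact ⟨by linarith, by linarith, hx i⟩

theorem str_of_box {x : C3} {m : Fin 3 → ℤ} (hm : x - iv m ∈ Box d h) : x ∈ Str h := by
  intro i
  simpa [iv] using (hm i).2.2

theorem Cmp.per_eq (hf : Cmp d h f) (hd : 0 < d) {x : C3} {m : Fin 3 → ℤ}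
    (hm : x - iv m ∈ Box d h) : per f x = f (x - iv m) := by
  have e : x - iv (fl x) = x - iv m + iv (m - fl x) := by
    funext j
    simp [iv]
  have h1 := red_mem hd (str_of_box hm)
  rw [per, e] at *
  exact hf.vec _ hm h1

theorem Cmp.per_ev (hf : Cmp d h f) (hd : 0 < d) {x : C3} {m : Fin 3 → ℤ}
    (hm : x - iv m ∈ Box d h) : ∀ᶠ z in 𝓝 x, per f z = f (z - iv m) := by
  have h1 : ContinuousAt (fun z : C3 => z - iv m) x := by fun_prop
  filter_upwards [h1.eventually ((isOpen_Box d h).mem_nhds hm)] with z hz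
  exact hf.per_eq hd hz

theorem Cmp.per_per (hf : Cmp d h f) (hd : 0 < d) {h' : ℝ} (hh : h' ≤ h) : Per h' (per f) := by
  intro x hx i
  have e : x + ee i - iv (fl x + Pi.single i 1) = x - iv (fl x) := by
    funext j
    by_cases hj : j = i
    · subst hj
      simp [iv, ee]
    · simp [iv, ee, Pi.single_eq_of_ne hj]
  rw [hf.per_eq hd (m := fl x + Pi.single i 1) (e ▸ red_mem hd (Str_mono hh hx)), e]
  rfl

/-! ### algebra -/

theorem apply_eq (A : C3 →L[ℂ] C2) (ξ : C3) : A ξ = LL (fun i => A (ee i)) ξ := by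
  have h : ξ = ∑ i, ξ i • ee i := by
    funext j
    fin_cases j <;> simp [ee, Fin.sum_univ_three]
  conv_lhs => rw [h]
  simp [LL]

theorem form_kerV (j : ℂ) (A : Fin 3 → C2) (ξ η : C3) :
    form (j • kerV A) ξ η = j * det2 (LL A ξ) (LL A η) := by
  simp [form, kerV, det2, LL, Fin.sum_univ_three]
  ring

theorem det2_map (A : C2 →L[ℂ] C2) (u v : C2) : det2 (A u) (A v) = A.det * det2 u v := by
  rw [C2_det, C2_map_eq A u, C2_map_eq A v]
  simp [det2]
  ring

theorem kerV_map (A : C2 →L[ℂ] C2) (l : Fin 3 → C2) :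
    kerV (fun i => A (l i)) = A.det • kerV l := by
  funext j
  fin_cases j <;> simp [kerV, det2_map]

/-- the coefficients of a pulled back form -/
def pb (a lam : C3) : C3 := ![a 0 * (1 + lam 2), a 1 * (1 + lam 2), a 2 - a 0 * lam 0 - a 1 * lam 1]

theorem form_pb (a : C3) (lam : C3 →L[ℂ] ℂ) (ξ η : C3) :
    form (pb a fun i => lam (ee i)) ξ η = form a (ξ + lam ξ • ee 2) (η + lam η • ee 2) := by
  have h : ∀ ξ : C3, lam ξ = ξ 0 * lam (ee 0) + ξ 1 * lam (ee 1) + ξ 2 * lam (ee 2) := by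
    intro ξ
    have h : ξ = ξ 0 • ee 0 + ξ 1 • ee 1 + ξ 2 • ee 2 := by
      funext j
      fin_cases j <;> simp [ee]
    conv_lhs => rw [h]
    simp
  have e0 : ee 2 0 = 0 := rfl
  have e1 : ee 2 1 = 0 := rfl
  have e2 : ee 2 2 = 1 := rfl
  rw [h ξ, h η]
  simp [form, pb, e0, e1, e2]
  ring

theorem norm_ee (i : Fin 3) : ‖ee i‖ = 1 := by
  simp [ee, Pi.norm_single]

theorem close_kerV (l : Fin 3 → C2) {δ : ℝ} (hδ : 0 < δ) : ∃ η > (0 : ℝ), ∀ (j : ℂ)
    (A : Fin 3 → C2), ‖j - 1‖ ≤ η → ‖A - l‖ ≤ η → ‖j • kerV A - kerV l‖ ≤ δ := by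
  have hc : Continuous fun q : ℂ × (Fin 3 → C2) => q.1 • kerV q.2 := by
    refine continuous_fst.smul (continuous_pi fun i => ?_)
    fin_cases i <;> simp only [kerV, det2] <;> simp <;> fun_prop
  obtain ⟨η, hη, h⟩ := Metric.continuousAt_iff.1 (hc.continuousAt (x := (1, l))) δ hδ
  refine ⟨η / 2, by positivity, fun j A h1 h2 => ?_⟩
  have h3 := h (x := (j, A)) (by
    rw [Prod.dist_eq, dist_eq_norm, dist_eq_norm]
    exact max_lt (by linarith) (by linarith))
  simpa [dist_eq_norm] using h3.le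

theorem close_pb (v : C3) {δ : ℝ} (hδ : 0 < δ) : ∃ η > (0 : ℝ), ∀ a lam : C3,
    ‖a - v‖ ≤ η → ‖lam‖ ≤ η → ‖pb a lam - v‖ ≤ δ := by
  have hc : Continuous fun q : C3 × C3 => pb q.1 q.2 := by
    refine continuous_pi fun i => ?_
    fin_cases i <;> simp only [pb] <;> simp <;> fun_prop
  obtain ⟨η, hη, h⟩ := Metric.continuousAt_iff.1 (hc.continuousAt (x := (v, 0))) δ hδ
  refine ⟨η / 2, by positivity, fun a lam h1 h2 => ?_⟩
  have h3 := h (x := (a, lam)) (by
    rw [Prod.dist_eq, dist_eq_norm, dist_eq_norm, sub_zero]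
    exact max_lt (by linarith) (by linarith))
  have h4 : pb v 0 = v := by
    funext j
    fin_cases j <;> simp [pb]
  simpa [dist_eq_norm, h4] using h3.le

/-- the linear map `LL l` -/
noncomputable def Lc (l : Fin 3 → C2) : C3 →L[ℂ] C2 :=
  ∑ i, (ContinuousLinearMap.proj i : C3 →L[ℂ] ℂ).smulRight (l i)

theorem Lc_apply (l : Fin 3 → C2) (x : C3) : Lc l x = LL l x := by
  simp [Lc, LL]

theorem LL_ee (l : Fin 3 → C2) (i : Fin 3) : LL l (ee i) = l i := by
  fin_cases i <;> simp [LL, ee]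

theorem LL_add (l : Fin 3 → C2) (x y : C3) : LL l (x + y) = LL l x + LL l y := by
  rw [← Lc_apply, map_add, Lc_apply, Lc_apply]

theorem hasFDerivAt_LL (l : Fin 3 → C2) (x : C3) : HasFDerivAt (LL l) (Lc l) x := by
  have h : LL l = Lc l := funext fun x => (Lc_apply l x).symm
  rw [h]
  exact (Lc l).hasFDerivAt

/-! ### the pulled back form -/

/-- the coefficients of the pull back of `J dy₁ ∧ dy₂` -/
noncomputable def co (J : C2 → ℂ) (y : C3 → C2) (z : C3) : C3 :=
  J (y z) • kerV fun i => fderiv ℂ y z (ee i)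

theorem form_co (J : C2 → ℂ) (y : C3 → C2) (z ξ η : C3) :
    form (co J y z) ξ η = J (y z) * det2 (fderiv ℂ y z ξ) (fderiv ℂ y z η) := by
  rw [co, form_kerV, ← apply_eq, ← apply_eq]

theorem diff_co {J : C2 → ℂ} {y : C3 → C2} {x : C3} (hy : ∀ᶠ z in 𝓝 x, DifferentiableAt ℂ y z)
    (hJ : DifferentiableAt ℂ J (y x)) : DifferentiableAt ℂ (co J y) x := by
  have h1 : ContDiffAt ℂ (2 : ℕ) y x := contDiffAt_of_eventually hy 2
  have h2 : DifferentiableAt ℂ (fderiv ℂ y) x :=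
    (h1.fderiv_right (m := 1) (by norm_num)).differentiableAt (by simp)
  have h3 : ∀ u, DifferentiableAt ℂ (fun z => fderiv ℂ y z u) x := fun u =>
    h2.clm_apply (differentiableAt_const u)
  have h4 : ∀ u v, DifferentiableAt ℂ (fun z => det2 (fderiv ℂ y z u) (fderiv ℂ y z v)) x :=
    fun u v => ((h3 u).fst.mul (h3 v).snd).sub ((h3 u).snd.mul (h3 v).fst)
  refine (hJ.comp x hy.self_of_nhds).smul (differentiableAt_pi.2 fun i => ?_)
  fin_cases i
  · exact h4 _ _
  · exact h4 _ _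
  · exact h4 _ _

theorem closed_co (hC : StClosed) {J : C2 → ℂ} {y : C3 → C2} {x : C3}
    (hy : ∀ᶠ z in 𝓝 x, DifferentiableAt ℂ y z) (hJ : DifferentiableAt ℂ J (y x)) :
    ∑ i, fderiv ℂ (co J y) x (ee i) i = 0 := by
  have h1 := hC C3 y J x hy hJ (ee 0) (ee 1) (ee 2)
  have h2 : ∀ (i : Fin 3) (u : C3), fderiv ℂ (co J y) x u i = fderiv ℂ (fun z => co J y z i) x u := by
    intro i u
    rw [fderiv_pi (differentiableAt_pi.1 (diff_co hy hJ))]
    rfl
  rw [Fin.sum_univ_three, h2, h2, h2]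
  exact h1

theorem Flat.mono {l : Fin 3 → C2} {C : Set C2} {ρ δ δ' : ℝ} {X : Type} {p : C2 → X}
    {E : Fin 3 → C2 → C2} {J : C2 → ℂ} (h : Flat l C ρ δ p E J) (hδ : δ ≤ δ') :
    Flat l C ρ δ' p E J :=
  ⟨h.inj, fun i y h1 h2 => ⟨(h.hol i y h1 h2).1, (h.hol i y h1 h2).2.trans hδ⟩, h.rel,
    fun y h1 => ⟨(h.jhol y h1).1, (h.jhol y h1).2.trans hδ⟩, h.jrel⟩

/-- the parametrisation is compatible with the translations -/
theorem cmp_y {l : Fin 3 → C2} {C : Set C2} {ρ δ : ℝ} {X : Type} {p : C2 → X}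
    {E : Fin 3 → C2 → C2} {J : C2 → ℂ} (hF : Flat l C ρ δ p E J) {y : C3 → C2}
    (hy : DifferentiableOn ℂ y (Box d h)) (hm : ∀ x ∈ Box d h, y x ∈ C)
    (hr : ∀ i, ∀ x ∈ Box d h, x + ee i ∈ Box d h → y (x + ee i) - l i ∈ C ∧
      y x = y (x + ee i) - l i + E i (y (x + ee i) - l i)) :
    Cmp d h (fun x => p (y x)) ∧ Cmp d h (co J y) := by
  refine ⟨fun i x hx hx' => ?_, fun i x hx hx' => ?_⟩
  · obtain ⟨h1, h2⟩ := hr i x hx hx'
    have h3 := hF.rel i _ h1 (by rw [sub_add_cancel]; exact hm _ hx')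
    rw [sub_add_cancel, ← h2] at h3
    exact h3
  · obtain ⟨h1, h2⟩ := hr i x hx hx'
    have h0 : y (x + ee i) - l i + l i ∈ C := by rw [sub_add_cancel]; exact hm _ hx'
    have h3 := hF.jrel i _ h1 h0 (h2 ▸ hm x hx)
    rw [sub_add_cancel, ← h2] at h3
    have hc : ContinuousAt (fun z : C3 => z + ee i) x := by fun_prop
    have h4 : y =ᶠ[𝓝 x] fun z => (fun w => w + E i w) (y (z + ee i) - l i) := by
      filter_upwards [(isOpen_Box d h).mem_nhds hx, hc.eventually ((isOpen_Box d h).mem_nhds hx')]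
        with z hz hz'
      exact (hr i z hz hz').2
    have h5 : HasFDerivAt (fun z => y (z + ee i) - l i) (fderiv ℂ y (x + ee i)) x := by
      have h6 := (hy.differentiableAt ((isOpen_Box d h).mem_nhds hx')).hasFDerivAt
      exact ((hasFDerivAt_comp_add_right (ee i)).2 h6).sub_const _
    have h6 : DifferentiableAt ℂ (fun w => w + E i w) (y (x + ee i) - l i) :=
      differentiableAt_id.add (hF.hol i _ h1 h0).1
    have h7 : fderiv ℂ y x = (fderiv ℂ (fun w => w + E i w) (y (x + ee i) - l i)).comp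
        (fderiv ℂ y (x + ee i)) := by
      rw [h4.fderiv_eq]
      exact (h6.hasFDerivAt.comp x h5).fderiv
    simp only [co, h7, ContinuousLinearMap.comp_apply]
    rw [kerV_map, smul_smul, h3]

/-- local lifts of the straightened map -/
theorem lift_at {J : C2 → ℂ} {y : C3 → C2} (hd : 0 < d) (hy : DifferentiableOn ℂ y (Box d h))
    (hc : Cmp d h (co J y)) {Ω : C3 → ℂ} {z : C3} (hΩ : DifferentiableAt ℂ Ω z) {m : Fin 3 → ℤ}
    (hm : z + Ω z • ee 2 - iv m ∈ Box d h) :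
    DifferentiableAt ℂ (fun z => y (z + Ω z • ee 2 - iv m)) z ∧ ∀ ξ η : C3,
      form (pb (per (co J y) (z + Ω z • ee 2)) fun i => fderiv ℂ Ω z (ee i)) ξ η =
        J (y (z + Ω z • ee 2 - iv m)) * det2 (fderiv ℂ (fun z => y (z + Ω z • ee 2 - iv m)) z ξ)
          (fderiv ℂ (fun z => y (z + Ω z • ee 2 - iv m)) z η) := by
  have h1 : HasFDerivAt (fun z => z + Ω z • ee 2 - iv m)
      (ContinuousLinearMap.id ℂ C3 + (fderiv ℂ Ω z).smulRight (ee 2)) z :=
    ((hasFDerivAt_id z).add (hΩ.hasFDerivAt.smul_const (ee 2))).sub_const _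
  have h2 := (hy.differentiableAt ((isOpen_Box d h).mem_nhds hm)).hasFDerivAt.comp z h1
  refine ⟨h2.differentiableAt, fun ξ η => ?_⟩
  have h3 : fderiv ℂ (fun z => y (z + Ω z • ee 2 - iv m)) z = _ := h2.fderiv
  rw [form_pb, hc.per_eq hd hm, form_co, h3]
  rfl

theorem ball_Str {h h' r : ℝ} (hr : h' + r ≤ h) {x : C3} (hx : x ∈ Str h') : ball x r ⊆ Str h := by
  intro z hz i
  have h1 : ‖z i - x i‖ < r := (norm_le_pi_norm (z - x) i).trans_lt (mem_ball_iff_norm.1 hz)
  have h3 := (Complex.abs_im_le_norm _).trans_lt h1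
  have h4 := hx i
  simp only [Complex.sub_im, abs_lt] at h3 h4 ⊢
  constructor <;> linarith [h3.1, h3.2, h4.1, h4.2]

theorem ball_Box {r : ℝ} (hr : r ≤ d) (hr' : r ≤ h) : ball (0 : C3) r ⊆ Box d h := by
  intro z hz i
  have h1 : ‖z i‖ < r := (norm_le_pi_norm z i).trans_lt (mem_ball_zero_iff.1 hz)
  have h2 := (Complex.abs_re_le_norm _).trans_lt h1
  have h3 := (Complex.abs_im_le_norm _).trans_lt h1
  rw [abs_lt] at h2
  exact ⟨by linarith [h2.1], by linarith [h2.2], by linarith⟩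

end Nk

open Nk in
theorem neck (hP : StPer3) (hO : StOmega) (hC : StClosed) (hT : StTube) : StNeck := by
  intro l C ρ₀ hCo hcell hρ₀ hform
  obtain ⟨d, hd, h, hh, hP⟩ := hP l C ρ₀ hCo hcell hρ₀
  set r : ℝ := min d (h / 8) with hr
  have hr0 : 0 < r := lt_min hd (by positivity)
  have hrd : r ≤ d := min_le_left _ _
  have hrh : r ≤ h / 8 := min_le_right _ _
  obtain ⟨ρ, hρ, hT⟩ := hT l (r / 2) (by positivity) hform
  refine ⟨ρ, hρ, fun ε hε => ?_⟩
  obtain ⟨δT, hδT, hT⟩ := hT ε hε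
  obtain ⟨η₁, hη₁, h1⟩ := close_pb (kerV l) hδT
  have hl : 0 < ‖l 2‖ + 1 := by positivity
  obtain ⟨ε₂, hε₂, e1, e2, e3, e4⟩ : ∃ ε₂ > (0 : ℝ), ε₂ ≤ δT ∧ ε₂ ≤ r / 4 ∧ ε₂ ≤ η₁ * r ∧
      ε₂ ≤ δT / 2 / (‖l 2‖ + 1) :=
    ⟨min (min δT (r / 4)) (min (η₁ * r) (δT / 2 / (‖l 2‖ + 1))), by positivity,
      (min_le_left _ _).trans (min_le_left _ _), (min_le_left _ _).trans (min_le_right _ _),
      (min_le_right _ _).trans (min_le_left _ _), (min_le_right _ _).trans (min_le_right _ _)⟩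
  obtain ⟨δO, hδO, hO⟩ := hO (h / 2) (kerV l) (by positivity) hform ε₂ hε₂
  obtain ⟨η₂, hη₂, h2⟩ := close_kerV l (lt_min hδO hη₁)
  obtain ⟨δP, hδP, hP⟩ := hP (min (η₂ * r) (δT / 2)) (by positivity)
  refine ⟨min δP (min η₂ (1 / 2)), by positivity, fun X p E J hF => ?_⟩
  obtain ⟨α, hα, hb, hrel⟩ := hP X p E J (Flat.mono hF (min_le_left _ _))
  set y : C3 → C2 := fun x => LL l x + α x with hy
  have hyd : DifferentiableOn ℂ y (Box d h) := fun x hx =>
    (hasFDerivAt_LL l x).differentiableAt.differentiableWithinAt.add (hα x hx)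
  have hye : ∀ x ∈ Box d h, ∀ᶠ z in 𝓝 x, DifferentiableAt ℂ y z := fun x hx =>
    hyd.eventually_differentiableAt ((isOpen_Box d h).mem_nhds hx)
  have hym : ∀ x ∈ Box d h, y x ∈ C := fun x hx => (hb x hx).2
  obtain ⟨c1, c2⟩ := cmp_y hF hyd hym fun i x hx hx' => by
    have e : y (x + ee i) - l i = LL l x + α (x + ee i) := by
      simp only [hy, LL_add, LL_ee]
      abel
    rw [e]
    exact hrel i x hx hx'
  set a := per (co J y) with ha
  have hfa : ∀ x ∈ Str h, HasFDerivAt a (fderiv ℂ (co J y) (x - iv (fl x))) x := by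
    intro x hx
    have hx' := red_mem hd hx
    have h3 := (diff_co (hye _ hx') (hF.jhol _ (hym _ hx')).1).hasFDerivAt
    have h4 : HasFDerivAt (fun z => co J y (z - iv (fl x)))
        (fderiv ℂ (co J y) (x - iv (fl x))) x := (hasFDerivAt_comp_sub (iv (fl x))).2 h3
    exact h4.congr_of_eventuallyEq (c2.per_ev hd hx')
  have hs : Str (h / 2) ⊆ Str h := Str_mono (by linarith)
  have hab : ∀ x ∈ Str (h / 2), ‖a x - kerV l‖ ≤ min δO η₁ := by
    intro x hx
    have hx' := red_mem hd (hs hx)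
    have h3 := red_ball hrd (show h / 2 + r ≤ h by linarith) hx
    have h4 := norm_fderiv_le_of_bound hr0 (hα.mono h3) fun z hz =>
      (hb z (h3 hz)).1.trans (min_le_left _ _)
    rw [mul_div_cancel_right₀ _ hr0.ne'] at h4
    refine h2 _ _ ((hF.jhol _ (hym _ hx')).2.trans
      ((min_le_right _ _).trans (min_le_left _ _))) ((pi_norm_le_iff_of_nonneg hη₂.le).2 fun i => ?_)
    have h5 := ((hasFDerivAt_LL l _).add
      (hα.differentiableAt ((isOpen_Box d h).mem_nhds hx')).hasFDerivAt).fderiv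
    have h6 : fderiv ℂ y (x - iv (fl x)) = Lc l + fderiv ℂ α (x - iv (fl x)) := h5
    rw [Pi.sub_apply, h6, add_apply, Lc_apply, LL_ee, add_sub_cancel_left]
    refine (ContinuousLinearMap.le_opNorm _ _).trans ?_
    rw [norm_ee, mul_one]
    exact h4
  obtain ⟨v, Ω, hv, hΩ, hΩb⟩ := hO a
    (fun x hx => (hfa x (hs hx)).differentiableAt.differentiableWithinAt)
    (c2.per_per hd (by linarith)) (fun x hx => (hab x hx).trans (min_le_left _ _))
    (fun x hx => by
      have hx' := red_mem hd (hs hx)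
      rw [(hfa x (hs hx)).fderiv]
      exact closed_co hC (hye _ hx') (hF.jhol _ (hym _ hx')).1)
  have hs2 : Str (r / 2) ⊆ Str (h / 2 / 2) := Str_mono (by linarith)
  have hΩd : ∀ x ∈ Str (h / 2 / 2), DifferentiableAt ℂ Ω x := fun x hx =>
    hΩ.differentiableAt ((isOpen_Str _).mem_nhds hx)
  have hn : ∀ x ∈ Str (h / 2 / 2), ‖Ω x • ee 2‖ ≤ ε₂ := fun x hx => by
    rw [norm_smul, norm_ee, mul_one]
    exact (hΩb x hx).1
  have hΦ : ∀ x ∈ Str (r / 2), x + Ω x • ee 2 ∈ Str (h / 2) := fun x hx =>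
    ball_Str (show r / 2 + r ≤ h / 2 by linarith) hx (by
      rw [mem_ball_iff_norm, add_sub_cancel_left]
      linarith [hn x (hs2 hx)])
  refine hT X C p J (fun x => per (fun x => p (y x)) (x + Ω x • ee 2))
    (fun x => pb (a (x + Ω x • ee 2)) fun i => fderiv ℂ Ω x (ee i)) v
    (fun x => y (x + Ω x • ee 2 - iv 0)) (hv.trans e1) (fun w hw => ⟨(hF.jhol w hw).1, ?_⟩)
    (fun x hx => ⟨?_, ?_, ?_⟩) fun x hx => ?_
  · intro h0
    have h3 := (hF.jhol w hw).2.trans ((min_le_right _ _).trans (min_le_right _ _))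
    rw [h0] at h3
    norm_num at h3
  · refine h1 _ _ ((hab _ (hΦ x hx)).trans (min_le_right _ _))
      ((pi_norm_le_iff_of_nonneg hη₁.le).2 fun i => ?_)
    have h3 := ball_Str (show r / 2 + r ≤ h / 2 / 2 by linarith) hx
    have h4 := norm_fderiv_le_of_bound hr0 (hΩ.mono h3) fun z hz => (hΩb z (h3 hz)).1.trans e3
    rw [mul_div_cancel_right₀ _ hr0.ne'] at h4
    refine (ContinuousLinearMap.le_opNorm _ _).trans ?_
    rw [norm_ee, mul_one]
    exact h4
  · rw [form_pb]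
    exact (hΩb x (hs2 hx)).2
  · refine ⟨fun z => y (z + Ω z • ee 2 - iv (fl (x + Ω x • ee 2))), ?_⟩
    have h3 : ContinuousAt (fun z => z + Ω z • ee 2 - iv (fl (x + Ω x • ee 2))) x :=
      (continuousAt_id.add ((hΩd x (hs2 hx)).continuousAt.smul continuousAt_const)).sub
        continuousAt_const
    filter_upwards [h3.eventually ((isOpen_Box d h).mem_nhds (red_mem hd (hs (hΦ x hx)))),
      (isOpen_Str _).mem_nhds (hs2 hx)] with z hz hz'
    obtain ⟨h4, h5⟩ := lift_at hd hyd c2 (hΩd z hz') hz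
    exact ⟨h4, hym _ hz, c1.per_eq hd hz, h5⟩
  · have hx' : x ∈ Str (r / 2) := fun i =>
      ((Complex.abs_im_le_norm _).trans (norm_le_pi_norm x i)).trans_lt (mem_ball_zero_iff.1 hx)
    have e0 : iv 0 = 0 := funext fun i => by simp [iv]
    have hz : x + Ω x • ee 2 - iv 0 ∈ Box d h := by
      refine ball_Box hrd (by linarith) ?_
      rw [e0, sub_zero, mem_ball_zero_iff]
      have h3 := norm_add_le x (Ω x • ee 2)
      linarith [hn x (hs2 hx'), mem_ball_zero_iff.1 hx]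
    obtain ⟨h4, h5⟩ := lift_at hd hyd c2 (hΩd x (hs2 hx')) hz
    refine ⟨h4, hym _ hz, c1.per_eq hd hz, ?_, h5⟩
    have h6 := (hb _ hz).1.trans (min_le_right _ _)
    have h7 : y (x + Ω x • ee 2 - iv 0) - LL l x = Ω x • l 2 + α (x + Ω x • ee 2 - iv 0) := by
      simp only [hy, e0, sub_zero, LL_add]
      rw [← Lc_apply l (Ω x • ee 2), map_smul, Lc_apply, LL_ee]
      abel
    have h8 : ‖Ω x • l 2‖ ≤ δT / 2 := by
      rw [norm_smul]
      have h9 := (hΩb x (hs2 hx')).1.trans e4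
      rw [le_div_iff₀ hl] at h9
      nlinarith [norm_nonneg (Ω x)]
    change ‖y (x + Ω x • ee 2 - iv 0) - LL l x‖ ≤ δT
    rw [h7]
    linarith [norm_add_le (Ω x • l 2) (α (x + Ω x • ee 2 - iv 0))]

end Vale.Agent.P290Z
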