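import Vale.Agent.P290Z.Spec2

/-! P290Z: tubes in the nearby fibres -/

open Set Filter Metric
open scoped Topology

namespace Vale.Agent.P290Z

open Vale.Agent.P290 Vale.Agent.P290.H805 Vale.Agent.P290.R2.H596

namespace NF

theorem zero_mem_cell (l : Fin 3 → C2) : (0 : C2) ∈ Cell l :=
  ⟨fun _ => 0, fun _ => ⟨le_rfl, zero_le_one⟩, by simp⟩

/-- a neighbourhood of the graph of a composition -/
theorem nbhd {E : Type} [TopologicalSpace E] {π : C2 → E} {A : C2 → C2} (hA : Continuous A)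
    {Z : Set C2} (hZ : IsCompact Z) (hπ : ∀ q ∈ Z, ContinuousAt π (A q)) {𝒪 : Set (C2 × E)}
    (h : ∀ q ∈ Z, 𝒪 ∈ 𝓝 (q, π (A q))) : ∃ ε > (0 : ℝ), ∀ y : C2,
      {x : C2 × E | ∀ q ∈ Z, ‖x.1 - A q‖ ≤ ε → (q, x.2) ∈ 𝒪} ∈ 𝓝 (y, π y) := by
  have h1 : ∀ᶠ d in 𝓝 (0 : C2), ∀ q ∈ Z, (q, π (A q + d)) ∈ interior 𝒪 := by
    refine hZ.eventually_forall_of_forall_eventually fun q hq => ?_
    have c1 : ContinuousAt (fun z : C2 × C2 => A z.2 + z.1) (0, q) := by fun_prop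
    have c2 : ContinuousAt π ((fun z : C2 × C2 => A z.2 + z.1) (0, q)) := by
      simpa using hπ q hq
    have c3 : ContinuousAt (fun z : C2 × C2 => (z.2, π (A z.2 + z.1))) (0, q) :=
      continuousAt_snd.prodMk (ContinuousAt.comp (g := π) c2 c1)
    refine c3.eventually (isOpen_interior.mem_nhds ?_)
    simpa using mem_interior_iff_mem_nhds.2 (h q hq)
  obtain ⟨ε, hε, h2⟩ := Metric.eventually_nhds_iff.1 h1
  refine ⟨ε / 2, by positivity, fun y => ?_⟩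
  refine hZ.eventually_forall_of_forall_eventually
    (P := fun (x : C2 × E) q => ‖x.1 - A q‖ ≤ ε / 2 → (q, x.2) ∈ 𝒪) fun q hq => ?_
  rcases lt_or_ge ‖y - A q‖ ε with h3 | h3
  · have h4 := h2 (y := y - A q) (by simpa using h3) q hq
    rw [add_sub_cancel] at h4
    have c3 : ContinuousAt (fun z : (C2 × E) × C2 => (z.2, z.1.2)) ((y, π y), q) := by fun_prop
    filter_upwards [c3.eventually (isOpen_interior.mem_nhds h4)] with z hz _
    exact interior_subset hz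
  · have c3 : ContinuousAt (fun z : (C2 × E) × C2 => ‖z.1.1 - A z.2‖) ((y, π y), q) := by fun_prop
    filter_upwards [c3.eventually (lt_mem_nhds (show ε / 2 < ‖y - A q‖ by linarith))] with z hz hz'
    exact absurd hz' (not_le.2 hz)

end NF

theorem neckFam (hD : StDeform) (hN : StNeck) : StNeckFam := by
  intro T E _ _ F vol hv s π l y₀ C₀ J₀ hC₀ hcell hJ hhol hper hform
  have hopen : IsOpen {y : C2 | y₀ + y ∈ C₀} := hC₀.preimage (continuous_const.add continuous_id)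
  have hfh : ∀ y : C2, y₀ + y ∈ C₀ → FH F s (fun y => π (y₀ + y)) y := fun y hy =>
    FH.comp (q := fun y => y₀ + y) (hhol _ hy).1 (by fun_prop)
  obtain ⟨C, ρ₀, hC, hCl, hcl, -, hρ₀, hdef⟩ := hD T E F vol hv s (fun y => π (y₀ + y)) l
    {y | y₀ + y ∈ C₀} J₀ hopen hcell hJ (fun y hy => ⟨hfh y hy, by
      rw [← (hhol _ hy).2, jac, jac,
        fderiv_comp_add_left (f := fun y' => (F.triv (π (y₀ + y)) (π y')).2)]⟩)
    (fun i y hy hy' => by
      have e : y₀ + (y + l i) = y₀ + y + l i := (add_assoc _ _ _).symm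
      exact e ▸ hper i _ hy (e ▸ hy'))
  obtain ⟨ρ, hρ, hneck⟩ := hN l C ρ₀ hC hCl hρ₀ hform
  obtain ⟨A, hA⟩ : ∃ A : C2 → C2, A = fun q => q.1 • l 2 + q.2 • LL l (cj (kerV l)) := ⟨_, rfl⟩
  have cA : Continuous A := by rw [hA]; fun_prop
  obtain ⟨r, hr, hrC⟩ := Metric.isOpen_iff.1 hC 0 (hCl (NF.zero_mem_cell l))
  obtain ⟨ρ₁, hρ₁, hA1⟩ := Metric.continuous_iff.1 cA 0 (r / 2) (by positivity)
  have hA0 : A 0 = 0 := by simp [hA]
  have hm : 0 < min ρ ρ₁ := lt_min hρ hρ₁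
  have hsmall : ∀ q ∈ closedBall (0 : C2) (min ρ ρ₁ / 2), ‖q‖ < ρ ∧ ‖A q‖ < r / 2 := by
    intro q hq
    rw [mem_closedBall_zero_iff] at hq
    refine ⟨by linarith [min_le_left ρ ρ₁], ?_⟩
    simpa [hA0] using hA1 q (by rw [dist_zero_right]; linarith [min_le_right ρ ρ₁])
  refine ⟨min ρ ρ₁ / 2, by positivity, fun 𝒪 h𝒪 => ?_⟩
  obtain ⟨ε, hε, hnb⟩ := NF.nbhd (π := fun y => π (y₀ + y)) cA (isCompact_closedBall _ _)
    (fun q hq => (hfh _ (hcl (subset_closure (hrC (mem_ball_zero_iff.2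
      (by linarith [(hsmall q hq).2])))))).2.1) (𝒪 := 𝒪) (fun q hq => by
        simpa [hA, add_assoc] using h𝒪 q hq)
  obtain ⟨δ, hδ, hδ'⟩ := hneck (min ε (r / 2)) (by positivity)
  filter_upwards [hdef δ hδ _ fun y _ => hnb y] with t ⟨p, Ei, hp, hflat⟩
  obtain ⟨P, ξ, h1, h2⟩ := hδ' E p Ei _ hflat
  refine ⟨P, fun q hq => ?_, fun q hq => ?_⟩
  · obtain ⟨ζ, hζ⟩ := h1 q (by linarith [min_le_left ρ ρ₁])
    obtain ⟨a, b, -⟩ := hζ.self_of_nhds
    exact (FH.comp (hp _ b).1 a).congr (hζ.mono fun z hz => hz.2.2)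
  · obtain ⟨a, b⟩ := hsmall q hq
    obtain ⟨-, c, d⟩ := h2 q (mem_ball_zero_iff.2 a)
    have e : ‖ξ q - A q‖ ≤ min ε (r / 2) := by rw [hA]; exact d
    have f : ξ q ∈ C := hrC (mem_ball_zero_iff.2 (by
      linarith [norm_le_norm_sub_add (ξ q) (A q), min_le_right ε (r / 2)]))
    rw [c]
    exact (hp _ f).2 q hq (e.trans (min_le_left _ _))

end Vale.Agent.P290Z
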