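import Vale.Agent.P290Z.Omega.C

/-! OMEGA: the straightening of the foliation. -/

open Set Filter Metric
open scoped Topology ComplexConjugate

namespace Vale.Agent.P290Z

namespace Omg

theorem DL_eq (m : Z3) (u : C3) :
    DL m u = DL m (ee 0) * u 0 + DL m (ee 1) * u 1 + DL m (ee 2) * u 2 := by
  simp [DL_apply, ee, Fin.sum_univ_three]
  ring

theorem DL_ee (m : Z3) (i : Fin 3) : DL m (ee i) = 2 * Real.pi * Complex.I * m i := by
  simp [DL_apply, ee, Pi.single_apply]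

theorem norm_DL_ee (m : Z3) (i : Fin 3) : ‖DL m (ee i)‖ = 2 * Real.pi * |(m i : ℝ)| := by
  simp [DL_ee, abs_of_pos Real.pi_pos]

theorem norm_cj (v : C3) : ‖cj v‖ ≤ ‖v‖ :=
  (pi_norm_le_iff_of_nonneg (norm_nonneg v)).2 fun i => by simpa [cj] using norm_le_pi_norm v i

/-- the data for one Fourier mode -/
theorem mode (m : Z3) (b : C3) (hb : DL m b = 0) (h0 : m = 0 → b = 0) :
    ∃ p g : C3 → ℂ, (∀ u, ‖p u‖ ≤ 3 * ‖u‖ * ‖b‖ ∧ ‖g u‖ ≤ 3 * ‖u‖ * ‖b‖) ∧
      ∀ (u v : C3) (s t w : ℂ), form b (u + s • ee 2) (v + t • ee 2) =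
        (p v * DL m (u + s • ee 2) - s * g v - w * (g v * DL m (u + s • ee 2))) -
          (p u * DL m (v + t • ee 2) - t * g u - w * (g u * DL m (v + t • ee 2))) := by
  obtain ⟨l, e0, e1, e2, e3, hl⟩ := prim (fun i => DL m (ee i)) b
    (fun i => by
      by_cases h : m i = 0
      · exact Or.inl (by simp [DL_ee, h])
      · refine Or.inr ?_
        have h1 : (1 : ℝ) ≤ |(m i : ℝ)| := by exact_mod_cast Int.one_le_abs h
        rw [norm_DL_ee]
        nlinarith [Real.pi_gt_three])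
    (by rw [← DL_eq, hb])
    (fun a0 a1 a2 => h0 (by
      have key : ∀ i, DL m (ee i) = 0 → m i = 0 := fun i hi => by
        simpa [DL_ee, Real.pi_ne_zero] using hi
      funext i
      fin_cases i
      exacts [key 0 a0, key 1 a1, key 2 a2]))
  have hmul : ∀ (u : C3) (i : Fin 3) (z : ℂ), ‖z‖ ≤ ‖b‖ → ‖u i * z‖ ≤ ‖u‖ * ‖b‖ := fun u i z hz => by
    rw [norm_mul]
    exact mul_le_mul (norm_le_pi_norm u i) hz (norm_nonneg _) (norm_nonneg _)
  refine ⟨fun u => u 0 * l 0 + u 1 * l 1 + u 2 * l 2, fun u => l 2 * DL m u,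
    fun u => ⟨?_, ?_⟩, fun u v s t w => ?_⟩
  · linarith [norm_add₃_le (a := u 0 * l 0) (b := u 1 * l 1) (c := u 2 * l 2), hmul u 0 _ (hl 0),
      hmul u 1 _ (hl 1), hmul u 2 _ (hl 2)]
  · rcases mul_eq_zero.1 e3 with h | h
    · have e : l 2 * DL m u = u 1 * b 0 - u 0 * b 1 := by
        rw [DL_eq, e0, e1, h]
        ring
      simp only [e]
      linarith [norm_sub_le (u 1 * b 0) (u 0 * b 1), hmul u 1 _ (norm_le_pi_norm b 0),
        hmul u 0 _ (norm_le_pi_norm b 1), mul_nonneg (norm_nonneg u) (norm_nonneg b)]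
    · simp only [h, zero_mul, norm_zero]
      positivity
  · simp only [map_add, map_smul, smul_eq_mul]
    rw [DL_eq m u, DL_eq m v, form, e0, e1, e2]
    simp only [ee, Pi.add_apply, Pi.smul_apply, smul_eq_mul, Pi.single_apply] at e3 ⊢
    simp only [Fin.reduceEq, ↓reduceIte]
    generalize DL m (Pi.single 0 1) = d0 at *
    generalize DL m (Pi.single 1 1) = d1 at *
    generalize DL m (Pi.single 2 1) = d2 at *
    linear_combination (w * s * (d0 * v 0 + d1 * v 1 + d2 * v 2) -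
      w * t * (d0 * u 0 + d1 * u 1 + d2 * u 2)) * e3

theorem form_self (v u : C3) (s t : ℂ) :
    form v (u + s • ee 2) (v + t • ee 2) = form v u (ee 2) * t := by
  simp [form, ee]
  ring

theorem exists_near {v₀ : C3} (hv : form v₀ (cj v₀) (ee 2) ≠ 0) : ∃ δ > (0 : ℝ), ∀ v : C3,
    ‖v - v₀‖ ≤ δ → ‖form v₀ (cj v₀) (ee 2)‖ / 2 ≤ ‖form v (cj v) (ee 2)‖ := by
  have hc : Continuous fun v : C3 => ‖form v (cj v) (ee 2)‖ := by
    unfold form cj
    fun_prop
  have h1 := (hc.tendsto v₀).eventually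
    (lt_mem_nhds (half_lt_self (norm_pos_iff.2 hv)))
  obtain ⟨δ, hδ, h2⟩ := nhds_basis_closedBall.eventually_iff.1 h1
  exact ⟨δ, hδ, fun v hv => (h2 (mem_closedBall_iff_norm.2 hv)).le⟩

end Omg

open Omg

theorem omega (hF : StFou) : StOmega := by
  intro h v₀ hh hv ε hε
  obtain ⟨δ₁, hδ₁, hnear⟩ := exists_near hv
  set z₀ := ‖form v₀ (cj v₀) (ee 2)‖ with hz₀
  have hz₀' : 0 < z₀ := norm_pos_iff.2 hv
  set k := 3 * h / 4 with hk
  have hkh : k < h := by linarith
  set C := ∑' m : Z3, wgt (-(h - k)) m with hC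
  have hC0 : 0 ≤ C := tsum_nonneg fun m => (wgt_pos _ _).le
  set r := min (min ε 1) (h / 8) with hr
  have hr0 : 0 < r := by positivity
  have hr1 : r ≤ ε := (min_le_left _ _).trans (min_le_left _ _)
  have hr2 : r ≤ 1 := (min_le_left _ _).trans (min_le_right _ _)
  have hr3 : r ≤ h / 8 := min_le_right _ _
  set A := 3 * (‖v₀‖ + 1) with hA
  have hA0 : 0 < A := by positivity
  refine ⟨min (min δ₁ r) (r * z₀ / (24 * A * (C + 1))), by positivity, fun a ha hper hb hdiv => ?_⟩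
  set δ := min (min δ₁ r) (r * z₀ / (24 * A * (C + 1))) with hδ
  have hδ0 : 0 < δ := by positivity
  have hδ1 : δ ≤ δ₁ := (min_le_left _ _).trans (min_le_left _ _)
  have hδ2 : δ ≤ r := (min_le_left _ _).trans (min_le_right _ _)
  have hδ3 : δ * (24 * A * (C + 1)) ≤ r * z₀ := (le_div_iff₀ (by positivity)).1 (min_le_right _ _)
  have hcoef : ∀ i : Fin 3, ∃ α : Z3 → ℂ, (∀ m, ‖α m‖ * wgt h m ≤ δ) ∧
      ∀ x ∈ Str h, HasSum (fun m => α m * ex m x) (a x i - v₀ i) := fun i => by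
    obtain ⟨α, h1, h2, -⟩ := hF h hh (fun x => a x i - v₀ i)
      ((differentiableOn_pi.1 ha i).sub_const _) (fun x hx j => by simp only [hper x hx j]) δ
      fun x hx => (norm_le_pi_norm (a x - v₀) i).trans (hb x hx)
    exact ⟨α, h1, h2⟩
  choose α hα hsum using hcoef
  have hαn : ∀ m, ‖fun i => α i m‖ * wgt h m ≤ δ := fun m => by
    rw [← le_div_iff₀ (wgt_pos h m)]
    exact (pi_norm_le_iff_of_nonneg (div_nonneg hδ0.le (wgt_pos h m).le)).2 fun i =>
      (le_div_iff₀ (wgt_pos h m)).2 (hα i m)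
  have hfree : (fun m => DL m fun i => α i m) = 0 := by
    refine uniq hF (h := k) (by linarith) fun x hx => ?_
    have hx' := str_mono hkh.le hx
    have key : ∀ i, HasSum (fun m => α i m * DL m (ee i) * ex m x) (fderiv ℂ a x (ee i) i) := by
      intro i
      have h1 := ((sm_of_le hkh (hα i)).1.deriv hx).2 (ee i)
      have h2 : fs (α i) =ᶠ[𝓝 x] fun y => a y i - v₀ i :=
        eventually_of_mem ((isOpen_str h).mem_nhds hx') fun y hy => (hsum i y hy).tsum_eq
      have h3 := (hasFDerivAt_pi'.1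
        (ha.differentiableAt ((isOpen_str h).mem_nhds hx')).hasFDerivAt i).sub_const (v₀ i)
      rwa [h2.fderiv_eq, h3.fderiv] at h1
    have h4 := ((key 0).add (key 1)).add (key 2)
    rw [← Fin.sum_univ_three (fun i => fderiv ℂ a x (ee i) i), hdiv x hx'] at h4
    refine h4.congr_fun fun m => ?_
    rw [DL_eq]
    ring
  let b : Z3 → C3 := fun m => if m = 0 then 0 else fun i => α i m
  have hbn : ∀ m, ‖b m‖ * wgt h m ≤ δ := fun m => by
    by_cases hm : m = 0
    · simpa [b, hm] using hδ0.le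
    · simpa only [b, if_neg hm] using hαn m
  have hmode := fun m => mode m (b m) (by
    by_cases hm : m = 0
    · simp [b, hm]
    · simpa only [b, if_neg hm, Pi.zero_apply] using congrFun hfree m) (fun hm => by simp [b, hm])
  choose p g hpg hid using hmode
  let v : C3 := v₀ + fun i => α i 0
  have hv1 : ‖v - v₀‖ ≤ δ := by simpa [v, wgt_zero] using hαn 0
  have hv2 : ‖v‖ ≤ ‖v₀‖ + 1 := by linarith [norm_le_insert' v v₀]
  have hz := hnear v (hv1.trans hδ1)
  have hSb : ∀ (u : C3) (q : Z3 → ℂ), ‖u‖ ≤ ‖v₀‖ + 1 → (∀ m, ‖q m‖ ≤ 3 * ‖u‖ * ‖b m‖) →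
      Sb k q (A * δ * C) := fun u q hu hq => sm_of_le hkh fun m => by
    calc ‖q m‖ * wgt h m ≤ A * ‖b m‖ * wgt h m := by
          refine mul_le_mul_of_nonneg_right ((hq m).trans ?_) (wgt_pos _ _).le
          exact mul_le_mul_of_nonneg_right (by linarith) (norm_nonneg _)
      _ = A * (‖b m‖ * wgt h m) := by ring
      _ ≤ A * δ := mul_le_mul_of_nonneg_left (hbn m) hA0.le
  have hv3 := (norm_cj v).trans hv2
  have s1 := hSb (cj v) (fun m => p m (cj v)) hv3 fun m => (hpg m _).1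
  have s2 := hSb (cj v) (fun m => g m (cj v)) hv3 fun m => (hpg m _).2
  have s3 := hSb v (fun m => p m v) hv2 fun m => (hpg m _).1
  have s4 := hSb v (fun m => g m v) hv2 fun m => (hpg m _).2
  obtain ⟨Ω, hΩ⟩ := core hF (ρ := h / 2) (by linarith) hr0 hr2 (by linarith) s1 s2 s3 s4 v
    (z := form v (cj v) (ee 2)) (norm_pos_iff.1 (by linarith))
    (by nlinarith [mul_pos hA0 hδ0, mul_le_mul_of_nonneg_left hz hr0.le])
  refine ⟨v, Ω, hv1.trans (hδ2.trans hr1), fun x hx => (hΩ x hx).1.differentiableWithinAt,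
    fun x hx => ⟨(hΩ x hx).2.1.trans hr1, ?_⟩⟩
  obtain ⟨h1, h2, h3⟩ := hΩ x hx
  have hy : x + Ω x • ee 2 ∈ Str k := shift_mem hx h2 (by linarith)
  have h4 := (hasSum_Lam s3.1 s4.1 h1 hy (cj v)).sub (hasSum_Lam s1.1 s2.1 h1 hy v)
  set y := x + Ω x • ee 2
  set ξ := cj v + fderiv ℂ Ω x (cj v) • ee 2
  set η := v + fderiv ℂ Ω x v • ee 2
  have h5 : ∀ i, HasSum (fun m => b m i * ex m y) (a y i - v i) := fun i => by
    have h6 := (hsum i y (str_mono hkh.le hy)).sub
      (hasSum_ite_eq (0 : Z3) (α i 0) (L := SummationFilter.unconditional _))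
    rw [sub_sub] at h6
    refine h6.congr_fun fun m => ?_
    by_cases hm : m = 0
    · simp [b, hm, ex_zero]
    · simp [b, hm]
  have h7 : HasSum (fun m => form (b m) ξ η * ex m y) (form (a y) ξ η - form v ξ η) := by
    have h8 := (((h5 0).mul_right (ξ 1 * η 2 - ξ 2 * η 1)).add
      ((h5 1).mul_right (ξ 2 * η 0 - ξ 0 * η 2))).add ((h5 2).mul_right (ξ 0 * η 1 - ξ 1 * η 0))
    have e : form (a y) ξ η - form v ξ η = (a y 0 - v 0) * (ξ 1 * η 2 - ξ 2 * η 1) +
        (a y 1 - v 1) * (ξ 2 * η 0 - ξ 0 * η 2) + (a y 2 - v 2) * (ξ 0 * η 1 - ξ 1 * η 0) := by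
      simp only [form]
      ring
    rw [e]
    refine h8.congr_fun fun m => ?_
    simp only [form]
    ring
  have h9 := h7.unique (h4.congr_fun fun m => by
    rw [hid m (cj v) v _ _ (Ω x), sub_mul])
  rw [form_self] at h9
  linear_combination h9 + h3

end Vale.Agent.P290Z
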