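import Vale.Agent.P290Z.Spec1
import Vale.Agent.P290Z.PL.C

/-! P290Z: the planar lemma -/

namespace Vale.Agent.P290Z
open MeasureTheory

theorem PL.rs_of (h : StRunge) : PL.RS := by
  intro K hK hc φ hφ hd ε hε
  refine h K hK (fun a ha => ?_) φ hφ ?_ ε hε
  · obtain ⟨S, h1, h2, h3, h4⟩ := hc a ha
    exact ⟨S, h1, h3, h4, h2⟩
  · refine measure_mono_null (fun z hz => ?_) (ae_iff.1 hd)
    intro hz'
    refine hz.2 ?_
    have e := (hz' hz.1).hasFDerivAt.restrictScalars ℝ
    have e2 := (fderiv ℂ φ z).map_smul Complex.I 1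
    rw [smul_eq_mul, mul_one] at e2
    rw [P030.H580.dbar, e.fderiv]
    simp only [ContinuousLinearMap.coe_restrictScalars', e2, smul_eq_mul, ← mul_assoc,
      Complex.I_mul_I]
    ring

theorem pl (h : StRunge) : StPL := fun _ hP hc h0 M _ _ hη hε =>
  PL.main (PL.rs_of h) hP hc h0 M hη hε

end Vale.Agent.P290Z
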