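import Vale.Agent.P290Z.Spec2
import Vale.Agent.P290Z.Per0.Hol

/-! P290Z, PER0: the solution operator of the additive periodic Cousin problem. -/

open Set Filter Metric MeasureTheory Complex
open scoped Topology Real

noncomputable section

namespace Vale.Agent.P290Z

namespace Per0

open Vale.Agent.P030.H580 Vale.Agent.P290

theorem isOpen_Rect (a b h : ℝ) : IsOpen (Rect a b h) :=
  (isOpen_lt continuous_const continuous_re).inter ((isOpen_lt continuous_re continuous_const).inter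
    (isOpen_lt continuous_im.abs continuous_const))

theorem norm_le_of_Rect {a b h R : ℝ} (ha : -R ≤ a) (hb : b ≤ R) {z : ℂ} (hz : z ∈ Rect a b h) :
    ‖z‖ ≤ R + h :=
  (norm_le_abs_re_add_abs_im z).trans
    (add_le_add (abs_le.2 ⟨by linarith [hz.1], by linarith [hz.2.1]⟩) hz.2.2.le)

/-- the cut-off function -/
def be (δ : ℝ) (z : ℂ) : ℂ := (Real.smoothTransition ((z.re + δ / 2) / δ) : ℝ)

variable {δ h : ℝ}

theorem be_smooth (δ : ℝ) : ContDiff ℝ 1 (be δ) :=
  ofRealCLM.contDiff.comp (Real.smoothTransition.contDiff.comp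
    ((reCLM.contDiff.add contDiff_const).div_const _))

theorem be_zero (hδ : 0 < δ) {z : ℂ} (h : z.re ≤ -δ / 2) : be δ z = 0 := by
  rw [be, Real.smoothTransition.zero_of_nonpos (div_nonpos_of_nonpos_of_nonneg (by linarith) hδ.le),
    ofReal_zero]

theorem be_one (hδ : 0 < δ) {z : ℂ} (h : δ / 2 ≤ z.re) : be δ z = 1 := by
  rw [be, Real.smoothTransition.one_of_one_le ((one_le_div hδ).2 (by linarith)), ofReal_one]

theorem norm_be (δ : ℝ) (z : ℂ) : ‖be δ z‖ ≤ 1 := by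
  rw [be, norm_real, Real.norm_of_nonneg (Real.smoothTransition.nonneg _)]
  exact Real.smoothTransition.le_one _

theorem norm_one_sub_be (δ : ℝ) (z : ℂ) : ‖1 - be δ z‖ ≤ 1 := by
  rw [be, ← ofReal_one, ← ofReal_sub, norm_real,
    Real.norm_of_nonneg (sub_nonneg.2 (Real.smoothTransition.le_one _))]
  linarith [Real.smoothTransition.nonneg ((z.re + δ / 2) / δ)]

/-- the integral operator with weight `l` -/
def uu (δ h : ℝ) (l : ℂ → ℂ) (g : ℂ → C2) (z : ℂ) : C2 :=
  ∫ w in Rect (-δ) δ h, (KK (w - z) * l w) • g w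

/-- the solution operator -/
def TT (δ h : ℝ) (g : ℂ → C2) (z : ℂ) : C2 :=
  (1 - be δ z) • g z - be δ (z - 1) • g (z - 1) - uu δ h (fun w => (π : ℂ)⁻¹ * dbar (be δ) w) g z

theorem uu_add_one (l : ℂ → ℂ) (g : ℂ → C2) (z : ℂ) : uu δ h l g (z + 1) = uu δ h l g z := by
  refine integral_congr_ae (Eventually.of_forall fun w => ?_)
  have h1 := KK_add_int (w - (z + 1)) 1
  rw [Int.cast_one, show w - (z + 1) + 1 = w - z by ring] at h1
  simp only [h1]

theorem TT_sub (hδ : 0 < δ) (hδ' : δ < 1 / 2) (g : ℂ → C2) {z : ℂ} (hz : z ∈ Rect (-δ) δ h) :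
    TT δ h g z - TT δ h g (z + 1) = g z := by
  rw [TT, TT, uu_add_one, be_zero hδ (z := z - 1) (by rw [sub_re, one_re]; linarith [hz.2.1]),
    be_one hδ (z := z + 1) (by rw [add_re, one_re]; linarith [hz.1]), add_sub_cancel_right]
  module

theorem KK_shift (hδ' : δ < 1 / 2) {z : ℂ} (hz : z ∈ Rect (-δ) (1 + δ) h) :
    IntegrableOn (fun w => KK (w - z)) (Rect (-δ) δ h) ∧
      ∫ w in Rect (-δ) δ h, ‖KK (w - z)‖ ≤ ∫ ζ in closedBall (0 : ℂ) (2 + 2 * h), ‖KK ζ‖ := by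
  have h0 := KK_locallyIntegrable.integrableOn_isCompact (isCompact_closedBall 0 (2 + 2 * h))
  have hp := measurePreserving_sub_right volume z
  have he : MeasurableEmbedding fun w : ℂ => w - z := (Homeomorph.subRight z).measurableEmbedding
  have h1 := (hp.integrableOn_comp_preimage he).2 h0
  have hs : Rect (-δ) δ h ⊆ (fun w : ℂ => w - z) ⁻¹' closedBall 0 (2 + 2 * h) := fun w hw => by
    have h2 := norm_le_of_Rect (R := 1 / 2) (by linarith) (by linarith) hw
    have h3 := norm_le_of_Rect (R := 3 / 2) (by linarith) (by linarith) hz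
    rw [mem_preimage, mem_closedBall_zero_iff]
    linarith [norm_sub_le w z]
  refine ⟨h1.mono_set hs, ?_⟩
  rw [← hp.setIntegral_preimage_emb he (fun ζ => ‖KK ζ‖) (closedBall 0 (2 + 2 * h))]
  exact setIntegral_mono_set h1.norm (Eventually.of_forall fun w => norm_nonneg _) hs.eventuallyLE

theorem exists_bound {l : ℂ → ℂ} (hl : Continuous l) (δ h : ℝ) :
    ∃ L, 0 ≤ L ∧ ∀ w ∈ Rect (-δ) δ h, ‖l w‖ ≤ L := by
  obtain ⟨L, hL⟩ := (isCompact_closedBall (0 : ℂ) (δ + h)).exists_bound_of_continuousOn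
    hl.continuousOn
  exact ⟨max L 0, le_max_right _ _, fun w hw => (hL w (mem_closedBall_zero_iff.2
    (norm_le_of_Rect le_rfl le_rfl hw))).trans (le_max_left _ _)⟩

theorem meas_uu {l : ℂ → ℂ} (hl : Continuous l) {g : ℂ → C2} (hg : ContinuousOn g (Rect (-δ) δ h))
    (z : ℂ) : AEStronglyMeasurable (fun w => (KK (w - z) * l w) • g w)
      (volume.restrict (Rect (-δ) δ h)) :=
  ((measurable_KK.comp (measurable_id.sub_const z)).mul hl.measurable).aestronglyMeasurable.smul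
    (hg.aestronglyMeasurable (isOpen_Rect _ _ _).measurableSet)

theorem uu_bound (hδ' : δ < 1 / 2) {l : ℂ → ℂ} (hl : Continuous l) {L : ℝ} (hL0 : 0 ≤ L)
    (hL : ∀ w ∈ Rect (-δ) δ h, ‖l w‖ ≤ L) {g : ℂ → C2} (hg : ContinuousOn g (Rect (-δ) δ h))
    {M : ℝ} (hM0 : 0 ≤ M) (hM : ∀ w ∈ Rect (-δ) δ h, ‖g w‖ ≤ M) {z : ℂ}
    (hz : z ∈ Rect (-δ) (1 + δ) h) :
    IntegrableOn (fun w => (KK (w - z) * l w) • g w) (Rect (-δ) δ h) ∧
      ‖uu δ h l g z‖ ≤ (∫ ζ in closedBall (0 : ℂ) (2 + 2 * h), ‖KK ζ‖) * L * M := by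
  obtain ⟨h1, h2⟩ := KK_shift hδ' hz
  have h3 : ∀ᵐ w ∂volume.restrict (Rect (-δ) δ h),
      ‖(KK (w - z) * l w) • g w‖ ≤ ‖KK (w - z)‖ * (L * M) :=
    (ae_restrict_iff' (isOpen_Rect _ _ _).measurableSet).2 (Eventually.of_forall fun w hw => by
      rw [norm_smul, norm_mul, mul_assoc]
      exact mul_le_mul_of_nonneg_left (mul_le_mul (hL w hw) (hM w hw) (norm_nonneg _) hL0)
        (norm_nonneg _))
  have h4 := h1.norm.mul_const (L * M)
  refine ⟨h4.mono' (meas_uu hl hg z) h3, (norm_integral_le_of_norm_le h4 h3).trans ?_⟩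
  rw [integral_mul_const, mul_assoc]
  exact mul_le_mul_of_nonneg_right h2 (mul_nonneg hL0 hM0)

theorem cont_si (δ : ℝ) : Continuous fun w => (π : ℂ)⁻¹ * dbar (be δ) w :=
  continuous_const.mul (continuous_dbar (be_smooth δ))

theorem TT_bound (hδ : 0 < δ) (hδ' : δ < 1 / 2) {L : ℝ} (hL0 : 0 ≤ L)
    (hL : ∀ w ∈ Rect (-δ) δ h, ‖(π : ℂ)⁻¹ * dbar (be δ) w‖ ≤ L) {g : ℂ → C2}
    (hg : ContinuousOn g (Rect (-δ) δ h)) {M : ℝ} (hM : ∀ w ∈ Rect (-δ) δ h, ‖g w‖ ≤ M) {z : ℂ}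
    (hz : z ∈ Rect (-δ) (1 + δ) h) :
    ‖TT δ h g z‖ ≤ (2 + (∫ ζ in closedBall (0 : ℂ) (2 + 2 * h), ‖KK ζ‖) * L) * M := by
  have hM0 : 0 ≤ M := (norm_nonneg _).trans (hM 0 ⟨by simpa using hδ, by simpa using hδ,
    by simpa using (abs_nonneg _).trans_lt hz.2.2⟩)
  have h1 : ‖(1 - be δ z) • g z‖ ≤ M := by
    by_cases hr : δ / 2 ≤ z.re
    · rw [be_one hδ hr, sub_self, zero_smul, norm_zero]
      exact hM0
    · rw [norm_smul, ← one_mul M]
      exact mul_le_mul (norm_one_sub_be δ z) (hM z ⟨hz.1, by linarith, hz.2.2⟩) (norm_nonneg _)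
        zero_le_one
  have h2 : ‖be δ (z - 1) • g (z - 1)‖ ≤ M := by
    by_cases hr : (z - 1).re ≤ -δ / 2
    · rw [be_zero hδ hr, zero_smul, norm_zero]
      exact hM0
    · rw [norm_smul, ← one_mul M]
      refine mul_le_mul (norm_be δ _) (hM _ ⟨by linarith, ?_, by simpa using hz.2.2⟩)
        (norm_nonneg _) zero_le_one
      rw [sub_re, one_re]
      linarith [hz.2.1]
  have h3 := (uu_bound hδ' (cont_si δ) hL0 hL hg hM0 hM hz).2
  have h4 := norm_sub_le ((1 - be δ z) • g z - be δ (z - 1) • g (z - 1))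
    (uu δ h (fun w => (π : ℂ)⁻¹ * dbar (be δ) w) g z)
  have h5 := norm_sub_le ((1 - be δ z) • g z) (be δ (z - 1) • g (z - 1))
  rw [TT]
  linarith

/-- near each point the operator is an integral operator with a kernel without singularities -/
theorem local_rep (hδ : 0 < δ) (hδ' : δ < 1 / 2) {z₀ : ℂ} (hz₀ : z₀ ∈ Rect (-δ) (1 - δ / 2) h) :
    ∃ r > (0 : ℝ), ∃ l : ℂ → ℂ, Continuous l ∧
      (∀ w ∈ tsupport l, |w.re| ≤ δ → ∀ z ∈ closedBall z₀ r, e0 (w - z) ≠ 0) ∧
      ∀ g : ℂ → C2, DifferentiableOn ℂ g (Rect (-δ) δ h) → ∀ M : ℝ,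
        (∀ w ∈ Rect (-δ) δ h, ‖g w‖ ≤ M) → ∀ z ∈ ball z₀ r, TT δ h g z = uu δ h l g z := by
  obtain ⟨ε, hε, hs⟩ := Metric.isOpen_iff.1 (isOpen_Rect _ _ _) z₀ hz₀
  obtain ⟨r, hr, hrε, hr1⟩ : ∃ r > (0 : ℝ), 3 * r < ε ∧ 4 * r < 1 :=
    ⟨min ε 1 / 5, by positivity, by linarith [min_le_left ε 1], by linarith [min_le_right ε 1]⟩
  have hs' : closedBall z₀ (3 * r) ⊆ Rect (-δ) (1 - δ / 2) h := (closedBall_subset_ball hrε).trans hs
  let ψ : ContDiffBump z₀ := ⟨2 * r, 3 * r, by positivity, by linarith⟩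
  let θ : ℂ → ℂ := fun w => (ψ w : ℂ) * (1 - be δ w)
  have hθ : ContDiff ℝ 1 θ :=
    (ofRealCLM.contDiff.comp ψ.contDiff).mul (contDiff_const.sub (be_smooth δ))
  have hts : tsupport θ ⊆ closedBall z₀ (3 * r) ∩ {w | w.re ≤ δ / 2} := by
    refine closure_minimal (fun w hw => ⟨?_, ?_⟩)
      (isClosed_closedBall.inter (isClosed_le continuous_re continuous_const))
    · by_contra h1
      exact hw (by
        simp only [θ, ψ.zero_of_le_dist (le_of_lt (not_le.1 h1)), ofReal_zero, zero_mul])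
    · by_contra h1
      exact hw (by simp only [θ, be_one hδ (le_of_lt (not_le.1 h1)), sub_self, mul_zero])
  have htR : tsupport θ ⊆ Rect (-δ) δ h := fun w hw =>
    ⟨(hs' (hts hw).1).1, lt_of_le_of_lt (hts hw).2 (by linarith), (hs' (hts hw).1).2.2⟩
  have hθ1 : ∀ w ∈ ball z₀ (2 * r), θ =ᶠ[𝓝 w] fun w => 1 - be δ w := fun w hw => by
    filter_upwards [isOpen_ball.mem_nhds hw] with x hx
    simp only [θ, ψ.one_of_mem_closedBall (ball_subset_closedBall hx), ofReal_one, one_mul]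
  have hd0 : ∀ w ∉ tsupport θ, dbar θ =ᶠ[𝓝 w] 0 := fun w hw =>
    dbar_of_const (notMem_tsupport_iff_eventuallyEq.1 hw)
  have hc1 : Continuous fun w => -(π : ℂ)⁻¹ * dbar θ w := continuous_const.mul (continuous_dbar hθ)
  refine ⟨r, hr, fun w => -(π : ℂ)⁻¹ * dbar θ w - (π : ℂ)⁻¹ * dbar (be δ) w, hc1.sub (cont_si δ),
    fun w hw hw' z hz h0 => ?_, fun g hg M hM z hz => ?_⟩
  · obtain ⟨n, hn⟩ := e0_zero h0
    have hz' := hs' (closedBall_subset_closedBall (by linarith) hz)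
    have h1 := congrArg re hn
    rw [sub_re, intCast_re] at h1
    rw [abs_le] at hw'
    have h2 : (-2 : ℝ) < n := by linarith [hz'.2.1]
    have h3 : (n : ℝ) < 1 := by linarith [hz'.1]
    have h4 : -2 < n := by exact_mod_cast h2
    have h5 : n < 1 := by exact_mod_cast h3
    refine notMem_tsupport_iff_eventuallyEq.2 ?_ hw
    obtain rfl | rfl : n = 0 ∨ n = -1 := by omega
    · obtain rfl : w = z := sub_eq_zero.1 (by simpa using hn)
      filter_upwards [dbar_congr (hθ1 w (closedBall_subset_ball (by linarith) hz))] with x hx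
      rw [hx, dbar_one_sub, Pi.zero_apply]
      ring
    · have h6 : w ∉ tsupport θ := fun h6 => by
        have h7 : ‖w - z‖ = 1 := by rw [hn]; simp
        have h8 := dist_triangle_right w z z₀
        rw [dist_eq_norm, h7] at h8
        linarith [mem_closedBall.1 (hts h6).1, mem_closedBall.1 hz]
      have h7 : be δ =ᶠ[𝓝 w] fun _ => 0 := by
        have h8 : w.re < -δ / 2 := by
          push_cast at h1
          linarith [hz'.2.1]
        filter_upwards [(isOpen_lt continuous_re continuous_const).mem_nhds h8] with x hx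
        exact be_zero hδ (le_of_lt hx)
      filter_upwards [hd0 w h6, dbar_of_const h7] with x hx hx'
      rw [hx, hx', Pi.zero_apply]
      ring
  · have hz' := hs' (closedBall_subset_closedBall (by linarith) (ball_subset_closedBall hz))
    have hz1 : z ∈ Rect (-δ) (1 + δ) h := ⟨hz'.1, by linarith [hz'.2.1], hz'.2.2⟩
    have hM0 : 0 ≤ M := (norm_nonneg _).trans (hM 0 ⟨by simpa using hδ, by simpa using hδ,
      by simpa using (abs_nonneg _).trans_lt hz'.2.2⟩)
    have h1 := pompeiu_smul hθ (HasCompactSupport.intro (isCompact_closedBall z₀ (3 * r))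
      fun w hw => image_eq_zero_of_notMem_tsupport fun h => hw (hts h).1)
      (G := fun w => ka (w - z) • g w) ((isOpen_Rect (-δ) δ h).inter (isOpen_ball (x := z) (ε := 1)))
      (fun w hw => ⟨htR hw, by
        have h8 := dist_triangle_right w z z₀
        rw [mem_ball]
        linarith [mem_closedBall.1 (hts hw).1, mem_ball.1 hz]⟩)
      ((ka_diff.comp (f := fun w => w - z) (by fun_prop) fun w hw => by
        simpa [dist_eq_norm] using hw.2).smul (hg.mono inter_subset_left)) z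
    rw [(hθ1 z (ball_subset_ball (by linarith) hz)).eq_of_nhds, sub_self, ka_zero, one_smul,
      ← setIntegral_eq_integral_of_forall_compl_eq_zero (s := Rect (-δ) δ h) fun w hw => by
        rw [(hd0 w fun h => hw (htR h)).eq_of_nhds, Pi.zero_apply, zero_smul, smul_zero,
          smul_zero]] at h1
    obtain ⟨L1, hL1, hL1'⟩ := exists_bound hc1 δ h
    obtain ⟨L2, hL2, hL2'⟩ := exists_bound (cont_si δ) δ h
    have h2 := (uu_bound hδ' hc1 hL1 hL1' hg.continuousOn hM0 hM hz1).1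
    have h3 := (uu_bound hδ' (cont_si δ) hL2 hL2' hg.continuousOn hM0 hM hz1).1
    have h4 : (1 - be δ z) • g z = uu δ h (fun w => -(π : ℂ)⁻¹ * dbar θ w) g z := by
      rw [h1]
      refine integral_congr_ae (Eventually.of_forall fun w => ?_)
      simp only [smul_smul, KK_eq]
      congr 1
      ring
    rw [TT, be_zero hδ (z := z - 1) (by rw [sub_re, one_re]; linarith [hz'.2.1]), zero_smul,
      sub_zero, h4, uu, uu, uu, ← integral_sub h2 h3]
    simp only [mul_sub, sub_smul]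

variable {W : Type} [NormedAddCommGroup W] [NormedSpace ℂ W] {O : Set W} {g : ℂ × W → C2} {M : ℝ}

theorem slice (hg : DifferentiableOn ℂ g (Rect (-δ) δ h ×ˢ O)) {p : W} (hp : p ∈ O) :
    DifferentiableOn ℂ (fun z => g (z, p)) (Rect (-δ) δ h) :=
  hg.comp (f := fun z => (z, p)) (by fun_prop) fun _ hz => ⟨hz, hp⟩

theorem TT_hol_left (hδ : 0 < δ) (hδ' : δ < 1 / 2) (hO : IsOpen O)
    (hg : DifferentiableOn ℂ g (Rect (-δ) δ h ×ˢ O)) (hM : ∀ y ∈ Rect (-δ) δ h ×ˢ O, ‖g y‖ ≤ M)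
    {y₀ : ℂ × W} (hz₀ : y₀.1 ∈ Rect (-δ) (1 - δ / 2) h) (hp₀ : y₀.2 ∈ O) :
    DifferentiableAt ℂ (fun y : ℂ × W => TT δ h (fun z => g (z, y.2)) y.1) y₀ := by
  obtain ⟨r, hr, l, hl, h1, h2⟩ := local_rep hδ hδ' hz₀
  have hU : IsOpen (ball y₀.1 r ×ˢ O) := isOpen_ball.prod hO
  have hy : ball y₀.1 r ×ˢ O ∈ 𝓝 y₀ := hU.mem_nhds ⟨mem_ball_self hr, hp₀⟩
  have hA : IsCompact ((tsupport l ∩ (closedBall 0 (δ + h) ∩ {w : ℂ | |w.re| ≤ δ})) ×ˢ
      closedBall y₀.1 r) := (((isCompact_closedBall _ _).inter_right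
    (isClosed_le continuous_re.abs continuous_const)).inter_left (isClosed_tsupport l)).prod
      (isCompact_closedBall _ _)
  obtain ⟨B, hB⟩ := hA.exists_bound_of_continuousOn (f := fun x => KK (x.1 - x.2) * l x.1)
    fun x hx => (((KK_diff (h1 _ hx.1.1 hx.1.2.2 _ hx.2)).continuousAt.comp
      (f := fun x : ℂ × ℂ => x.1 - x.2) (by fun_prop)).mul (by fun_prop)).continuousWithinAt
  have hre : ∀ w ∈ Rect (-δ) δ h, |w.re| ≤ δ := fun w hw => abs_le.2 ⟨hw.1.le, hw.2.1.le⟩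
  have hm := (isOpen_Rect (-δ) δ h).measurableSet
  have : IsFiniteMeasure (volume.restrict (Rect (-δ) δ h)) := isFiniteMeasure_restrict.2
    ((measure_mono fun w hw => mem_closedBall_zero_iff.2 (norm_le_of_Rect le_rfl le_rfl hw)).trans_lt
      (isCompact_closedBall (0 : ℂ) (δ + h)).measure_lt_top).ne
  have h3 := differentiableOn_integral (μ := volume.restrict (Rect (-δ) δ h)) hU
    (F := fun y w => (KK (w - y.1) * l w) • g (w, y.2)) (bound := fun _ => max B 0 * M)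
    (fun y hy => meas_uu hl (slice hg hy.2).continuousOn y.1)
    ((ae_restrict_iff' hm).2 (Eventually.of_forall fun w hw y hy => ?_))
    ((ae_restrict_iff' hm).2 (Eventually.of_forall fun w hw y hy => ?_)) (integrable_const _)
  · refine (h3.differentiableAt hy).congr_of_eventuallyEq ?_
    filter_upwards [hy] with y hy
    exact h2 _ (slice hg hy.2) M (fun w hw => hM _ ⟨hw, hy.2⟩) _ hy.1
  · by_cases hw' : w ∈ tsupport l
    · refine DifferentiableAt.differentiableWithinAt (DifferentiableAt.smul (DifferentiableAt.mul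
        ((KK_diff (h1 _ hw' (hre w hw) _ (ball_subset_closedBall hy.1))).comp
          (f := fun y : ℂ × W => w - y.1) y (by fun_prop)) (differentiableAt_const _)) ?_)
      have h4 : DifferentiableAt ℂ g (w, y.2) :=
        hg.differentiableAt (((isOpen_Rect _ _ _).prod hO).mem_nhds ⟨hw, hy.2⟩)
      exact h4.comp (f := fun y : ℂ × W => (w, y.2)) y (by fun_prop)
    · simp only [image_eq_zero_of_notMem_tsupport hw', mul_zero, zero_smul]
      exact differentiableWithinAt_const _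
  · rw [norm_smul]
    refine mul_le_mul ?_ (hM _ ⟨hw, hy.2⟩) (norm_nonneg _) (le_max_right _ _)
    by_cases hw' : w ∈ tsupport l
    · exact (hB (w, y.1) ⟨⟨hw', mem_closedBall_zero_iff.2 (norm_le_of_Rect le_rfl le_rfl hw),
        hre w hw⟩, ball_subset_closedBall hy.1⟩).trans (le_max_left _ _)
    · rw [image_eq_zero_of_notMem_tsupport hw', mul_zero, norm_zero]
      exact le_max_right _ _

theorem TT_hol (hδ : 0 < δ) (hδ' : δ < 1 / 2) (hO : IsOpen O)
    (hg : DifferentiableOn ℂ g (Rect (-δ) δ h ×ˢ O)) (hM : ∀ y ∈ Rect (-δ) δ h ×ˢ O, ‖g y‖ ≤ M) :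
    DifferentiableOn ℂ (fun y : ℂ × W => TT δ h (fun z => g (z, y.2)) y.1)
      (Rect (-δ) (1 + δ) h ×ˢ O) := by
  intro y₀ hy₀
  refine DifferentiableAt.differentiableWithinAt ?_
  by_cases hr : y₀.1.re < 1 - δ / 2
  · exact TT_hol_left hδ hδ' hO hg hM ⟨hy₀.1.1, hr, hy₀.1.2.2⟩ hy₀.2
  · have h1 : y₀.1 - 1 ∈ Rect (-δ) δ h := by
      refine ⟨?_, ?_, by simpa using hy₀.1.2.2⟩ <;> rw [sub_re, one_re] <;> linarith [hy₀.1.2.1]
    have hc : Differentiable ℂ fun y : ℂ × W => (y.1 - 1, y.2) := by fun_prop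
    have hN := ((isOpen_Rect _ _ _).prod hO).mem_nhds (x := (y₀.1 - 1, y₀.2)) ⟨h1, hy₀.2⟩
    have h2 := (TT_hol_left hδ hδ' hO hg hM (y₀ := (y₀.1 - 1, y₀.2))
      ⟨h1.1, by linarith [h1.2.1], h1.2.2⟩ hy₀.2).comp y₀ (hc y₀)
    have h3 := (hg.differentiableAt hN).comp y₀ (hc y₀)
    refine (h2.sub h3).congr_of_eventuallyEq ?_
    filter_upwards [hc.continuous.continuousAt.preimage_mem_nhds hN] with y hy
    have h4 := TT_sub hδ hδ' (fun z => g (z, y.2)) hy.1
    rw [sub_add_cancel] at h4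
    exact (sub_sub_cancel _ _).symm.trans (congrArg _ h4)

end Per0

open Per0

theorem per0 : StPer0 := by
  intro δ h hδ hδ' hh
  obtain ⟨L, hL0, hL⟩ := exists_bound (cont_si δ) δ h
  have hc : 0 ≤ ∫ ζ in closedBall (0 : ℂ) (2 + 2 * h), ‖KK ζ‖ :=
    integral_nonneg fun _ => norm_nonneg _
  refine ⟨2 + (∫ ζ in closedBall (0 : ℂ) (2 + 2 * h), ‖KK ζ‖) * L, TT δ h, by positivity,
    fun g g' hg hg' M hM D hD z hz => ?_, fun g hg M hM => ⟨fun z hz =>
      TT_bound hδ hδ' hL0 hL hg.continuousOn hM hz, fun z hz => TT_sub hδ hδ' g hz⟩,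
    fun W _ _ _ O g hO hg M hM => TT_hol hδ hδ' hO hg hM⟩
  have h0 : (0 : ℂ) ∈ Rect (-δ) δ h := ⟨by simpa using hδ, by simpa using hδ, by simpa using hh⟩
  have hM0 : 0 ≤ M := (norm_nonneg _).trans (hM 0 h0)
  have hD0 : 0 ≤ D := (norm_nonneg _).trans (hD 0 h0)
  have h1 := (uu_bound hδ' (cont_si δ) hL0 hL hg.continuousOn hM0 hM hz).1
  have h2 := (uu_bound hδ' (cont_si δ) hL0 hL hg'.continuousOn (add_nonneg hM0 hD0)
    (fun w hw => by
      have h3 := norm_sub_le (g w) (g w - g' w)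
      rw [sub_sub_cancel] at h3
      linarith [hM w hw, hD w hw]) hz).1
  have h3 := TT_bound hδ hδ' hL0 hL (hg.sub hg').continuousOn hD hz
  convert h3 using 2
  simp only [TT, uu, Pi.sub_apply, smul_sub]
  rw [integral_sub h1 h2]
  abel

end Vale.Agent.P290Z
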