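import Vale.Agent.P290Z.Spec2

/-! P290Z: the nonlinear periodicity equation in one variable, with parameters. -/

open Set Filter Metric
open scoped Topology

namespace Vale.Agent.P290Z

open Vale.Agent.P290

namespace Per1x

theorem isOpen_rect (a b h : ℝ) : IsOpen (Rect a b h) :=
  (isOpen_lt continuous_const Complex.continuous_re).inter
    ((isOpen_lt Complex.continuous_re continuous_const).inter
      (isOpen_lt Complex.continuous_im.abs continuous_const))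

theorem shift {δ h : ℝ} (h2 : δ < 1 / 2) {z : ℂ} (hz : z ∈ Rect (-δ) δ h) :
    z + 1 ∈ Rect (-δ) (1 + δ) h := by
  obtain ⟨a, b, c⟩ := hz
  refine ⟨?_, ?_, ?_⟩ <;> simp only [Complex.add_re, Complex.one_re, Complex.add_im,
    Complex.one_im, add_zero] <;> linarith

theorem incl {δ h : ℝ} {z : ℂ} (hz : z ∈ Rect (-δ) δ h) : z ∈ Rect (-δ) (1 + δ) h :=
  ⟨hz.1, by linarith [hz.2.1], hz.2.2⟩

variable {W : Type}

/-- the right hand side -/
noncomputable def rhs (E α : ℂ × W × C2 → C2) (y : ℂ × W × C2) : C2 :=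
  E (y.1, y.2.1, y.2.2 + α (y.1 + 1, y.2))

/-- the Picard operator -/
noncomputable def op (T : (ℂ → C2) → ℂ → C2) (E α : ℂ × W × C2 → C2) (y : ℂ × W × C2) : C2 :=
  T (fun z => rhs E α (z, y.2)) y.1

theorem lip {r η : ℝ} (hr : 0 < r) {f : C2 → C2} (hf : DifferentiableOn ℂ f (ball 0 r))
    (hb : ∀ u ∈ ball (0 : C2) r, ‖f u‖ ≤ η) {s a a' : C2} (hs : s ∈ ball (0 : C2) (r / 2))
    (ha : ‖a‖ ≤ r / 16) (ha' : ‖a'‖ ≤ r / 16) :
    ‖f (s + a) - f (s + a')‖ ≤ 8 * η / r * ‖a - a'‖ := by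
  rw [mem_ball_zero_iff] at hs
  have h1 : ball (s + a') (r / 4) ⊆ ball 0 r := ball_subset_ball' (by
    rw [dist_zero_right]
    linarith [norm_add_le s a'])
  have h2 := Complex.dist_le_div_mul_dist_of_mapsTo_ball (R₂ := 2 * η) (hf.mono h1)
    (fun u hu => by
      rw [mem_closedBall_iff_norm]
      linarith [norm_sub_le (f u) (f (s + a')), hb u (h1 hu),
        hb _ (h1 (mem_ball_self (by positivity)))])
    (z := s + a) (by
      rw [mem_ball, dist_add_left, dist_eq_norm]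
      linarith [norm_sub_le a a'])
  rw [dist_add_left, dist_eq_norm, dist_eq_norm] at h2
  refine h2.trans_eq ?_
  field_simp
  ring

end Per1x

open Per1x

theorem per1 : StPer0 → StPer1 := by
  intro h0 δ h r ε hδ hδ2 hh hr hε
  obtain ⟨C, T, hC, T1, T2, T3⟩ := h0 δ h hδ hδ2 hh
  obtain ⟨η, hη, hηε, hηr⟩ : ∃ η > (0 : ℝ), C * η ≤ ε ∧ C * η ≤ r / 16 :=
    ⟨min ε (r / 16) / C, by positivity, by rw [mul_div_cancel₀ _ hC.ne']; exact min_le_left _ _,
      by rw [mul_div_cancel₀ _ hC.ne']; exact min_le_right _ _⟩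
  refine ⟨η, hη, fun W _ _ _ O E hO hE hb => ?_⟩
  set B : Set (W × C2) := O ×ˢ ball (0 : C2) (r / 2) with hB
  set U : Set (ℂ × W × C2) := Rect (-δ) (1 + δ) h ×ˢ B with hU
  have hBo : IsOpen B := hO.prod isOpen_ball
  let Good : (ℂ × W × C2 → C2) → Prop := fun α =>
    DifferentiableOn ℂ α U ∧ ∀ y ∈ U, ‖α y‖ ≤ C * η
  have hm : ∀ α, Good α → ∀ y ∈ Rect (-δ) δ h ×ˢ B, (y.1, y.2.1, y.2.2 + α (y.1 + 1, y.2)) ∈
      Rect (-δ) δ h ×ˢ O ×ˢ ball (0 : C2) r := fun α hα y hy => ⟨hy.1, hy.2.1, by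
    have h1 := hα.2 (y.1 + 1, y.2) ⟨shift hδ2 hy.1, hy.2⟩
    have h2 := mem_ball_zero_iff.1 hy.2.2
    rw [mem_ball_zero_iff]
    linarith [norm_add_le y.2.2 (α (y.1 + 1, y.2))]⟩
  have g1 : ∀ α, Good α → DifferentiableOn ℂ (rhs E α) (Rect (-δ) δ h ×ˢ B) := fun α hα => by
    have h1 : DifferentiableOn ℂ (fun y : ℂ × W × C2 => α (y.1 + 1, y.2)) (Rect (-δ) δ h ×ˢ B) :=
      hα.1.comp (by fun_prop) fun y hy => ⟨shift hδ2 hy.1, hy.2⟩
    exact hE.comp (f := fun y : ℂ × W × C2 => (y.1, y.2.1, y.2.2 + α (y.1 + 1, y.2)))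
      (differentiableOn_fst.prodMk (differentiable_snd.fst.differentiableOn.prodMk
        (differentiable_snd.snd.differentiableOn.add h1))) (hm α hα)
  have g2 : ∀ α, Good α → ∀ y ∈ Rect (-δ) δ h ×ˢ B, ‖rhs E α y‖ ≤ η := fun α hα y hy =>
    hb _ (hm α hα y hy)
  have g3 : ∀ α, Good α → ∀ p ∈ B, DifferentiableOn ℂ (fun z => rhs E α (z, p)) (Rect (-δ) δ h) :=
    fun α hα p hp => (g1 α hα).comp (by fun_prop) fun z hz => ⟨hz, hp⟩
  have g4 : ∀ α, Good α → Good (op T E α) := fun α hα =>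
    ⟨T3 _ B _ hBo (g1 α hα) η (g2 α hα),
      fun y hy => (T2 _ (g3 α hα _ hy.2) η fun z hz => g2 α hα _ ⟨hz, hy.2⟩).1 _ hy.1⟩
  have g5 : ∀ α α', Good α → Good α' → ∀ D, (∀ y ∈ U, ‖α y - α' y‖ ≤ D) →
      ∀ y ∈ U, ‖op T E α y - op T E α' y‖ ≤ D / 2 := fun α α' hα hα' D hD y hy => by
    have hD0 : 0 ≤ D := (norm_nonneg _).trans (hD y hy)
    refine (T1 _ _ (g3 α hα _ hy.2) (g3 α' hα' _ hy.2) η (fun z hz => g2 α hα _ ⟨hz, hy.2⟩)
      (8 * η / r * D) (fun z hz => ?_) _ hy.1).trans ?_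
    · have hz' : (z + 1, y.2) ∈ U := ⟨shift hδ2 hz, hy.2⟩
      refine (lip hr (f := fun u => E (z, y.2.1, u))
        (hE.comp (by fun_prop) fun u hu => ⟨hz, hy.2.1, hu⟩) (fun u hu => hb _ ⟨hz, hy.2.1, hu⟩)
        hy.2.2 ((hα.2 _ hz').trans hηr) ((hα'.2 _ hz').trans hηr)).trans ?_
      exact mul_le_mul_of_nonneg_left (hD _ hz') (by positivity)
    · calc _ = C * η * (8 / r * D) := by ring
        _ ≤ r / 16 * (8 / r * D) := mul_le_mul_of_nonneg_right hηr (by positivity)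
        _ = D / 2 := by field_simp; ring
  let A : ℕ → ℂ × W × C2 → C2 := fun n => (op T E)^[n] 0
  have hA : ∀ n, A (n + 1) = op T E (A n) := fun n => Function.iterate_succ_apply' _ _ _
  have a1 : ∀ n, Good (A n) := fun n => by
    induction n with
    | zero => exact ⟨differentiableOn_const 0, fun y _ => norm_zero.trans_le (by positivity)⟩
    | succ n ih => rw [hA]; exact g4 _ ih
  have a2 : ∀ n, ∀ y ∈ U, ‖A n y - A (n + 1) y‖ ≤ 2 * (C * η) / 2 / 2 ^ n := fun n => by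
    induction n with
    | zero =>
      intro y hy
      have := (a1 1).2 y hy
      simpa [A] using this
    | succ n ih =>
      intro y hy
      rw [hA (n + 1), hA n]
      refine (g5 _ _ (a1 n) (g4 _ (a1 n)) _ (hA n ▸ ih) y hy).trans_eq ?_
      ring
  let α : ℂ × W × C2 → C2 := fun y => limUnder atTop fun n => A n y
  have a3 : ∀ y ∈ U, Tendsto (fun n => A n y) atTop (𝓝 (α y)) := fun y hy =>
    (cauchySeq_of_le_geometric_two fun n => (dist_eq_norm _ _).trans_le (a2 n y hy)).tendsto_limUnder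
  have a4 : ∀ n, ∀ y ∈ U, ‖A n y - α y‖ ≤ 2 * (C * η) / 2 ^ n := fun n y hy =>
    (dist_eq_norm _ _).symm.trans_le (dist_le_of_le_geometric_two_of_tendsto
      (fun n => (dist_eq_norm _ _).trans_le (a2 n y hy)) (a3 y hy) n)
  have a5 : Tendsto (fun n : ℕ => 2 * (C * η) / 2 ^ n) atTop (𝓝 0) :=
    tendsto_const_nhds.div_atTop (tendsto_pow_atTop_atTop_of_one_lt one_lt_two)
  have a6 : Good α := by
    refine ⟨differentiableOn_of_tendstoLocallyUniformlyOn ((isOpen_rect _ _ _).prod hBo)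
      (TendstoUniformlyOn.tendstoLocallyUniformlyOn (F := A) (p := atTop) ?_)
      (Eventually.of_forall fun n => (a1 n).1),
      fun y hy => le_of_tendsto' (a3 y hy).norm fun n => (a1 n).2 y hy⟩
    refine Metric.tendstoUniformlyOn_iff.2 fun e he => ?_
    filter_upwards [a5.eventually_lt_const he] with n hn y hy
    rw [dist_comm, dist_eq_norm]
    exact (a4 n y hy).trans_lt hn
  have a7 : ∀ y ∈ U, α y = op T E α y := fun y hy => by
    refine tendsto_nhds_unique ((tendsto_add_atTop_iff_nat 1).2 (a3 y hy)) ?_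
    refine tendsto_iff_norm_sub_tendsto_zero.2 (squeeze_zero (fun _ => norm_nonneg _)
      (fun n => ?_) (by simpa using a5.div_const 2))
    rw [hA]
    exact g5 _ _ (a1 n) a6 _ (a4 n) y hy
  refine ⟨α, a6.1, fun y hy => (a6.2 y hy).trans hηε, fun z hz w hw s hs => ?_,
    fun w hw w' hw' he z hz s hs => ?_⟩
  · have h1 := (T2 _ (g3 α a6 (w, s) ⟨hw, hs⟩) η fun z hz => g2 α a6 _ ⟨hz, hw, hs⟩).2 z hz
    rw [a7 _ ⟨incl hz, hw, hs⟩]
    nth_rw 1 [a7 (z + 1, w, s) ⟨shift hδ2 hz, hw, hs⟩]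
    exact eq_add_of_sub_eq' h1
  · refine congrArg (limUnder atTop) (funext fun n => ?_)
    induction n generalizing z with
    | zero => rfl
    | succ n ih =>
      rw [hA, ← sub_eq_zero, ← norm_le_zero_iff, ← mul_zero C]
      refine T1 _ _ (g3 _ (a1 n) (w, s) ⟨hw, hs⟩) (g3 _ (a1 n) (w', s) ⟨hw', hs⟩) η
        (fun z hz => g2 _ (a1 n) _ ⟨hz, hw, hs⟩) 0 (fun u hu => ?_) z hz
      rw [norm_le_zero_iff, sub_eq_zero, rhs, rhs, ← ih _ (shift hδ2 hu)]
      exact he u hu _ (hm _ (a1 n) (u, w, s) ⟨hu, hw, hs⟩).2.2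

end Vale.Agent.P290Z
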