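import Vale.Agent.P290Z.Spec1

/-! P290Z, POLY: approximation on polydiscs. -/

set_option linter.unusedSectionVars false

open Set Filter Metric
open scoped Topology Manifold ContDiff

namespace Vale.Agent.P290Z

open Vale.Agent.P290

namespace Poly

section geo

variable {k : ℕ}

theorem pd_eq (ρ : Fin k → ℝ) : PD ρ = Set.pi univ fun i => closedBall (0 : ℂ) (ρ i) := by
  ext w
  simp [PD]

theorem good_pd (ρ : Fin k → ℝ) : Good (PD ρ) := by
  rw [pd_eq]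
  exact ⟨isCompact_univ_pi fun i => isCompact_closedBall _ _,
    convex_pi fun i _ => convex_closedBall _ _⟩

theorem zero_mem {ρ : Fin k → ℝ} (h : ∀ i, 0 < ρ i) : (0 : Fin k → ℂ) ∈ PD ρ :=
  fun i => by simpa using (h i).le

theorem pd_sub {ρ ρ' : Fin k → ℝ} (h : ∀ i, ρ i < ρ' i) : PD ρ ⊆ interior (PD ρ') := by
  have h1 : IsOpen (⋂ i, {w : Fin k → ℂ | ‖w i‖ < ρ' i}) :=
    isOpen_iInter_of_finite fun i => isOpen_lt (by fun_prop) continuous_const
  refine subset_trans (fun w hw => mem_iInter.2 fun i => (hw i).trans_lt (h i))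
    (interior_maximal (fun w hw i => ?_) h1)
  exact le_of_lt (mem_iInter.1 hw i)

/-- insertion of the coordinate `i`, with the scale `a` -/
def ins (i : Fin (k + 1)) (a : ℝ) (y : ℂ × (Fin k → ℂ)) : Fin (k + 1) → ℂ :=
  i.insertNth ((a : ℂ) * y.1) y.2

/-- the inverse of `ins` -/
noncomputable def out (i : Fin (k + 1)) (a : ℝ) (x : Fin (k + 1) → ℂ) : ℂ × (Fin k → ℂ) :=
  ((a : ℂ)⁻¹ * x i, fun j => x (i.succAbove j))

theorem ins_self (i : Fin (k + 1)) (a : ℝ) (y : ℂ × (Fin k → ℂ)) : ins i a y i = a * y.1 := by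
  simp [ins]

theorem ins_ne (i : Fin (k + 1)) (a : ℝ) (y : ℂ × (Fin k → ℂ)) (j : Fin k) :
    ins i a y (i.succAbove j) = y.2 j := by
  simp [ins]

theorem ins_out (i : Fin (k + 1)) {a : ℝ} (ha : 0 < a) (x : Fin (k + 1) → ℂ) :
    ins i a (out i a x) = x := by
  have h : (a : ℂ) ≠ 0 := by exact_mod_cast ha.ne'
  funext j
  refine Fin.succAboveCases i ?_ (fun j => ?_) j
  · rw [ins_self, out, mul_inv_cancel_left₀ h]
  · rw [ins_ne, out]

theorem diff_ins (i : Fin (k + 1)) (a : ℝ) : Differentiable ℂ (ins i a) := by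
  refine differentiable_pi.2 fun j => ?_
  refine Fin.succAboveCases i ?_ (fun j => ?_) j
  · simp only [ins_self]
    fun_prop
  · simp only [ins_ne]
    fun_prop

theorem diff_out (i : Fin (k + 1)) (a : ℝ) : Differentiable ℂ (out i a) := by
  refine Differentiable.prodMk (by fun_prop) (differentiable_pi.2 fun j => by fun_prop)

theorem ins_mem (i : Fin (k + 1)) {a : ℝ} (ha : 0 < a) (ρ : Fin (k + 1) → ℝ)
    (y : ℂ × (Fin k → ℂ)) :
    ins i a y ∈ PD ρ ↔ a * ‖y.1‖ ≤ ρ i ∧ y.2 ∈ PD fun j => ρ (i.succAbove j) := by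
  rw [PD, mem_ofPred_eq, Fin.forall_iff_succAbove i, ins_self, norm_mul, Complex.norm_real,
    Real.norm_of_nonneg ha.le]
  simp only [ins_ne]
  rfl

end geo

variable {X : Type} [MetricSpace X] [ChartedSpace C2 X]

theorem hn_comp {V W : Type} [NormedAddCommGroup V] [NormedSpace ℂ V] [NormedAddCommGroup W]
    [NormedSpace ℂ W] {S : Set V} {T : Set W} {f : V → X} (hf : HN S f) {a : W → V}
    (ha : Differentiable ℂ a) (h : MapsTo a T S) : HN T fun w => f (a w) := by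
  filter_upwards [(ha.continuous.tendsto_nhdsSet h).eventually hf] with w hw
  exact MDifferentiableAt.comp w hw (ha w).mdifferentiableAt

theorem hn_enl {k : ℕ} {ρ : Fin k → ℝ} (h : ∀ i, 0 < ρ i) {f : (Fin k → ℂ) → X}
    (hf : HN (PD ρ) f) : ∃ ρ' : Fin k → ℝ, (∀ i, ρ i < ρ' i) ∧ HN (PD ρ') f := by
  obtain ⟨U, hU, h1, h2⟩ := mem_nhdsSet_iff_exists.1 hf
  have h3 : ∀ᶠ t : ℝ in 𝓝 1, ∀ x ∈ PD ρ, t • x ∈ U := by
    refine (good_pd ρ).1.eventually_forall_of_forall_eventually fun x hx => ?_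
    have hc : Continuous fun p : ℝ × (Fin k → ℂ) => p.1 • p.2 := by fun_prop
    exact hc.continuousAt.eventually (hU.mem_nhds (by simpa using h1 hx))
  obtain ⟨t, ht, h4⟩ := ((h3.filter_mono nhdsWithin_le_nhds).and
    (self_mem_nhdsWithin (s := Ioi (1 : ℝ)))).exists
  have h5 : (1 : ℝ) < t := h4
  have h6 : 0 < t := one_pos.trans h5
  refine ⟨fun i => t * ρ i, fun i => lt_mul_of_one_lt_left (h i) h5, ?_⟩
  refine mem_nhdsSet_iff_exists.2 ⟨U, hU, fun x hx => ?_, h2⟩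
  have h7 := ht (t⁻¹ • x) fun i => by
    rw [Pi.smul_apply, norm_smul, Real.norm_of_nonneg (inv_nonneg.2 h6.le), inv_mul_le_iff₀ h6]
    exact hx i
  rwa [smul_inv_smul₀ h6.ne'] at h7

theorem cc_trans {V : Type} [NormedAddCommGroup V] [NormedSpace ℂ V] {K L M : Set V} {f : V → X}
    (h : CC K L f) (hKL : K ⊆ L) (h' : ∀ F : V → X, HN L F → CC L M F) : CC K M f := by
  intro ε hε
  obtain ⟨F, h1, h2⟩ := h (ε / 2) (half_pos hε)
  obtain ⟨G, h3, h4⟩ := h' F h1 (ε / 2) (half_pos hε)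
  refine ⟨G, h3, fun x hx => (dist_triangle _ (F x) _).trans_lt ?_⟩
  linarith [h2 x hx, h4 x (hKL hx)]

variable [IsManifold 𝓘(ℂ, C2) ω X]

/-- the slices of a polydisc -/
theorem slice {k : ℕ} (ih : ∀ ρ : Fin k → ℝ, (∀ i, 0 < ρ i) → ∀ g : (Fin k → ℂ) → X,
      HN (PD ρ) g → PP (PD ρ) g) (i : Fin (k + 1)) {a : ℝ} (ha : 0 < a) {ρ : Fin (k + 1) → ℝ}
    (h : ∀ i, 0 < ρ i) {g : (Fin (k + 1) → ℂ) → X} (hg : HN (PD ρ) g) {c : ℂ}
    (hc : a * ‖c‖ ≤ ρ i) : ∃ F : Set (Fin k → ℂ), IsCompact F ∧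
      (PD fun j => ρ (i.succAbove j)) ⊆ interior F ∧ PP F fun y => g (ins i a (c, y)) := by
  have h1 : HN (PD fun j => ρ (i.succAbove j)) fun y => g (ins i a (c, y)) :=
    hn_comp hg (a := fun y => ins i a (c, y)) ((diff_ins i a).comp (by fun_prop))
      fun y hy => (ins_mem i ha ρ _).2 ⟨hc, hy⟩
  obtain ⟨ρ', h2, h3⟩ := hn_enl (fun j => h _) h1
  exact ⟨PD ρ', (good_pd ρ').1, pd_sub h2, ih ρ' (fun j => (h _).trans (h2 j)) _ h3⟩

theorem pp_all (hP : StPstep) (hC : StCalc) (hL : StLong) (hX : Om X = univ) (k : ℕ) :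
    ∀ ρ : Fin k → ℝ, (∀ i, 0 < ρ i) → ∀ g : (Fin k → ℂ) → X, HN (PD ρ) g → PP (PD ρ) g := by
  induction k with
  | zero =>
    intro ρ _ g _
    obtain ⟨N, -, h1, h2⟩ := (hL X).2.1 (g 0) (by rw [hX]; exact mem_univ _)
    exact ⟨_, h2 _ (PD ρ), fun x _ => ⟨mem_univ _, by rwa [Subsingleton.elim x 0]⟩⟩
  | succ k ih =>
    intro ρ h g hg
    have hm : ∀ y : ℂ × (Fin k → ℂ), ins 0 (ρ 0) y ∈ PD ρ ↔
        y ∈ closedBall (0 : ℂ) 1 ×ˢ PD fun j => ρ ((0 : Fin (k + 1)).succAbove j) := fun y => by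
      rw [ins_mem 0 (h 0), mul_le_iff_le_one_right (h 0), mem_prod, mem_closedBall_zero_iff]
    obtain ⟨O, h1, h2⟩ := hP (Fin k → ℂ) X _ (good_pd _) (zero_mem fun j => h _)
      (fun y => g (ins 0 (ρ 0) y)) (hn_comp hg (diff_ins 0 _) fun y hy => (hm y).2 hy)
      fun c hc => slice ih 0 (h 0) h hg (by rw [hc, mul_one])
    have h3 : MapsTo (out 0 (ρ 0)) (PD ρ) _ := fun x hx =>
      (hm _).1 (by rwa [ins_out 0 (h 0)])
    refine ⟨_, (hC X).2.1 _ _ _ O (out 0 (ρ 0)) univ (PD ρ) h1 isOpen_univ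
      (diff_out 0 _).differentiableOn (subset_univ _) h3, fun x hx => ⟨mem_univ _, ?_⟩⟩
    simpa only [ins_out 0 (h 0)] using h2 _ (h3 hx)

/-- one variable -/
theorem cc_one (hE : StEnl) {k : ℕ} (hp : ∀ ρ : Fin k → ℝ, (∀ i, 0 < ρ i) →
      ∀ g : (Fin k → ℂ) → X, HN (PD ρ) g → PP (PD ρ) g) (i : Fin (k + 1))
    {ρ ρ' : Fin (k + 1) → ℝ} (h : ∀ i, 0 < ρ i) (hi : ρ i ≤ ρ' i)
    (hj : ∀ j, ρ' (i.succAbove j) = ρ (i.succAbove j)) {f : (Fin (k + 1) → ℂ) → X}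
    (hf : HN (PD ρ) f) : CC (PD ρ) (PD ρ') f := by
  set L : Set (ℂ × (Fin k → ℂ)) :=
    closedBall (0 : ℂ) (ρ' i) ×ˢ PD fun j => ρ (i.succAbove j) with hL
  have m1 : ∀ y, ins i 1 y ∈ PD ρ' ↔ y ∈ L := fun y => by
    rw [ins_mem i one_pos, one_mul, hL, mem_prod, mem_closedBall_zero_iff]
    simp only [hj]
  have m2 : ∀ y, ins i 1 y ∈ PD ρ ↔ y ∈ L ∩ {x | x.1 ∈ closedBall (0 : ℂ) (ρ i)} := fun y => by
    rw [ins_mem i one_pos, one_mul, hL, mem_inter_iff, mem_prod, mem_ofPred_eq,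
      mem_closedBall_zero_iff, mem_closedBall_zero_iff]
    exact ⟨fun a => ⟨⟨a.1.trans hi, a.2⟩, a.1⟩, fun a => ⟨a.2, a.1.2⟩⟩
  have key := hE (Fin k → ℂ) X L
    ⟨(isCompact_closedBall _ _).prod (good_pd _).1, (convex_closedBall _ _).prod (good_pd _).2⟩
    ⟨mem_closedBall_self ((h i).le.trans hi), zero_mem fun j => h _⟩
    (closedBall 0 (ρ i)) (isCompact_closedBall _ _) (convex_closedBall _ _)
    (closedBall_mem_nhds _ (h i)) (fun y => f (ins i 1 y))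
    (hn_comp hf (diff_ins i 1) fun y hy => (m2 y).2 hy) fun c hc => by
      have h1 : ‖c‖ ≤ ρ i := mem_closedBall_zero_iff.1 (isClosed_closedBall.frontier_subset hc)
      obtain ⟨F, h2, h3, h4⟩ := slice hp i one_pos h hf (c := c) (by rwa [one_mul])
      exact ⟨F, h2, fun y hy => h3 hy.2, h4⟩
  intro ε hε
  obtain ⟨F, h1, h2⟩ := key ε hε
  refine ⟨fun x => F (out i 1 x), hn_comp h1 (diff_out i 1) fun x hx =>
    (m1 _).1 (by rwa [ins_out i one_pos]), fun x hx => ?_⟩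
  have h3 := h2 (out i 1 x) ((m2 _).1 (by rwa [ins_out i one_pos]))
  simpa only [ins_out i one_pos] using h3

theorem cc_pd (hE : StEnl) (hp : ∀ (k : ℕ) (ρ : Fin k → ℝ), (∀ i, 0 < ρ i) →
      ∀ g : (Fin k → ℂ) → X, HN (PD ρ) g → PP (PD ρ) g) {k : ℕ} {ρ ρ' : Fin k → ℝ}
    (h : ∀ i, 0 < ρ i) (hi : ∀ i, ρ i ≤ ρ' i) {f : (Fin k → ℂ) → X} (hf : HN (PD ρ) f)
    (s : Finset (Fin k)) : CC (PD ρ) (PD fun i => if i ∈ s then ρ' i else ρ i) f := by
  induction s using Finset.induction_on with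
  | empty =>
    intro ε hε
    exact ⟨f, by simpa using hf, fun x _ => by simpa using hε⟩
  | insert i s his ih =>
    refine cc_trans ih (fun x hx j => (hx j).trans ?_) fun F hF => ?_
    · beta_reduce
      split_ifs
      · exact hi j
      · exact le_rfl
    · obtain ⟨n, rfl⟩ : ∃ n, k = n + 1 := ⟨k - 1, by have := i.pos; omega⟩
      refine cc_one hE (hp n) i (fun j => ?_) ?_ (fun j => ?_) hF
      · split_ifs
        · exact (h j).trans_le (hi j)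
        · exact h j
      · rw [if_neg his, if_pos (Finset.mem_insert_self _ _)]
        exact hi i
      · simp only [Finset.mem_insert, Fin.succAbove_ne, false_or]

end Poly

theorem poly : StPstep → StEnl → StCalc → StLong → StPoly := by
  intro hP hE hC hL X _ _ _ hX k ρ h f hf L hLc ε hε
  obtain ⟨R, hR⟩ := hLc.isBounded.exists_norm_le
  obtain ⟨F, h1, h2⟩ := Poly.cc_pd hE (Poly.pp_all hP hC hL hX) (ρ' := fun i => max (ρ i) R) h
    (fun i => le_max_left _ _) hf Finset.univ ε hε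
  refine ⟨F, h1.filter_mono (nhdsSet_mono fun x hx i => ?_), h2⟩
  simp only [if_pos (Finset.mem_univ i)]
  exact ((norm_le_pi_norm x i).trans (hR x hx)).trans (le_max_right _ _)

end Vale.Agent.P290Z
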