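import Vale.Agent.P290Z.Spec1

/-! P290Z: throwing data over one more disc, and the disc property. -/

open Set Filter Metric
open scoped Topology Manifold ContDiff

namespace Vale.Agent.P290Z

open Vale.Agent.P290

namespace Ps

section

variable {V W X : Type} [NormedAddCommGroup V] [NormedSpace ℂ V] [NormedAddCommGroup W]
  [NormedSpace ℂ W] [TopologicalSpace X] [ChartedSpace C2 X]

theorem hn_comp {S : Set V} {T : Set W} {F : V → X} (hF : HN S F) {φ : W → V}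
    (hφ : Differentiable ℂ φ) (h : MapsTo φ T S) : HN T fun w => F (φ w) := by
  filter_upwards [(hφ.continuous.tendsto_nhdsSet h).eventually hF] with w hw
  exact MDifferentiableAt.comp w hw (hφ w).mdifferentiableAt

theorem hn_mono {S T : Set V} {F : V → X} (hF : HN S F) (h : T ⊆ S) : HN T F :=
  hF.filter_mono (nhdsSet_mono h)

theorem hn_cont {S : Set V} {F : V → X} (hF : HN S F) {x : V} (hx : x ∈ S) : ContinuousAt F x :=
  (hF.self_of_nhdsSet x hx).continuousAt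

omit [NormedSpace ℂ V] in
theorem tube {K : Set V} (hK : IsCompact K) {A : Set ℂ} (hA : IsCompact A)
    {N : Set ((ℂ × V) × C2)} (hN : N ∈ 𝓝ˢ ((A ×ˢ K) ×ˢ {(0 : C2)})) :
    ∃ δ > 0, (cthickening δ A ×ˢ cthickening δ K) ×ˢ closedBall (0 : C2) δ ⊆ N := by
  rw [(hA.prod hK).nhdsSet_prod_eq isCompact_singleton, hA.nhdsSet_prod_eq hK,
    nhdsSet_singleton] at hN
  obtain ⟨s, hs, t, ht, hst⟩ := mem_prod_iff.1 hN
  obtain ⟨a, ha, k, hk, hak⟩ := mem_prod_iff.1 hs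
  obtain ⟨δ₁, h1, h1'⟩ := (hasBasis_nhdsSet_cthickening hA).mem_iff.1 ha
  obtain ⟨δ₂, h2, h2'⟩ := (hasBasis_nhdsSet_cthickening hK).mem_iff.1 hk
  obtain ⟨δ₃, h3, h3'⟩ := nhds_basis_closedBall.mem_iff.1 ht
  refine ⟨min δ₁ (min δ₂ δ₃), by positivity, 
    (Set.prod_mono ((Set.prod_mono ?_ ?_).trans hak) ?_).trans hst⟩
  · exact (cthickening_mono (min_le_left _ _) A).trans h1'
  · exact (cthickening_mono ((min_le_right _ _).trans (min_le_left _ _)) K).trans h2'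
  · exact (closedBall_subset_closedBall ((min_le_right _ _).trans (min_le_right _ _))).trans h3'

end

theorem exists_m {η : ℝ} (hη : 0 < η) : ∃ m : ℂ → ℂ, Differentiable ℂ m ∧ m 1 = 1 ∧
    ∀ z : ℂ, z.re ≤ -1 / 2 → ‖m z‖ ≤ η := by
  refine ⟨fun z => Complex.exp ((|Real.log η| : ℝ) * (z - 1)), by fun_prop, by simp, fun z hz => ?_⟩
  rw [Complex.norm_exp, Complex.re_ofReal_mul, Complex.sub_re, Complex.one_re,
    ← Real.le_log_iff_exp_le hη]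
  nlinarith [neg_abs_le (Real.log η), abs_nonneg (Real.log η)]

variable {V X : Type} [NormedAddCommGroup V] [NormedSpace ℂ V] [FiniteDimensional ℂ V]
  [MetricSpace X] [ChartedSpace C2 X] [IsManifold 𝓘(ℂ, C2) ω X]

omit [FiniteDimensional ℂ V] in
/-- the folding map -/
theorem exists_fold (hT : StT2) {r δ η : ℝ} (hr : 0 < r) (hδ : 0 < δ) (hδ1 : δ ≤ 1)
    (hη : 0 < η) (R : ℝ) : ∃ (q : (ℂ × V) × C2 → ℂ) (β : C2 → C2) (h : C2 → ℂ) (M : ℝ),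
      Differentiable ℂ q ∧ Differentiable ℂ β ∧ Differentiable ℂ h ∧ 1 ≤ M ∧
      (∀ x : (ℂ × V) × C2, ‖x.1.1‖ ≤ 1 → ‖x.2‖ ≤ R → ‖q x‖ ≤ M) ∧
      (∀ t : C2, ‖t‖ ≤ R → -1 ≤ (h t).re → ‖β t‖ ≤ r) ∧
      (∀ x : (ℂ × V) × C2, ‖x.1.1‖ ≤ 1 → (h x.2).re ≤ -1 / 2 → ‖q x‖ ≤ 1 ∧ ‖q x - 1‖ ≤ δ) ∧
      ∀ x : (ℂ × V) × C2, ‖x.1.1‖ ≤ 1 → ‖x.2‖ ≤ r / 2 →
        -1 ≤ (h x.2).re ∧ ‖q x‖ ≤ 1 ∧ ‖q x - x.1.1‖ < η ∧ ‖β x.2 - x.2‖ < η := by
  obtain ⟨m, hm, hm1, hm2⟩ := exists_m (η := δ / 4) (by positivity)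
  obtain ⟨e, he, he1, he2⟩ : ∃ e : ℝ, 0 < e ∧ e ≤ 1 ∧ 2 * e < η :=
    ⟨min 1 (η / 4), by positivity, min_le_left _ _, by linarith [min_le_right 1 (η / 4)]⟩
  obtain ⟨ε, hε, hεm⟩ := Metric.continuousAt_iff.1 (hm.continuous.continuousAt (x := 1)) (e / 2)
    (by positivity)
  obtain ⟨β, h, hβ, hh, a1, a2⟩ := hT r R (min ε (min η 1)) hr (by positivity)
  have hq : Differentiable ℂ fun y : ℂ × C2 => ((1 - δ / 2 : ℝ) : ℂ) +
      m (h y.2) * (((1 - e : ℝ) : ℂ) * y.1 - (1 - δ / 2 : ℝ)) := by fun_prop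
  obtain ⟨M, hM⟩ := ((isCompact_closedBall (0 : ℂ) 1).prod
    (isCompact_closedBall (0 : C2) R)).exists_bound_of_continuousOn hq.continuous.continuousOn
  have n1 : ‖((1 - δ / 2 : ℝ) : ℂ)‖ = 1 - δ / 2 := Complex.norm_of_nonneg (by linarith)
  have n2 : ∀ c : ℂ, ‖c‖ ≤ 1 → ‖((1 - e : ℝ) : ℂ) * c‖ ≤ 1 - e := fun c hc => by
    rw [norm_mul, Complex.norm_of_nonneg (by linarith)]
    exact mul_le_of_le_one_right (by linarith) hc
  have n3 : ∀ c : ℂ, ‖c‖ ≤ 1 → ∀ (u : ℂ) (a : ℝ), ‖u‖ ≤ a →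
      ‖u * (((1 - e : ℝ) : ℂ) * c - (1 - δ / 2 : ℝ))‖ ≤ a * 2 := fun c hc u a hu => by
    rw [norm_mul]
    exact mul_le_mul hu ((norm_sub_le _ _).trans (by linarith [n2 c hc])) (norm_nonneg _)
      ((norm_nonneg _).trans hu)
  refine ⟨fun x => ((1 - δ / 2 : ℝ) : ℂ) +
      m (h x.2) * (((1 - e : ℝ) : ℂ) * x.1.1 - (1 - δ / 2 : ℝ)), β, h, max 1 M, by fun_prop, hβ, hh,
    le_max_left _ _, fun x h1 h2 => (hM (x.1.1, x.2) ⟨mem_closedBall_zero_iff.2 h1,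
      mem_closedBall_zero_iff.2 h2⟩).trans (le_max_right _ _),
    fun t h1 h2 => (a2 t h1 h2).trans (by linarith), fun x h1 h2 => ?_, fun x h1 h2 => ?_⟩
  · have b1 := n3 _ h1 _ _ (hm2 _ h2)
    refine ⟨(norm_add_le _ _).trans (by linarith), ?_⟩
    rw [add_sub_right_comm]
    refine (norm_add_le _ _).trans ?_
    rw [← Complex.ofReal_one, ← Complex.ofReal_sub, Complex.norm_real, Real.norm_eq_abs,
      abs_of_nonpos (by linarith)]
    linarith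
  · obtain ⟨b1, b2⟩ := a1 _ h2
    simp only [lt_min_iff] at b1 b2
    have b3 := hεm (x := h x.2) (by rw [dist_eq_norm]; exact b2.1)
    rw [hm1, dist_eq_norm] at b3
    have b4 := n3 _ h1 _ _ b3.le
    have b5 := (abs_le.1 ((Complex.abs_re_le_norm _).trans b2.2.2.le)).1
    have e1 : ((1 - δ / 2 : ℝ) : ℂ) + m (h x.2) * (((1 - e : ℝ) : ℂ) * x.1.1 - (1 - δ / 2 : ℝ)) =
        ((1 - e : ℝ) : ℂ) * x.1.1 +
          (m (h x.2) - 1) * (((1 - e : ℝ) : ℂ) * x.1.1 - (1 - δ / 2 : ℝ)) := by ring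
    have e2 : ((1 - e : ℝ) : ℂ) * x.1.1 - x.1.1 = -((e : ℂ) * x.1.1) := by push_cast; ring
    rw [Complex.sub_re, Complex.one_re] at b5
    refine ⟨by linarith, ?_, ?_, b1.2.1⟩ <;> beta_reduce <;> rw [e1]
    · exact (norm_add_le _ _).trans (by linarith [n2 _ h1])
    · rw [add_sub_right_comm, e2]
      refine (norm_add_le _ _).trans_lt ?_
      rw [norm_neg, norm_mul, Complex.norm_of_nonneg he.le]
      linarith [mul_le_of_le_one_right he.le h1]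

omit [FiniteDimensional ℂ V] in
theorem exists_fold' (hT : StT2) (K : Set V) {r δ η : ℝ} (hr : 0 < r) (hδ : 0 < δ) (hδ1 : δ ≤ 1)
    (hη : 0 < η) {R : ℝ} (hR : r ≤ R) :
    ∃ (Φ : (ℂ × V) × C2 → ℂ × V × C2) (h : (ℂ × V) × C2 → ℂ) (M : ℝ),
      Differentiable ℂ Φ ∧ Differentiable ℂ h ∧ 1 ≤ M ∧ (∀ x, (Φ x).2.1 = x.1.2) ∧
      (∀ x ∈ (closedBall (0 : ℂ) 1 ×ˢ K) ×ˢ closedBall (0 : C2) R, -1 ≤ (h x).re →
        Φ x ∈ closedBall (0 : ℂ) M ×ˢ K ×ˢ closedBall (0 : C2) r ∧ ((h x).re ≤ -1 / 2 →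
          Φ x ∈ closedBall (0 : ℂ) 1 ×ˢ K ×ˢ closedBall (0 : C2) r ∧ ‖(Φ x).1 - 1‖ ≤ δ)) ∧
      ∀ x ∈ (closedBall (0 : ℂ) 1 ×ˢ K) ×ˢ closedBall (0 : C2) (r / 2), -1 ≤ (h x).re ∧
        Φ x ∈ closedBall (0 : ℂ) 1 ×ˢ K ×ˢ closedBall (0 : C2) r ∧
        dist (Φ x) (x.1.1, x.1.2, x.2) < η := by
  obtain ⟨q, β, h, M, hq, hβ, hh, hM, a1, a2, a3, a4⟩ := exists_fold (V := V) hT hr hδ hδ1 hη R
  refine ⟨fun x => (q x, x.1.2, β x.2), fun x => h x.2, M, by fun_prop, by fun_prop, hM,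
    fun _ => rfl, fun x hx hx' => ?_, fun x hx => ?_⟩ <;>
    simp only [mem_prod, mem_closedBall_zero_iff] at hx ⊢
  · have b := a2 _ hx.2 hx'
    exact ⟨⟨a1 x hx.1.1 hx.2, hx.1.2, b⟩, fun h' =>
      ⟨⟨(a3 x hx.1.1 h').1, hx.1.2, b⟩, (a3 x hx.1.1 h').2⟩⟩
  · obtain ⟨b1, b2, b3, b4⟩ := a4 x hx.1.1 hx.2
    refine ⟨b1, ⟨b2, hx.1.2, a2 _ (by linarith [hx.2]) b1⟩, ?_⟩
    exact max_lt ((dist_eq_norm _ _).trans_lt b3)
      (max_lt ((dist_self _).trans_lt hη) ((dist_eq_norm _ _).trans_lt b4))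

/-- long approximants of a spray -/
theorem appr (hT2 : StT2) (hS : StSpr) (hT : StThrow) (hC : StCalc) (hE : StEnl) {K : Set V}
    (hK : Good K) (h0 : (0 : V) ∈ K) {F₀ : (ℂ × V) × C2 → X} {r δ : ℝ} (hr : 0 < r) (hδ : 0 < δ)
    (hδ1 : δ ≤ 1) (hF₀ : HN ((closedBall (0 : ℂ) 1 ×ˢ K) ×ˢ closedBall (0 : C2) r) F₀)
    (hP : ∀ c : ℂ, ‖c‖ = 1 → ∃ F : Set (V × C2), IsCompact F ∧
      K ×ˢ closedBall (0 : C2) r ⊆ interior F ∧ PP F fun y => F₀ ((c, y.1), y.2))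
    {F₁ : Set V} {O₁ : Set (V × X)} (hF₁ : K ⊆ interior F₁) (hO : Thr F₁ O₁)
    (hin : ∀ (c : ℂ) (w : V) (t : C2), ‖c - 1‖ ≤ δ → w ∈ K → ‖t‖ ≤ r → (w, F₀ ((c, w), t)) ∈ O₁)
    (R : ℝ) : CC ((closedBall (0 : ℂ) 1 ×ˢ K) ×ˢ closedBall (0 : C2) (r / 2))
      ((closedBall (0 : ℂ) 1 ×ˢ K) ×ˢ closedBall (0 : C2) R) F₀ := by
  intro ε hε
  have gd : ∀ M : ℝ, Good (closedBall (0 : ℂ) M ×ˢ K ×ˢ closedBall (0 : C2) r) := fun M =>
    ⟨(isCompact_closedBall _ _).prod (hK.1.prod (isCompact_closedBall _ _)),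
      (convex_closedBall _ _).prod (hK.2.prod (convex_closedBall _ _))⟩
  obtain ⟨f, ef⟩ : ∃ f : ℂ × V × C2 → X, f = fun x => F₀ ((x.1, x.2.1), x.2.2) := ⟨_, rfl⟩
  have hf : HN (closedBall (0 : ℂ) 1 ×ˢ K ×ˢ closedBall (0 : C2) r) f :=
    ef ▸ hn_comp (φ := fun x : ℂ × V × C2 => ((x.1, x.2.1), x.2.2)) hF₀ (by fun_prop)
      fun x hx => ⟨⟨hx.1, hx.2.1⟩, hx.2.2⟩
  obtain ⟨ε₁, hε₁, h1⟩ := H580.unif_nbhd ((gd 1).1.inter_right
    (t := {x : ℂ × V × C2 | ‖x.1 - 1‖ ≤ δ}) (isClosed_le (by fun_prop) continuous_const)) f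
    (fun z hz => hn_cont hf hz.1) ((fun p => (p.1.2.1, p.2)) ⁻¹' O₁) fun z hz =>
      (hO.1.preimage (by fun_prop)).mem_nhds
        (ef ▸ hin _ _ _ hz.2 hz.1.2.1 (mem_closedBall_zero_iff.1 hz.1.2.2))
  obtain ⟨η, hη, h2⟩ := Metric.uniformContinuousOn_iff.1
    ((gd 1).1.uniformContinuousOn_of_continuous fun z hz => (hn_cont hf hz).continuousWithinAt)
    (ε / 3) (by positivity)
  obtain ⟨Φ, h, M, hΦ, hh, hM, a1, a2, a3⟩ := exists_fold' hT2 K hr hδ hδ1 hη (le_max_right R r)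
  have eL : closedBall (0 : ℂ) M ×ˢ K ×ˢ closedBall (0 : C2) r ∩ {x | x.1 ∈ closedBall (0 : ℂ) 1} =
      closedBall (0 : ℂ) 1 ×ˢ K ×ˢ closedBall (0 : C2) r :=
    Subset.antisymm (fun x hx => ⟨hx.2, hx.1.2⟩) fun x hx =>
      ⟨⟨closedBall_subset_closedBall hM hx.1, hx.2⟩, hx.1⟩
  obtain ⟨G₁, hG₁, h3⟩ := hE (V × C2) X _ (gd M)
    ⟨mem_closedBall_self (by linarith), h0, mem_closedBall_self hr.le⟩ _
    (isCompact_closedBall _ _) (convex_closedBall _ _) (closedBall_mem_nhds _ one_pos) f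
    (by rwa [eL]) (fun c hc => by
      rw [frontier_closedBall _ one_ne_zero, mem_sphere_zero_iff_norm] at hc
      exact (hP c hc).imp fun F hF => ⟨hF.1, fun y hy => hF.2.1 hy.2, ef ▸ hF.2.2⟩)
    (min ε₁ (ε / 3)) (by positivity)
  rw [eL] at h3
  obtain ⟨F, hF, h4, h5⟩ := hS _ X _ (gd M) G₁ hG₁
  replace h4 := h4.self_of_nhdsSet
  have gL : Good ((closedBall (0 : ℂ) 1 ×ˢ K) ×ˢ closedBall (0 : C2) (max R r)) :=
    ⟨((isCompact_closedBall _ _).prod hK.1).prod (isCompact_closedBall _ _),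
      ((convex_closedBall _ _).prod hK.2).prod (convex_closedBall _ _)⟩
  have hthr := (hC X).2.1 V ((ℂ × V) × C2) F₁ O₁ (fun x => x.1.2) univ _ hO isOpen_univ
    (by fun_prop) (subset_univ _) (mapsTo_preimage _ _)
  obtain ⟨G, hG, h7⟩ := hT _ X _ gL h hh (fun y => F (Φ y.1, y.2)) _
    {p | p.1 ∈ univ ∧ (p.1.1.2, p.2) ∈ O₁}
    (hn_comp (φ := fun y : ((ℂ × V) × C2) × C2 => (Φ y.1, y.2)) hF (by fun_prop)
      fun y hy => ⟨(a2 _ hy.1.1 hy.1.2).1, hy.2⟩)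
    (fun x hx hx' hx'' => ⟨h5 _ (a2 x hx hx').1, mem_univ _, by
      obtain ⟨b1, b2⟩ := (a2 x hx hx').2 hx''
      have b3 := h1 _ ⟨b1, b2⟩ _ ((h3 _ b1).trans_le (min_le_left _ _))
      rwa [mem_preimage, ← h4 _ (a2 x hx hx').1, a1] at b3⟩)
    (fun x hx => preimage_interior_subset_interior_preimage (by fun_prop) (hF₁ hx.1.1.2))
    hthr (ε / 3) (by positivity)
  refine ⟨G, hn_mono hG (prod_mono_right (closedBall_subset_closedBall (le_max_left _ _))),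
    fun x hx => ?_⟩
  obtain ⟨b1, b2, b3⟩ := a3 x hx
  have b5 : x ∈ (closedBall (0 : ℂ) 1 ×ˢ K) ×ˢ closedBall (0 : C2) (max R r) :=
    ⟨hx.1, closedBall_subset_closedBall (le_max_of_le_right (by linarith)) hx.2⟩
  have c1 : dist (G x) (G₁ (Φ x)) < ε / 3 := h4 _ (a2 x b5 b1).1 ▸ h7 x ⟨b5, b1⟩
  have c2 := (h3 _ b2).trans_le (min_le_right _ _)
  have c3 := h2 _ b2 (x.1.1, x.1.2, x.2)
    ⟨hx.1.1, hx.1.2, closedBall_subset_closedBall (by linarith) hx.2⟩ b3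
  have c4 : F₀ x = f (x.1.1, x.1.2, x.2) := by rw [ef]
  rw [c4]
  exact (dist_triangle4 _ (G₁ (Φ x)) (f (Φ x)) _).trans_lt (by linarith)

end Ps

open Ps

theorem pstep (hT2 : StT2) (hS : StSpr) (_ : StInv) (hT : StThrow) (hC : StCalc) (hL : StLong)
    (hE : StEnl) : StPstep := by
  intro V X _ _ _ _ _ _ K hK h0 g hg hP
  have : ProperSpace V := FiniteDimensional.proper ℂ V
  have hD := isCompact_closedBall (0 : ℂ) 1
  obtain ⟨F₀, hF₀, h1, h2⟩ := hS _ X _ ⟨hD.prod hK.1, (convex_closedBall _ _).prod hK.2⟩ g hg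
  replace h1 := h1.self_of_nhdsSet
  have loc : ∀ c : ℂ, ‖c‖ = 1 → ∃ (F : Set V) (O : Set (V × X)), K ⊆ interior F ∧ Thr F O ∧
      ∃ δ > 0, ∀ (c' : ℂ) (w : V) (t : C2), ‖c' - c‖ ≤ δ → w ∈ cthickening δ K → ‖t‖ ≤ δ →
        w ∈ F ∧ (w, F₀ ((c', w), t)) ∈ O := fun c hc => by
    obtain ⟨F, -, hF, O, hO, hO'⟩ := hP c hc
    obtain ⟨δ, hδ, h⟩ := tube hK.1 (isCompact_singleton (x := c))
      (N := {x | x.1.2 ∈ F ∧ (x.1.2, F₀ x) ∈ O}) (mem_nhdsSet_iff_forall.2 (by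
        rintro ⟨⟨c', w⟩, _⟩ ⟨⟨rfl, hw⟩, rfl⟩
        have hx := mk_mem_prod (mem_closedBall_zero_iff.2 hc.le) hw
        have hc' : ContinuousAt (fun x : (ℂ × V) × C2 => (x.1.2, F₀ x)) ((c', w), 0) :=
          ContinuousAt.prodMk (by fun_prop) (hn_cont hF₀ (mk_mem_prod hx rfl))
        refine inter_mem (ContinuousAt.preimage_mem_nhds (f := fun x : (ℂ × V) × C2 => x.1.2)
          (by fun_prop) (mem_interior_iff_mem_nhds.1 (hF hw))) (hc'.preimage_mem_nhds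
            (hO.1.mem_nhds ?_))
        rw [h1 _ hx]
        exact hO' w (interior_subset (hF hw))))
    refine ⟨F, O, hF, hO, δ, hδ, fun c' w t a1 a2 a3 => h (a := ((c', w), t))
      ⟨⟨?_, a2⟩, mem_closedBall_zero_iff.2 a3⟩⟩
    rwa [cthickening_singleton _ hδ.le, mem_closedBall, dist_eq_norm]
  have unif : ∀ᶠ ρ : ℝ in 𝓝 0, ∀ c ∈ sphere (0 : ℂ) 1,
      PP (cthickening ρ K ×ˢ closedBall (0 : C2) ρ) fun y => F₀ ((c, y.1), y.2) := by
    refine (isCompact_sphere _ _).eventually_forall_of_forall_eventually fun c hc => ?_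
    obtain ⟨F, O, -, hO, δ, hδ, h⟩ := loc c (mem_sphere_zero_iff_norm.1 hc)
    filter_upwards [prod_mem_nhds (Iic_mem_nhds hδ) (closedBall_mem_nhds c hδ)] with z hz
    have h' := fun y (hy : y ∈ cthickening z.1 K ×ˢ closedBall (0 : C2) z.1) => h z.2 y.1 y.2
      (mem_closedBall_iff_norm.1 hz.2) (cthickening_mono hz.1 K hy.1)
      ((mem_closedBall_zero_iff.1 hy.2).trans hz.1)
    exact ⟨_, (hC X).2.1 V _ F O Prod.fst univ _ hO isOpen_univ (by fun_prop) (subset_univ _)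
      fun y hy => (h' y hy).1, fun y hy => ⟨mem_univ _, (h' y hy).2⟩⟩
  obtain ⟨F₁, O₁, hF₁, hO₁, δ, hδ, h3⟩ := loc 1 norm_one
  obtain ⟨δ₀, hδ₀, h4⟩ := tube hK.1 hD hF₀
  obtain ⟨ρ, hρ, h5, h6⟩ := (unif.and (Iic_mem_nhds (lt_min hδ hδ₀))).exists_gt
  replace h6 := le_min_iff.1 h6
  have h7 : ∀ r < δ₀, HN ((closedBall (0 : ℂ) 1 ×ˢ K) ×ˢ closedBall (0 : C2) r) F₀ := fun r hr =>
    mem_of_superset (((isOpen_thickening.prod isOpen_thickening).prod isOpen_ball).mem_nhdsSet.2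
      (Set.prod_mono (Set.prod_mono (self_subset_thickening hδ₀ _) (self_subset_thickening hδ₀ _))
        (closedBall_subset_ball hr))) ((Set.prod_mono (Set.prod_mono
        (thickening_subset_cthickening _ _) (thickening_subset_cthickening _ _)) ball_subset_closedBall).trans h4)
  have key := (hL X).1 _ _ F₀ (ρ / 2 / 2) (hD.prod hK.1) (by positivity)
    (h7 _ (by linarith [h6.2])) h2 (appr hT2 hS hT hC hE hK h0 (δ := min δ 1) (by positivity)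
      (by positivity) (min_le_right _ _) (h7 _ (by linarith [h6.2])) (fun c hc =>
        ⟨_, hK.1.cthickening.prod (isCompact_closedBall _ _), ?_,
          h5 c (mem_sphere_zero_iff_norm.2 hc)⟩) hF₁ hO₁ fun c w t a1 a2 a3 =>
      (h3 c w t (a1.trans (min_le_left _ _)) (self_subset_cthickening K a2)
        (a3.trans (by linarith [h6.1]))).2)
  · exact key.imp fun O hO => ⟨hO.1, fun x hx => h1 x hx ▸ hO.2 x hx⟩
  · rw [interior_prod_eq]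
    exact Set.prod_mono
      ((self_subset_thickening hρ K).trans (thickening_subset_interior_cthickening _ _))
      ((closedBall_subset_ball (half_lt_self hρ)).trans ball_subset_interior_closedBall)

theorem disc (hP : StPstep) (hL : StLong) : StDisc := by
  intro X _ _ _ _ _ g hg h c hc
  have : SecondCountableTopology X := ChartedSpace.secondCountable_of_sigmaCompact C2 X
  let _ : MetricSpace X := TopologicalSpace.metrizableSpaceMetric X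
  obtain ⟨O, hO, hO'⟩ := hP ℂ X {0} ⟨isCompact_singleton, convex_singleton _⟩ rfl (fun x => g x.1)
    (hn_comp hg (by fun_prop) fun x hx => hx.1) fun c hc => by
      obtain ⟨N, -, hN, hN'⟩ := (hL X).2.1 _ (h c hc)
      exact ⟨closedBall 0 1, isCompact_closedBall _ _, singleton_subset_iff.2
        (mem_interior_iff_mem_nhds.2 (closedBall_mem_nhds _ one_pos)), _, hN' ℂ _,
        fun _ _ => ⟨mem_univ _, hN⟩⟩
  have hx : (c, (0 : ℂ)) ∈ closedBall (0 : ℂ) 1 ×ˢ ({0} : Set ℂ) :=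
    ⟨mem_closedBall_zero_iff.2 hc, rfl⟩
  exact (hL X).2.2.1 _ _ O hO _ (hO' _ hx) hx

end Vale.Agent.P290Z
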