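import Vale.Agent.P290Z.Spec2

/-! P290Z: two necks through a point -/

open Set Filter Metric
open scoped Topology ComplexConjugate

namespace Vale.Agent.P290Z

open Vale.Agent.P290 Vale.Agent.P290.H805 Vale.Agent.P290.R2.H596

namespace Slab

theorem line {a w : C2} (hw : w ≠ 0) (h : det2 a w = 0) : ∃ c : ℂ, a = c • w := by
  rw [det2, sub_eq_zero] at h
  by_cases h1 : w.1 = 0
  · have h2 : w.2 ≠ 0 := fun h2 => hw (Prod.ext h1 h2)
    refine ⟨a.2 / w.2, Prod.ext ?_ ?_⟩
    · rw [h1, mul_zero] at h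
      simp [h1, (mul_eq_zero.1 h).resolve_right h2]
    · simp [h2]
  · refine ⟨a.1 / w.1, Prod.ext (by simp [h1]) ?_⟩
    rw [Prod.smul_snd, smul_eq_mul, div_mul_eq_mul_div, h, mul_div_cancel_right₀ _ h1]

theorem not_line {l : Fin 3 → C2} (hl : LinearIndependent ℝ l) (w : C2) :
    ¬ ∀ i, ∃ c : ℂ, l i = c • w := by
  intro h
  choose c hc using h
  have e : l = ((LinearMap.toSpanSingleton ℂ C2 w).restrictScalars ℝ) ∘ c := funext hc
  rw [e] at hl
  have := (LinearIndependent.of_comp _ hl).fintype_card_le_finrank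
  simp at this

theorem exists_det {l : Fin 3 → C2} (hl : LinearIndependent ℝ l) {w : C2} (hw : w ≠ 0) :
    ∃ i, det2 (l i) w ≠ 0 := by
  by_contra h
  push Not at h
  exact not_line hl w fun i => line hw (h i)

/-- the complex direction of the real span -/
noncomputable def UU (l : Fin 3 → C2) : C2 := LL l (cj (kerV l))

theorem UU_re (l : Fin 3 → C2) : UU l = ∑ i, (2 * (kerV l i).re) • l i := by
  have h : ∀ z : ℂ, conj z = ((2 * z.re : ℝ) : ℂ) - z := fun z => by
    rw [← Complex.add_conj]; ring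
  simp only [UU, LL, cj, h, Fin.sum_univ_three, ← Complex.coe_smul]
  refine Prod.ext ?_ ?_ <;> simp [kerV, det2] <;> ring

theorem UU_im (l : Fin 3 → C2) : Complex.I • UU l = ∑ i, (2 * (kerV l i).im) • l i := by
  have h : ∀ z : ℂ, conj z = z - ((2 * z.im : ℝ) : ℂ) * Complex.I := fun z => by
    rw [← Complex.sub_conj]; ring
  have h2 : ∀ (z : ℂ) (r : ℝ) (w : C2), Complex.I • (z - (r : ℂ) * Complex.I) • w =
      (r : ℂ) • w + Complex.I • z • w := fun z r w => by
    rw [smul_smul, smul_smul, ← add_smul]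
    congr 1
    linear_combination (-(r : ℂ)) * Complex.I_mul_I
  simp only [UU, LL, cj, h, Fin.sum_univ_three, ← Complex.coe_smul, smul_add, h2]
  refine Prod.ext ?_ ?_ <;> simp [kerV, det2] <;> ring

theorem UU_ne {l : Fin 3 → C2} (hl : LinearIndependent ℝ l) : UU l ≠ 0 := by
  intro h
  have h1 := Fintype.linearIndependent_iff.1 hl _ ((UU_re l).symm.trans h)
  have h2 := Fintype.linearIndependent_iff.1 hl _ ((UU_im l).symm.trans (by rw [h, smul_zero]))
  have h3 : ∀ i, kerV l i = 0 := fun i =>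
    Complex.ext (by simpa using h1 i) (by simpa using h2 i)
  obtain ⟨i, hi⟩ := exists_det hl (hl.ne_zero 0)
  have a := h3 1
  have b := h3 2
  simp only [kerV, det2, Matrix.cons_val] at a b
  refine hi ?_
  fin_cases i
  · simp only [det2, Fin.zero_eta]; ring
  · simp only [det2, Fin.mk_one]; linear_combination -b
  · simp only [det2, Fin.reduceFinMk]; linear_combination a

theorem det_UU (l : Fin 3 → C2) :
    det2 (l 2) (UU l) = -form (kerV l) (cj (kerV l)) (ee 2) := by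
  simp only [UU, LL, Fin.sum_univ_three, form, ee]
  generalize cj (kerV l) = c
  simp [kerV, det2]
  ring

/-- cyclic rotation -/
def rot (l : Fin 3 → C2) : Fin 3 → C2 := ![l 1, l 2, l 0]

theorem UU_rot (l : Fin 3 → C2) : UU (rot l) = UU l := by
  simp only [UU, LL, cj, kerV, rot, Fin.sum_univ_three, Matrix.cons_val]
  abel

theorem exists_rot {l : Fin 3 → C2} (hl : LinearIndependent ℝ l) : ∃ l' : Fin 3 → C2,
    (∀ i, ∃ j, l' i = l j) ∧ UU l' = UU l ∧ det2 (l' 2) (UU l) ≠ 0 := by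
  obtain ⟨i, hi⟩ := exists_det hl (UU_ne hl)
  fin_cases i
  · exact ⟨rot l, fun i => by fin_cases i <;> exact ⟨_, rfl⟩, UU_rot l, hi⟩
  · exact ⟨rot (rot l), fun i => by fin_cases i <;> exact ⟨_, rfl⟩, by rw [UU_rot, UU_rot], hi⟩
  · exact ⟨l, fun i => ⟨i, rfl⟩, rfl, hi⟩

theorem kill {l : Fin 3 → C2} {φ : C2 →ₗ[ℝ] ℝ} (h : ∀ i, φ (l i) = 0) (c : ℂ) :
    φ (c • UU l) = 0 := by
  have e : c • UU l = c.re • UU l + c.im • Complex.I • UU l := by
    rw [← Complex.coe_smul, ← Complex.coe_smul, smul_smul, ← add_smul, Complex.re_add_im]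
  rw [e, UU_im, UU_re]
  simp [h]

theorem mem_lat (b : Module.Basis (Fin 4) ℝ C2) (w : C2) :
    w ∈ AddSubgroup.closure (range b) ↔ ∀ i, ∃ z : ℤ, (z : ℝ) = b.repr w i := by
  rw [← Submodule.span_int_eq_addSubgroupClosure]
  exact b.mem_span_iff_repr_mem ℤ w

theorem closed_lat (b : Module.Basis (Fin 4) ℝ C2) :
    IsClosed (AddSubgroup.closure (range b) : Set C2) := by
  have e : (AddSubgroup.closure (range b) : Set C2) =
      ⋂ i, b.coord i ⁻¹' range (Int.cast : ℤ → ℝ) := by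
    ext w
    simp only [SetLike.mem_coe, mem_lat, mem_iInter, mem_preimage, mem_range,
      Module.Basis.coord_apply]
  rw [e]
  exact isClosed_iInter fun i => Int.isClosedEmbedding_coe_real.isClosed_range.preimage
    (b.coord i).continuous_of_finiteDimensional

section fam
variable {T E : Type} [TopologicalSpace T] [TopologicalSpace E] {F : Family T E}
  {vol : E → T × C2 → ℂ} {s : T} (D : TorusDom F vol s)

theorem out_add {y w : C2} (hy : (D.N : ℂ) • y ∉ AddSubgroup.closure (range D.l))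
    (hw : w ∈ AddSubgroup.closure (range D.l)) :
    (D.N : ℂ) • (y + w) ∉ AddSubgroup.closure (range D.l) := by
  intro h
  rw [smul_add, Nat.cast_smul_eq_nsmul ℂ D.N w] at h
  exact hy ((add_mem_cancel_right (nsmul_mem hw _)).1 h)

theorem per {w : C2} (hw : w ∈ AddSubgroup.closure (range D.l)) :
    ∀ y, (D.N : ℂ) • y ∉ AddSubgroup.closure (range D.l) → D.π (y + w) = D.π y := by
  induction hw using AddSubgroup.closure_induction with
  | mem x hx => obtain ⟨i, rfl⟩ := hx; exact D.per i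
  | zero => intro y _; rw [add_zero]
  | add a b ha _ iha ihb =>
    intro y hy
    rw [← add_assoc, ihb _ (out_add D hy ha), iha y hy]
  | neg a ha ih =>
    intro y hy
    rw [← ih _ (out_add D hy (neg_mem ha)), neg_add_cancel_right]

theorem neck (hN : StNeckFam) (hv : RelForm F vol)
    (hcl : IsClosed (AddSubgroup.closure (range D.l) : Set C2)) {y : C2} {l : Fin 3 → C2}
    (hl : LinearIndependent ℝ l) (hΛ : ∀ i, l i ∈ AddSubgroup.closure (range D.l))
    {φ : C2 →ₗ[ℝ] ℝ} (h0 : ∀ i, φ (l i) = 0)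
    (h1 : ∀ w ∈ AddSubgroup.closure (range D.l), ∃ z : ℤ, (z : ℝ) = φ w)
    (h2 : ¬ ∃ z : ℤ, (z : ℝ) = D.N * φ y) :
    ∃ e, det2 e (UU l) ≠ 0 ∧ Tubes F s D.π y e (UU l) := by
  obtain ⟨l', e1, e2, e3⟩ := exists_rot hl
  refine ⟨l' 2, e3, ?_⟩
  rw [← e2]
  refine hN T E F vol hv s D.π l' y {y | (D.N : ℂ) • y ∉ AddSubgroup.closure (range D.l)} D.J₀
    (hcl.isOpen_compl.preimage (continuous_const_smul (D.N : ℂ))) ?_ D.J₀_ne D.hol
    (fun i w hw _ => ?_) ?_
  · rintro _ ⟨t, -, rfl⟩ h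
    refine h2 ?_
    obtain ⟨z, hz⟩ := h1 _ h
    refine ⟨z, hz.trans ?_⟩
    have e4 : ∀ i, φ (l' i) = 0 := fun i => by
      obtain ⟨j, hj⟩ := e1 i
      rw [hj, h0]
    rw [Nat.cast_smul_eq_nsmul, map_nsmul, map_add, map_sum]
    simp [Complex.coe_smul, e4]
  · obtain ⟨j, hj⟩ := e1 i
    exact per D (hj ▸ hΛ j) w hw
  · rw [← neg_ne_zero, ← det_UU, e2]
    exact e3

end fam

theorem plane {a b u : C2} (hd : det2 a b ≠ 0) {x x' z z' : ℝ} (h1 : u = x • a + x' • b)
    (h2 : Complex.I • u = z • a + z' • b) : u = 0 := by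
  have e1 : ((z : ℂ) - Complex.I * x) * det2 a b = 0 := by
    have a1 := congrArg Prod.fst h2
    have a2 := congrArg Prod.snd h2
    simp only [h1, Prod.smul_fst, Prod.smul_snd, Prod.fst_add, Prod.snd_add, smul_eq_mul,
      Complex.real_smul] at a1 a2
    rw [det2]
    linear_combination a2 * b.1 - a1 * b.2
  have e2 : ((z' : ℂ) - Complex.I * x') * det2 a b = 0 := by
    have a1 := congrArg Prod.fst h2
    have a2 := congrArg Prod.snd h2
    simp only [h1, Prod.smul_fst, Prod.smul_snd, Prod.fst_add, Prod.snd_add, smul_eq_mul,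
      Complex.real_smul] at a1 a2
    rw [det2]
    linear_combination a1 * a.2 - a2 * a.1
  have e3 := congrArg Complex.im ((mul_eq_zero.1 e1).resolve_right hd)
  have e4 := congrArg Complex.im ((mul_eq_zero.1 e2).resolve_right hd)
  simp at e3 e4
  rw [h1, e3, e4, zero_smul, zero_smul, add_zero]

theorem order {l : Fin 4 → C2} (hl : LinearIndependent ℝ l) (i : Fin 4) :
    ∃ f : Fin 4 → Fin 4, Function.Bijective f ∧ f 0 = i ∧ det2 (l (f 2)) (l (f 3)) ≠ 0 := by
  have h : ∀ i : Fin 4, ∃ j a b : Fin 4, Function.Injective ![j, a, b] ∧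
      Function.Bijective ![i, j, a, b] ∧ Function.Bijective ![i, a, j, b] := by decide
  obtain ⟨j, a, b, h1, h2, h3⟩ := h i
  obtain ⟨k, hk⟩ := exists_det (hl.comp _ h1) (hl.ne_zero b)
  fin_cases k
  · exact ⟨_, h3, rfl, hk⟩
  · exact ⟨_, h2, rfl, hk⟩
  · exact absurd (by simp [det2, mul_comm]) hk

end Slab

open Slab in
theorem slab (hN : StNeckFam) (h2 : StTwo) : StSlab := by
  intro T E _ _ _ F hF vol hv s D y hy
  have hcard : Fintype.card (Fin 4) = Module.finrank ℝ C2 := by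
    simp [Module.finrank_prod]
  obtain ⟨b₀, hb₀⟩ : ∃ b : Module.Basis (Fin 4) ℝ C2, ⇑b = D.l :=
    ⟨_, coe_basisOfLinearIndependentOfCardEqFinrank D.indep hcard⟩
  have hcl : IsClosed (AddSubgroup.closure (range D.l) : Set C2) := hb₀ ▸ closed_lat b₀
  obtain ⟨i, hi⟩ : ∃ i, ¬ ∃ z : ℤ, (z : ℝ) = D.N * b₀.repr y i := by
    by_contra h
    push Not at h
    refine hy (hb₀ ▸ (mem_lat b₀ _).2 fun i => ?_)
    rw [Nat.cast_smul_eq_nsmul, map_nsmul, Finsupp.smul_apply, nsmul_eq_mul]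
    exact h i
  obtain ⟨f, hf, f0, hdet⟩ := order D.indep i
  obtain ⟨b, hb, hb'⟩ : ∃ b : Module.Basis (Fin 4) ℝ C2, (∀ j, b j = D.l (f j)) ∧
      ∀ w j, b.repr w j = b₀.repr w (f j) :=
    ⟨b₀.reindex (Equiv.ofBijective f hf).symm, fun j => by simp [hb₀], fun w j => by simp⟩
  have hΛ : ∀ j, b j ∈ AddSubgroup.closure (range D.l) := fun j =>
    AddSubgroup.subset_closure ⟨_, (hb j).symm⟩
  have hint : ∀ w ∈ AddSubgroup.closure (range D.l), ∀ j, ∃ z : ℤ, (z : ℝ) = b.repr w j :=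
    fun w hw j => hb' w j ▸ (mem_lat b₀ w).1 (hb₀ ▸ hw) (f j)
  rw [← f0, ← hb'] at hi
  rw [← hb, ← hb] at hdet
  obtain ⟨k, hk0, hk⟩ : ∃ k : ℤ, k ≠ 0 ∧ ¬ ∃ z : ℤ, (z : ℝ) =
      D.N * (b.repr y 0 + k * b.repr y 1) := by
    by_contra h
    push Not at h
    obtain ⟨z1, e1⟩ := h 1 one_ne_zero
    obtain ⟨z2, e2⟩ := h 2 two_ne_zero
    refine hi ⟨2 * z1 - z2, ?_⟩
    push_cast at e1 e2 ⊢
    linear_combination 2 * e1 - e2
  have i1 : LinearIndependent ℝ ![b 1, b 2, b 3] := by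
    have := b.linearIndependent.comp ![1, 2, 3] (by decide)
    convert this using 1
    funext j
    fin_cases j <;> rfl
  have i2 : LinearIndependent ℝ ![b 1 - (k : ℝ) • b 0, b 2, b 3] := by
    refine Fintype.linearIndependent_iff.2 fun g hg j => ?_
    have e1 := congrArg (fun w => b.repr w 1) hg
    have e2 := congrArg (fun w => b.repr w 2) hg
    have e3 := congrArg (fun w => b.repr w 3) hg
    simp [Fin.sum_univ_three] at e1 e2 e3
    fin_cases j
    exacts [e1, e2, e3]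
  have z1 : ∀ j, b.coord 0 (![b 1, b 2, b 3] j) = 0 := fun j => by fin_cases j <;> simp
  have z2 : ∀ j, (b.coord 0 + (k : ℝ) • b.coord 1) (![b 1 - (k : ℝ) • b 0, b 2, b 3] j) = 0 :=
    fun j => by fin_cases j <;> simp
  obtain ⟨e, d1, t1⟩ := neck D hN hv hcl (y := y) i1 (fun j => by fin_cases j <;> exact hΛ _) z1
    (fun w hw => hint w hw 0) hi
  obtain ⟨e', d2, t2⟩ := neck D hN hv hcl (y := y) i2 (fun j => by
      fin_cases j
      exacts [sub_mem (hΛ 1) (Int.cast_smul_eq_zsmul ℝ k (b 0) ▸ zsmul_mem (hΛ 0) k), hΛ 2, hΛ 3]) z2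
    (fun w hw => by
      obtain ⟨a, ha⟩ := hint w hw 0
      obtain ⟨c, hc⟩ := hint w hw 1
      exact ⟨a + k * c, by simp [ha, hc]⟩) (by simpa using hk)
  refine h2 T E F hF s D.π y e _ e' _ ?_ ?_ d1 d2 (fun h => UU_ne i1 ?_) t1 t2
  · filter_upwards [(hcl.isOpen_compl.preimage (continuous_const_smul (D.N : ℂ))).mem_nhds hy]
      with w hw
    exact (D.hol w hw).1
  · intro h
    refine D.J₀_ne ?_
    rw [← (D.hol y hy).2, jac, h, mul_zero]
  · obtain ⟨c, hc⟩ := line (UU_ne i2) h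
    have key : ∀ a : ℂ, a • UU ![b 1, b 2, b 3] = b.repr (a • UU ![b 1, b 2, b 3]) 2 • b 2 +
        b.repr (a • UU ![b 1, b 2, b 3]) 3 • b 3 := by
      intro a
      have e1 := kill z1 a
      have e2 := kill z2 (a * c)
      rw [mul_smul, ← hc] at e2
      simp only [LinearMap.add_apply, LinearMap.smul_apply, e1, zero_add, smul_eq_mul,
        mul_eq_zero, Int.cast_eq_zero, hk0, false_or] at e2
      rw [Module.Basis.coord_apply] at e1 e2
      have e3 := b.sum_repr (a • UU ![b 1, b 2, b 3])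
      rw [Fin.sum_univ_four, e1, e2, zero_smul, zero_smul, zero_add, zero_add] at e3
      exact e3.symm
    have k1 := key 1
    rw [one_smul] at k1
    exact plane hdet k1 (key Complex.I)

end Vale.Agent.P290Z
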