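import Vale.Agent.P290Z.Spec1

/-!
Theorem B from the approximation on compact convex sets.
-/

open Set Filter Metric
open scoped Topology Manifold ContDiff

namespace Vale.Agent.P290Z

open Vale.Agent.P290

theorem thmB (hP : StPoly) (hC : StConv) : StB := by
  intro X _ _ _ _ _ hX
  have : SecondCountableTopology X := ChartedSpace.secondCountable_of_sigmaCompact C2 X
  let _ : MetricSpace X := TopologicalSpace.metrizableSpaceMetric X
  refine H801.isOka_of_local (fun _ => {K | Good K}) (fun _ _ h => h)
    (fun _ K _ h _ h' => ⟨K, h, Subset.rfl, h'⟩) fun m K hK L hL _ f hf d hd hd0 ε hε => ?_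
  obtain ⟨δ, hδ, h⟩ := H580.unif_nbhd hK.1 f (fun z hz => (hf.self_of_nhdsSet z hz).1)
    {p : (Fin m → ℂ) × X | d p.2 (f p.1) < ε} fun z hz => by
      have c1 : ContinuousAt (fun p : (Fin m → ℂ) × X => d p.2 (f p.1)) (z, f z) :=
        ContinuousAt.comp (g := fun q : X × X => d q.1 q.2)
          (f := fun p : (Fin m → ℂ) × X => (p.2, f p.1)) hd.continuousAt
          (continuous_snd.continuousAt.prodMk (ContinuousAt.comp (g := f) (f := Prod.fst)
            (hf.self_of_nhdsSet z hz).1 continuous_fst.continuousAt))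
      exact c1.eventually_lt_const ((hd0 _).trans_lt hε)
  obtain ⟨F, h1, h2⟩ := hC X (hP X hX) _ K hK f (hf.mono fun _ h => h.md) L hL.1 δ hδ
  exact ⟨F, h1.mono fun _ h => All.HolV.of_md h, fun z hz => h z hz _ (h2 z hz)⟩

end Vale.Agent.P290Z
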