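import Vale.Agent.P290Z.Spec1

/-! P290Z: THROW -/

open Set Filter Metric
open scoped Topology Manifold ContDiff

namespace Vale.Agent.P290Z

open Vale.Agent.P290

namespace Throw

/-- uniform continuity near a compact set, inside a neighbourhood -/
theorem unif {Y Y' : Type} [PseudoMetricSpace Y] [PseudoMetricSpace Y'] {K : Set Y}
    (hK : IsCompact K) {f : Y → Y'} (hf : ∀ a ∈ K, ContinuousAt f a) {N : Set Y}
    (hN : N ∈ 𝓝ˢ K) {ε : ℝ} (hε : 0 < ε) :
    ∃ δ > 0, ∀ a ∈ K, ∀ b, dist b a < δ → b ∈ N ∧ dist (f b) (f a) < ε := by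
  obtain ⟨δ, hδ, h⟩ := Metric.mem_uniformity_dist.1
    (hK.uniformContinuousAt_of_continuousAt f hf (dist_mem_uniformity hε))
  obtain ⟨U, hU, hKU, hUN⟩ := mem_nhdsSet_iff_exists.1 hN
  obtain ⟨δ', hδ', h'⟩ := hK.exists_thickening_subset_open hU hKU
  refine ⟨min δ δ', lt_min hδ hδ', fun a ha b hb => ⟨hUN (h' (mem_thickening_iff.2
    ⟨a, ha, hb.trans_le (min_le_right _ _)⟩)), ?_⟩⟩
  rw [dist_comm] at hb ⊢
  exact h (hb.trans_le (min_le_left _ _)) ha

variable {V W X : Type} [NormedAddCommGroup V] [NormedSpace ℂ V] [NormedAddCommGroup W]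
  [NormedSpace ℂ W]

/-- a slightly larger zone -/
theorem exists_zone [FiniteDimensional ℂ V] {L U : Set V} (hL : IsCompact L) {u : V → ℝ}
    (hu : Continuous u) {a b : ℝ} (hU : IsOpen U) (h : ∀ x ∈ L, a ≤ u x → u x ≤ b → x ∈ U) :
    ∃ η > (0 : ℝ), ∀ x ∈ cthickening η L, a - η ≤ u x → u x ≤ b + η → x ∈ U := by
  have := FiniteDimensional.proper ℂ V
  have hc : Continuous fun x => max (infDist x L) (max (a - u x) (u x - b)) := by
    have := continuous_infDist_pt L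
    fun_prop
  rcases L.eq_empty_or_nonempty with rfl | hne
  · exact ⟨1, one_pos, by simp⟩
  obtain ⟨m, hm, h1⟩ := ((hL.cthickening (r := 1)).diff hU).exists_forall_le' hc.continuousOn
    (a := 0) fun x hx => by
      by_contra h0
      simp only [not_lt, max_le_iff, sub_nonpos] at h0
      exact hx.2 (h x ((hL.isClosed.mem_iff_infDist_zero hne).2
        (le_antisymm h0.1 infDist_nonneg)) h0.2.1 h0.2.2)
  refine ⟨min (m / 2) 1, lt_min (half_pos hm) one_pos, fun x hx h2 h3 => ?_⟩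
  by_contra hxU
  have h4 := h1 x ⟨cthickening_mono (min_le_right _ _) L hx, hxU⟩
  have h5 : infDist x L ≤ min (m / 2) 1 :=
    ENNReal.toReal_le_of_le_ofReal (lt_min (half_pos hm) one_pos).le (mem_cthickening_iff.1 hx)
  have h6 := min_le_left (m / 2) 1
  simp only [le_max_iff] at h4
  rcases h4 with h4 | h4 | h4 <;> linarith

variable [TopologicalSpace X] [ChartedSpace C2 X]

theorem md_comp {f : V → X} {q : W → V} {w : W} (h : MD f (q w)) (hq : DifferentiableAt ℂ q w) :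
    MD (fun u => f (q u)) w := MDifferentiableAt.comp w h hq.mdifferentiableAt

theorem ev_md {f : V → X} {q : W → V} {g : W → X} {w : W} (h : ∀ᶠ z in 𝓝 (q w), MD f z)
    (hq : ∀ᶠ z in 𝓝 w, DifferentiableAt ℂ q z) (e : g =ᶠ[𝓝 w] fun u => f (q u)) :
    ∀ᶠ z in 𝓝 w, MD g z := by
  filter_upwards [hq.self_of_nhds.continuousAt.eventually h, hq, e.eventually_nhds] with z a b c
  exact MDifferentiableAt.congr_of_eventuallyEq (md_comp a b) c

end Throw

open Throw in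
theorem throw (hAp : StApprox) (hGl : StGlue) (hInv : StInv) : StThrow := by
  intro V X _ _ _ _ _ _ L hL h hh G B O hG hZ hB hT ε hε
  have := FiniteDimensional.proper ℂ V
  obtain ⟨hO, S, ψ, hS, hψ, hψO, hS'⟩ := hT
  have hu : Continuous fun x => (h x).re := Complex.continuous_re.comp hh.continuous
  have hA : IsCompact (L ∩ {x | -1 ≤ (h x).re}) :=
    hL.1.inter_right (isClosed_le continuous_const hu)
  have hZc : IsCompact (L ∩ {x | -1 ≤ (h x).re ∧ (h x).re ≤ -1 / 2}) :=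
    hL.1.inter_right ((isClosed_le continuous_const hu).inter (isClosed_le hu continuous_const))
  obtain ⟨ρ, hρ, -, U, M, χ, hU, hZU, hM, hχ, hχc, hUG, hMG⟩ := hInv V X _ hZc G
    (hG.filter_mono (nhdsSet_mono fun x hx => And.intro (And.intro hx.1.1 hx.1.2.1) hx.2))
    (fun x hx => (hZ x hx.1 hx.2.1 hx.2.2).1) 1 one_pos
  have hGc : ContinuousOn G ((U ∩ interior B) ×ˢ ball 0 ρ) := fun y hy =>
    (hUG y.1 hy.1.1 y.2 (mem_ball_zero_iff.1 hy.2)).1.continuousAt.continuousWithinAt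
  have hN := (continuousOn_fst.prodMk hGc).isOpen_inter_preimage
    ((hU.inter isOpen_interior).prod isOpen_ball) hO
  obtain ⟨U₂, U₃, hU₂, hU₃, hZ₂, hZ₃, hUN⟩ := generalized_tube_lemma hZc
    (isCompact_singleton (x := (0 : C2))) hN (by
      rintro ⟨x, s⟩ ⟨hx, rfl⟩
      exact ⟨⟨⟨hZU hx, hB ⟨hx.1, hx.2.2⟩⟩, mem_ball_self hρ⟩, (hZ x hx.1 hx.2.1 hx.2.2).2⟩)
  obtain ⟨r, hr, hrU⟩ := nhds_basis_closedBall.mem_iff.1 (hU₃.mem_nhds (hZ₃ rfl))
  obtain ⟨η, hη, hzone⟩ := exists_zone hL.1 hu hU₂ fun x hx h1 h2 => hZ₂ ⟨hx, h1, h2⟩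
  have hL' : Good (cthickening η L ×ˢ closedBall (0 : C2) r) :=
    Good.prod ⟨hL.1.cthickening, hL.2.cthickening η⟩
      ⟨isCompact_closedBall _ _, convex_closedBall _ _⟩
  set T : Set (V × C2) := cthickening η L ×ˢ closedBall (0 : C2) r ∩
    {y | -1 - η ≤ (h y.1).re ∧ (h y.1).re ≤ -1 / 2 + η} with hTdef
  have hTc : IsCompact T := hL'.1.inter_right
    ((isClosed_le continuous_const (hu.comp continuous_fst)).inter
      (isClosed_le (hu.comp continuous_fst) continuous_const))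
  have hTN := fun y (hy : y ∈ T) => hUN (show y ∈ U₂ ×ˢ U₃ from
    ⟨hzone y.1 hy.1.1 hy.2.1 hy.2.2, hrU hy.1.2⟩)
  have hTG := fun y (hy : y ∈ T) => hUG y.1 (hTN y hy).1.1.1 y.2 (mem_ball_zero_iff.1 (hTN y hy).1.2)
  set W : Set V := thickening η L ∩ {x | -1 - η < (h x).re ∧ (h x).re < -1 / 2 + η} with hWdef
  have hW : IsOpen W := isOpen_thickening.inter
    ((isOpen_lt continuous_const hu).inter (isOpen_lt hu continuous_const))
  have hZW : L ∩ {x | -1 ≤ (h x).re ∧ (h x).re ≤ -1 / 2} ⊆ W := fun x hx =>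
    ⟨self_subset_thickening hη L hx.1, by linarith [hx.2.1], by linarith [hx.2.2]⟩
  have hWT : W ×ˢ ball (0 : C2) r ⊆ T := fun y hy =>
    ⟨⟨thickening_subset_cthickening _ _ hy.1.1, ball_subset_closedBall hy.2⟩, hy.1.2.1.le,
      hy.1.2.2.le⟩
  -- the precisions
  obtain ⟨ε₁, hε₁, h₁⟩ := unif (hA.prod (isCompact_singleton (x := (0 : C2))))
    (fun y hy => (hG.self_of_nhdsSet y hy).continuousAt) hG.eventually_nhdsSet hε
  obtain ⟨δ, hδ, hglue⟩ := hGl V L hL h hh (-1) (-1 / 2) (by norm_num) W hW hZW r hr (min ε₁ r)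
    (lt_min hε₁ hr)
  obtain ⟨δ₁, hδ₁, h₂⟩ := unif (hTc.image_of_continuousOn (f := fun y => (y.1, G y))
    (continuousOn_fst.prodMk fun y hy => (hTG y hy).1.continuousAt.continuousWithinAt))
    (f := χ) (by
      rintro _ ⟨y, hy, rfl⟩
      exact hχc.continuousAt (hM.mem_nhds (hTG y hy).2.2.1))
    (hM.mem_nhdsSet.2 (by
      rintro _ ⟨y, hy, rfl⟩
      exact (hTG y hy).2.2.1)) hδ
  have hTB : ∀ y ∈ T, y.1 ∈ B := fun y hy => interior_subset (hTN y hy).1.1.2
  obtain ⟨δ₂, hδ₂, h₃⟩ := unif ((hTc.image continuous_fst).prod (isCompact_closedBall (0 : C2) 1))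
    (f := S) (by
      rintro ⟨_, t⟩ ⟨⟨y, hy, rfl⟩, ht⟩
      exact (hS.self_of_nhdsSet (y.1, t) ⟨hTB y hy, ht⟩).continuousAt) univ_mem (half_pos hδ₁)
  obtain ⟨H, hH, hHa⟩ := hAp (V × C2) _ hL' (fun y => h y.1) (hh.comp differentiable_fst)
    (-1 - η) (-1 / 2 + η) (fun y => ψ (y.1, G y))
    (eventually_nhdsSet_iff_exists.2 ⟨_, hN, hTN, fun y hy => hψ _ Prod.fst G y differentiableAt_fst
      (hUG y.1 hy.1.1.1 y.2 (mem_ball_zero_iff.1 hy.1.2)).1 hy.2⟩)
    (min δ₂ (1 / 2)) (lt_min hδ₂ one_half_pos)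
  obtain ⟨R, hR⟩ := hL'.1.exists_bound_of_continuousOn hH.continuous.continuousOn
  obtain ⟨S', hS₁, hS₂⟩ := hS' R (δ₁ / 2) (half_pos hδ₁)
  have hclose : ∀ y ∈ T, (y.1, S' (y.1, H y)) ∈ M ∧ ‖χ (y.1, S' (y.1, H y)) - y.2‖ ≤ δ := by
    intro y hy
    have a1 := hHa y hy.1 hy.2.1 hy.2.2
    have a2 := hψO _ (hTN y hy).2
    have a3 : ‖H y‖ ≤ 1 := by
      have := norm_le_insert' (H y) (ψ (y.1, G y))
      linarith [a2.1, min_le_right δ₂ (1 / 2)]
    have a4 := (h₃ (y.1, ψ (y.1, G y)) ⟨⟨y, hy, rfl⟩, mem_closedBall_zero_iff.2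
      (by linarith [a2.1])⟩ (y.1, H y) (by
        rw [dist_prod_same_left, dist_eq_norm]
        exact a1.trans_le (min_le_left _ _))).2
    rw [a2.2] at a4
    have a5 := h₂ (y.1, G y) ⟨y, hy, rfl⟩ (y.1, S' (y.1, H y)) (by
      rw [dist_prod_same_left]
      have := dist_triangle (S' (y.1, H y)) (S (y.1, H y)) (G y)
      linarith [hS₂ y.1 (hTB y hy) (H y) a3])
    rw [(hTG y hy).2.2.2, dist_eq_norm] at a5
    exact ⟨a5.1, a5.2.le⟩
  have hq : Differentiable ℂ fun y : V × C2 => (y.1, H y) := differentiable_fst.prodMk hH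
  obtain ⟨α, τ, hα, hτ, hα₁, hτ₁, hατ⟩ := hglue (fun y => χ (y.1, S' (y.1, H y)) - y.2)
    (fun y hy => ((hχ _ Prod.fst (fun y : V × C2 => S' (y.1, H y)) y differentiableAt_fst
      (md_comp (hS₁.self_of_nhdsSet (y.1, H y) ⟨hTB y (hWT hy), mem_closedBall_zero_iff.2
        (hR y (hWT hy).1)⟩) (hq y)) (hclose y (hWT hy)).1).sub
          differentiableAt_snd).differentiableWithinAt)
    fun y hy => (hclose y (hWT hy)).2
  classical
  let F : V → X := fun x => if -3 / 4 < (h x).re then G (x, α x) else S' (x, H (x, τ x))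
  have hFA : ∀ x ∈ L, -1 ≤ (h x).re → F =ᶠ[𝓝 x] fun z => G (z, α z) := by
    intro x hx h1
    by_cases h2 : -3 / 4 < (h x).re
    · filter_upwards [(isOpen_lt continuous_const hu).mem_nhds h2] with z hz
      exact if_pos hz
    have h3 : (h x).re ≤ -1 / 2 := by linarith [not_lt.1 h2]
    have h4 : ContinuousAt τ x := (hτ.self_of_nhdsSet x ⟨hx, h3⟩).continuousAt
    filter_upwards [eventually_nhdsSet_iff_forall.1 hατ x ⟨hx, h1, h3⟩, hW.mem_nhds (hZW ⟨hx, h1, h3⟩),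
      h4.norm.eventually (gt_mem_nhds ((hτ₁ x hx h3).trans_le (min_le_right _ _)))] with z a b c
    have h5 := (hMG _ (hclose (z, τ z) (hWT ⟨b, mem_ball_zero_iff.2 c⟩)).1).2.2
    have h6 : α z = χ (z, S' (z, H (z, τ z))) := sub_left_injective a
    simp only [F]
    split_ifs
    · rfl
    · rw [h6]
      exact h5.symm
  have hGA : ∀ x ∈ L, -1 ≤ (h x).re → _ := fun x hx h1 => h₁ (x, 0) ⟨⟨hx, h1⟩, rfl⟩ (x, α x) (by
    rw [dist_prod_same_left, dist_zero_right]
    exact (hα₁ x hx h1).trans_le (min_le_left _ _))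
  refine ⟨F, eventually_nhdsSet_iff_forall.2 fun x hx => ?_, fun x hx => ?_⟩
  · by_cases h1 : -1 ≤ (h x).re
    · exact ev_md (q := fun z => (z, α z)) (hGA x hx h1).1
        ((eventually_nhdsSet_iff_forall.1 hα x ⟨hx, h1⟩).mono fun z hz =>
          differentiableAt_id.prodMk hz) (hFA x hx h1)
    · have h2 : (h x).re < -3 / 4 := by linarith [not_le.1 h1]
      have h3 : (h x).re ≤ -1 / 2 := by linarith
      refine ev_md (q := fun z => (z, H (z, τ z))) (eventually_nhdsSet_iff_forall.1 hS₁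
        (x, H (x, τ x)) ⟨interior_subset (hB ⟨hx, h3⟩), mem_closedBall_zero_iff.2 (hR (x, τ x)
          ⟨self_subset_cthickening L hx, mem_closedBall_zero_iff.2
            ((hτ₁ x hx h3).le.trans (min_le_right _ _))⟩)⟩)
        ((eventually_nhdsSet_iff_forall.1 hτ x ⟨hx, h3⟩).mono fun z hz =>
          (hq _).comp z (differentiableAt_id.prodMk hz)) ?_
      filter_upwards [(isOpen_lt hu continuous_const).mem_nhds h2] with z hz
      exact if_neg (not_lt.2 (le_of_lt hz))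
  · rw [(hFA x hx.1 hx.2).self_of_nhds]
    exact (hGA x hx.1 hx.2).2

end Vale.Agent.P290Z
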