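import Vale.Agent.P290Z.Spec2

/-!
# P290: the set `Om` and etale maps
-/

open Set Filter Metric
open scoped Topology Manifold ContDiff

namespace Vale.Agent.P290Z

open Vale.Agent.P290

namespace Trn

variable {X Y : Type} [TopologicalSpace X] [ChartedSpace C2 X] [TopologicalSpace Y]
  [ChartedSpace C2 Y]

theorem hol_md {b : X → Y} {x : X} (h : All.Hol b x) :
    MDifferentiableAt 𝓘(ℂ, C2) 𝓘(ℂ, C2) b x := by
  rw [mdifferentiableAt_iff]
  refine ⟨h.1, ?_⟩
  simpa [writtenInExtChartAt, Function.comp_def, differentiableWithinAt_univ] using h.2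

theorem etale_comp {b : X → Y} {S : C2 → X} {v : C2} (hb : All.Hol b (S v)) (hS : All.Etale S v)
    (hd : (fderiv ℂ (fun w => chartAt C2 (b (S v)) (b ((chartAt C2 (S v)).symm w)))
      (chartAt C2 (S v) (S v))).det ≠ 0) : All.Etale (fun z => b (S z)) v := by
  have h1 : (fun z => chartAt C2 (b (S v)) (b (S z))) =ᶠ[𝓝 v]
      (fun w => chartAt C2 (b (S v)) (b ((chartAt C2 (S v)).symm w))) ∘
        fun z => chartAt C2 (S v) (S z) := by
    filter_upwards [hS.1.eventually (chart_source_mem_nhds C2 (S v))] with z hz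
    simp only [Function.comp_apply, (chartAt C2 (S v)).left_inv hz]
  refine ⟨ContinuousAt.comp (f := S) hb.1 hS.1, ?_, ?_⟩
  · exact (hb.2.comp v hS.2.1).congr_of_eventuallyEq h1
  · rw [h1.fderiv_eq, fderiv_comp v hb.2 hS.2.1, ContinuousLinearMap.det,
      ContinuousLinearMap.toLinearMap_comp, LinearMap.det_comp]
    exact mul_ne_zero hd hS.2.2

end Trn

theorem trans : StTrans := by
  refine ⟨fun X Y _ _ _ _ _ _ b hb x ⟨S, h1, h2, h3, h4⟩ hd => ?_, fun X _ _ _ G hG he => ?_⟩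
  · subst h3
    refine ⟨fun z => b (S z), h1.mono fun z hz => (Trn.hol_md (hb _)).comp z hz,
      Trn.etale_comp (hb _) h2 hd, rfl, fun R 𝒪 h𝒪 => ?_⟩
    obtain ⟨S', s1, s2⟩ := h4 R ((fun p : C2 × X => (p.1, b p.2)) ⁻¹' 𝒪) fun t ht =>
      (continuousAt_fst.prodMk (ContinuousAt.comp (f := Prod.snd) (hb _).1
        continuousAt_snd)).preimage_mem_nhds (h𝒪 t ht)
    exact ⟨fun z => b (S' z), s1.mono fun z hz => (Trn.hol_md (hb _)).comp z hz, s2⟩
  · have h1 : ∀ R : ℝ, HN (closedBall (0 : C2) R) G := fun R =>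
      Eventually.of_forall fun z => Trn.hol_md (hG z)
    exact ⟨G, h1 1, he, rfl, fun R 𝒪 h𝒪 => ⟨G, h1 R, fun t ht => mem_of_mem_nhds (h𝒪 t ht)⟩⟩

end Vale.Agent.P290Z
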