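import Vale.Agent.P290Z.Spec2
import Vale.Agent.P290Z.Tube.A

/-! P290Z, CLOSED and TUBE. -/

set_option linter.all false

open Set Filter Metric MeasureTheory Asymptotics
open scoped Topology ComplexConjugate

namespace Vale.Agent.P290Z

open Vale.Agent.P290

theorem closed : StClosed := by
  intro W _ _ _ y J x hy hJ a b c
  have h2 : ContDiffAt ℂ 2 y x := contDiffAt_of_eventually hy 2
  have hs := h2.isSymmSndFDerivAt (by simp)
  have hd : DifferentiableAt ℂ (fderiv ℂ y) x :=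
    (h2.fderiv_right (m := 1) (by norm_num)).differentiableAt one_ne_zero
  have h0 := hy.self_of_nhds
  have h3 : ∀ b, HasFDerivAt (fun z => fderiv ℂ y z b) ((fderiv ℂ (fderiv ℂ y) x).flip b) x :=
    fun b => by simpa using hd.hasFDerivAt.clm_apply (hasFDerivAt_const b x)
  have key : ∀ a b c, fderiv ℂ (fun z => J (y z) * det2 (fderiv ℂ y z b) (fderiv ℂ y z c)) x a =
      fderiv ℂ J (y x) (fderiv ℂ y x a) * det2 (fderiv ℂ y x b) (fderiv ℂ y x c) +
        J (y x) * (det2 (fderiv ℂ (fderiv ℂ y) x a b) (fderiv ℂ y x c) +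
          det2 (fderiv ℂ y x b) (fderiv ℂ (fderiv ℂ y) x a c)) := by
    intro a b c
    have h4 := (hJ.hasFDerivAt.comp x h0.hasFDerivAt).mul
      (((h3 b).fst.mul (h3 c).snd).sub ((h3 b).snd.mul (h3 c).fst))
    rw [show fderiv ℂ (fun z => J (y z) * det2 (fderiv ℂ y z b) (fderiv ℂ y z c)) x = _ from
      h4.fderiv]
    simp [det2]
    ring
  have h5 : ∀ u : C2, fderiv ℂ J (y x) u =
      u.1 * fderiv ℂ J (y x) (1, 0) + u.2 * fderiv ℂ J (y x) (0, 1) := fun u => by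
    rw [← smul_eq_mul, ← smul_eq_mul, ← map_smul, ← map_smul, ← map_add]
    simp
  rw [key, key, key, h5 (fderiv ℂ y x a), h5 (fderiv ℂ y x b), h5 (fderiv ℂ y x c), hs b a, hs c a,
    hs c b]
  simp only [det2]
  ring

namespace Tb

/-- the coordinates adapted to `v` -/
noncomputable def Phi (v : C3) : ℂ × C2 →L[ℂ] C3 :=
  (ContinuousLinearMap.fst ℂ ℂ C2).smulRight (ee 2) +
    ((ContinuousLinearMap.fst ℂ ℂ ℂ).comp (ContinuousLinearMap.snd ℂ ℂ C2)).smulRight (cj v) +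
    ((ContinuousLinearMap.snd ℂ ℂ ℂ).comp (ContinuousLinearMap.snd ℂ ℂ C2)).smulRight v

theorem Phi_apply (v : C3) (p : ℂ × C2) :
    Phi v p = p.1 • ee 2 + p.2.1 • cj v + p.2.2 • v := rfl

/-- the projection to the planes -/
noncomputable def pr : ℂ × C2 →L[ℂ] ℂ × C2 :=
  (ContinuousLinearMap.inr ℂ ℂ C2).comp (ContinuousLinearMap.snd ℂ ℂ C2)

theorem pr_apply (p : ℂ × C2) : pr p = (0, p.2) := rfl

/-- the contraction of the two-form with the last unit vector -/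
noncomputable def Fm (a : C3) : C3 →L[ℂ] ℂ :=
  a 1 • ContinuousLinearMap.proj 0 - a 0 • ContinuousLinearMap.proj 1

theorem Fm_apply (a x : C3) : Fm a x = form a (ee 2) x := by
  simp [Fm, form, ee]
  ring

theorem norm_ee (i : Fin 3) : ‖ee i‖ = 1 := by simp [ee, Pi.norm_single]

theorem norm_cj (v : C3) : ‖cj v‖ ≤ ‖v‖ :=
  (pi_norm_le_iff_of_nonneg (norm_nonneg v)).2 fun i => by
    simpa [cj] using norm_le_pi_norm v i

theorem Phi_mem {v : C3} {h r : ℝ} (hr : r * (1 + ‖v‖) ≤ h) {p : ℂ × C2} (h1 : ‖p.1‖ < r)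
    (h2 : ‖p.2.2 - conj p.2.1‖ < r) : Phi v p ∈ Str h := by
  intro i
  have e : (Phi v p i).im = (p.1 * ee 2 i).im + ((p.2.2 - conj p.2.1) * v i).im := by
    simp [Phi_apply, cj]
    ring
  have a1 : |(p.1 * ee 2 i).im| ≤ ‖p.1‖ := by
    refine (Complex.abs_im_le_norm _).trans ?_
    rw [norm_mul]
    exact mul_le_of_le_one_right (norm_nonneg _) (norm_ee 2 ▸ norm_le_pi_norm (ee 2) i)
  have a2 : |((p.2.2 - conj p.2.1) * v i).im| ≤ r * ‖v‖ := by
    refine (Complex.abs_im_le_norm _).trans ?_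
    rw [norm_mul]
    exact mul_le_mul h2.le (norm_le_pi_norm v i) (norm_nonneg _) ((norm_nonneg _).trans h1.le)
  rw [e]
  refine (abs_add_le _ _).trans_lt ?_
  linarith

theorem det2_zero {n a b : C2} (h : det2 a b ≠ 0) (h1 : det2 n a = 0) (h2 : det2 n b = 0) :
    n = 0 := by
  unfold det2 at *
  refine Prod.ext (mul_left_cancel₀ h ?_) (mul_left_cancel₀ h ?_)
  · simp only [Prod.fst_zero]
    linear_combination a.1 * h2 - b.1 * h1
  · simp only [Prod.snd_zero]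
    linear_combination a.2 * h2 - b.2 * h1

theorem core (v : C3) {κ : ℂ} (hκ : κ ≠ 0) {h r σ : ℝ} (hr : r * (1 + ‖v‖) ≤ h)
    (hσ0 : 0 ≤ σ) (hσ1 : σ ≤ 1 / 2) {θ : C3 → C3}
    (hd : ∀ x ∈ Str h, ∀ ξ η, DifferentiableAt ℂ (fun z => form (θ z) ξ η) x)
    (hc : ∀ x ∈ Str h, ∀ a b c, fderiv ℂ (fun z => form (θ z) b c) x a +
      fderiv ℂ (fun z => form (θ z) c a) x b + fderiv ℂ (fun z => form (θ z) a b) x c = 0)
    (h0 : ∀ x ∈ Str h, form (θ x) (cj v) v = 0)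
    (hσ : ∀ x ∈ Str h, ‖κ⁻¹ * form (θ x) (ee 2) (cj v) - 1‖ + ‖κ⁻¹ * form (θ x) (ee 2) v‖ ≤ σ) :
    ∃ ζ : C2 → ℂ, ∀ q : C2, ‖q.1‖ < r → ‖ζ q - q.2‖ ≤ 2 * σ * ‖q.2‖ ∧ ‖ζ q‖ ≤ 2 * ‖q.2‖ ∧
      ContinuousAt ζ q ∧ ∀ (y : C3 → C2) (j : ℂ),
        DifferentiableAt ℂ y (Phi v (q.1, ζ q, conj (ζ q))) →
        (∀ ξ η, form (θ (Phi v (q.1, ζ q, conj (ζ q)))) ξ η =
          j * det2 (fderiv ℂ y (Phi v (q.1, ζ q, conj (ζ q))) ξ)
            (fderiv ℂ y (Phi v (q.1, ζ q, conj (ζ q))) η)) →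
        DifferentiableAt ℂ (fun q : C2 => y (Phi v (q.1, ζ q, conj (ζ q)))) q := by
  let D : Set (ℂ × C2) := {p | ‖p.1‖ < r ∧ ‖p.2.2 - conj p.2.1‖ < r}
  have hD : IsOpen D :=
    (isOpen_lt (f := fun p : ℂ × C2 => ‖p.1‖) (by fun_prop) continuous_const).inter
      (isOpen_lt (f := fun p : ℂ × C2 => ‖p.2.2 - conj p.2.1‖) (by fun_prop) continuous_const)
  have hS : ∀ p ∈ D, Phi v p ∈ Str h := fun p hp => Phi_mem hr hp.1 hp.2
  have hSo : IsOpen (Str h) := by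
    have e : Str h = ⋂ i, {x : C3 | |(x i).im| < h} := by ext x; simp [Str]
    rw [e]
    exact isOpen_iInter_of_finite fun i => isOpen_lt (by fun_prop) continuous_const
  let η : ℂ × C2 → ℂ × C2 →L[ℂ] ℂ := fun p => κ⁻¹ • (Fm (θ (Phi v p))).comp (Phi v)
  have e1 : ∀ p b, η p b = κ⁻¹ * form (θ (Phi v p)) (ee 2) (Phi v b) := fun p b => by
    simp [η, Fm_apply]
  have hη : DifferentiableOn ℂ η D := fun p hp => by
    have a1 : ∀ ξ ξ', DifferentiableAt ℂ (fun z => form (θ (Phi v z)) ξ ξ') p := fun ξ ξ' =>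
      (hd _ (hS p hp) ξ ξ').comp p (Phi v).differentiableAt
    have a2 : DifferentiableAt ℂ (fun z => θ (Phi v z) 0) p := by
      simpa [form, ee] using a1 (ee 1) (ee 2)
    have a3 : DifferentiableAt ℂ (fun z => θ (Phi v z) 1) p := by
      simpa [form, ee] using a1 (ee 2) (ee 0)
    have a4 : DifferentiableAt ℂ (fun z => Fm (θ (Phi v z))) p :=
      (a3.smul_const _).sub (a2.smul_const _)
    have a5 : DifferentiableAt ℂ (fun z => (Fm (θ (Phi v z))).comp (Phi v)) p :=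
      a4.clm_comp (differentiableAt_const _)
    exact (a5.const_smul κ⁻¹).differentiableWithinAt
  have e2 : ∀ p ∈ D, ∀ a b, fderiv ℂ η p a b =
      κ⁻¹ * fderiv ℂ (fun z => form (θ z) (ee 2) (Phi v b)) (Phi v p) (Phi v a) := by
    intro p hp a b
    have a1 := (hη.differentiableAt (hD.mem_nhds hp)).hasFDerivAt.clm_apply (hasFDerivAt_const b p)
    have a2 := ((hd _ (hS p hp) (ee 2) (Phi v b)).hasFDerivAt.comp p
      (Phi v).hasFDerivAt).const_mul κ⁻¹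
    simp only [e1] at a1
    simpa using DFunLike.congr_fun (a1.unique a2) a
  obtain ⟨W, hW0, hW⟩ := radial pr (fun _ => rfl) hD (η := η) (fun p hp t ht => by
      have e : rad pr t p = (p.1, (t : ℂ) • p.2) := by simp [rad_apply, pr_apply, Prod.ext_iff]
      rw [e]
      refine ⟨hp.1, lt_of_le_of_lt ?_ hp.2⟩
      have e' : ((t : ℂ) • p.2).2 - conj ((t : ℂ) • p.2).1 = t * (p.2.2 - conj p.2.1) := by
        simp [mul_sub]
      rw [e', norm_mul, Complex.norm_real, Real.norm_of_nonneg ht.1]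
      exact mul_le_of_le_one_left (norm_nonneg _) ht.2) hη (fun p hp a b => by
      rw [e2 p hp, e2 p hp]
      have a1 := hc _ (hS p hp) (Phi v (pr a)) (ee 2) (Phi v (pr b))
      have a2 : (fun z => form (θ z) (Phi v (pr b)) (Phi v (pr a))) =ᶠ[𝓝 (Phi v p)] fun _ => 0 := by
        filter_upwards [hSo.mem_nhds (hS p hp)] with z hz
        have a3 := h0 z hz
        simp only [form, Phi_apply, pr_apply, Pi.add_apply, Pi.smul_apply, smul_eq_mul] at a3 ⊢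
        linear_combination (b.2.1 * a.2.2 - b.2.2 * a.2.1) * a3
      have a4 : (fun z => form (θ z) (Phi v (pr a)) (ee 2)) =
          fun z => -form (θ z) (ee 2) (Phi v (pr a)) := by
        funext z
        simp only [form]
        ring
      rw [a2.fderiv_eq, a4, fderiv_fun_neg] at a1
      simp at a1
      congr 1
      linear_combination a1)
  choose! W' hW1 hW2 using hW
  have e3 : ∀ p ∈ D, ∀ u : C2, W' p (0, u) = κ⁻¹ * form (θ (Phi v p)) (ee 2) (cj v) * u.1 +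
      κ⁻¹ * form (θ (Phi v p)) (ee 2) v * u.2 := fun p hp u => by
    rw [show W' p (0, u) = _ from hW2 p hp (0, u), e1]
    simp only [form, Phi_apply, pr_apply, Pi.add_apply, Pi.smul_apply, smul_eq_mul]
    ring
  have hm : ∀ c z : ℂ, ‖c‖ < r → (c, z, conj z) ∈ D := fun c z hc =>
    ⟨hc, by simpa using (norm_nonneg c).trans_lt hc⟩
  have hP := fun (c : ℂ) (hc : ‖c‖ < r) =>
    perturb (f := fun z => W (c, z, conj z)) hσ0 hσ1 fun z => by
      have a1 : HasFDerivAt (fun z : ℂ => ((c, z, conj z) : ℂ × C2))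
          ((0 : ℂ →L[ℝ] ℂ).prod ((ContinuousLinearMap.id ℝ ℂ).prod
            (Complex.conjCLE : ℂ →L[ℝ] ℂ))) z :=
        (hasFDerivAt_const c z).prodMk ((hasFDerivAt_id z).prodMk Complex.conjCLE.hasFDerivAt)
      refine ⟨_, ((hW1 _ (hm c z hc)).restrictScalars ℝ).comp z a1, fun a => ?_⟩
      have a2 := e3 _ (hm c z hc) (a, conj a)
      have a3 := hσ _ (hS _ (hm c z hc))
      change ‖W' (c, z, conj z) (0, a, conj a) - a‖ ≤ _
      rw [a2, show ∀ A B : ℂ, A * a + B * conj a - a = (A - 1) * a + B * conj a from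
        fun A B => by ring]
      refine (norm_add_le _ _).trans ?_
      rw [norm_mul, norm_mul _ (conj a), Complex.norm_conj, ← add_mul]
      exact mul_le_mul_of_nonneg_right a3 (norm_nonneg _)
  have hex : ∀ q : C2, ∃ z, ‖q.1‖ < r → W (q.1, z, conj z) = q.2 := fun q => by
    by_cases hq : ‖q.1‖ < r
    · obtain ⟨z, hz⟩ := (hP _ hq).1 q.2
      exact ⟨z, fun _ => hz⟩
    · exact ⟨0, fun h => (hq h).elim⟩
  choose ζ hζ using hex
  refine ⟨ζ, fun q hq => ?_⟩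
  have f0 : W (q.1, 0, conj 0) = 0 := hW0 _ (by simp [pr_apply])
  have f1 : ‖ζ q‖ ≤ 2 * ‖q.2‖ := by
    simpa only [hζ q hq, f0, sub_zero] using (hP _ hq).2.2 (ζ q) 0
  have f2 : ‖ζ q - q.2‖ ≤ 2 * σ * ‖q.2‖ := by
    have a1 := (hP _ hq).2.1 (ζ q) 0
    simp only [hζ q hq, f0, sub_zero] at a1
    rw [norm_sub_rev]
    nlinarith
  have hev : ∀ᶠ q' : C2 in 𝓝 q, ‖q'.1‖ < r :=
    (isOpen_lt (by fun_prop) continuous_const).mem_nhds hq
  have hp := hm q.1 (ζ q) hq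
  have f3 : (fun q' => ζ q' - ζ q) =O[𝓝 q] fun q' => q' - q := by
    have a1 : DifferentiableAt ℂ (fun q' : C2 => q'.2 - W (q'.1, ζ q, conj (ζ q))) q :=
      differentiableAt_snd.sub (DifferentiableAt.comp (g := W) q (hW1 _ hp).differentiableAt
        (by fun_prop))
    refine IsBigO.trans (IsBigO.of_bound 2 ?_) a1.isBigO_sub
    filter_upwards [hev] with q' hq'
    simpa [hζ q' hq', hζ q hq] using (hP _ hq').2.2 (ζ q') (ζ q)
  have f4 : (fun q' : C2 => ((q'.1, ζ q', conj (ζ q')) : ℂ × C2) - (q.1, ζ q, conj (ζ q))) =O[𝓝 q]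
      fun q' => q' - q := by
    refine IsBigO.prod_left ?_ (IsBigO.prod_left f3 (IsBigO.trans (IsBigO.of_bound' ?_) f3))
    · exact (ContinuousLinearMap.fst ℂ ℂ ℂ).isBigO_sub _ _
    · exact Eventually.of_forall fun q' => by rw [← map_sub, Complex.norm_conj]
  refine ⟨f2, f1, ?_, fun y j hy hj => ?_⟩
  · have a1 : Tendsto (fun q' => q' - q) (𝓝 q) (𝓝 0) := by
      simpa using (tendsto_id (x := 𝓝 q)).sub_const q
    simpa [ContinuousAt] using (f3.trans_tendsto a1).add_const (ζ q)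
  set p : ℂ × C2 := (q.1, ζ q, conj (ζ q)) with hpe
  have hA : κ⁻¹ * form (θ (Phi v p)) (ee 2) (cj v) ≠ 0 := fun e => by
    have a1 := hσ _ (hS p hp)
    rw [e] at a1
    norm_num at a1
    linarith [norm_nonneg κ⁻¹, mul_nonneg (inv_nonneg.2 (norm_nonneg κ))
      (norm_nonneg (form (θ (Phi v p)) (ee 2) v))]
  refine lift_diff (N := fun p : ℂ × C2 => ((p.1, W p) : C2))
    (N' := (ContinuousLinearMap.fst ℂ ℂ C2).prod (W' p)) (Y := fun p => y (Phi v p))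
    (Y' := (fderiv ℂ y (Phi v p)).comp (Phi v))
    (Ψ := fun q' : C2 => ((q'.1, ζ q', conj (ζ q')) : ℂ × C2))
    (hasFDerivAt_fst.prodMk (hW1 p hp)) (hy.hasFDerivAt.comp p (Phi v).hasFDerivAt)
    (fun u => ?_) (fun X hX => ?_) (hev.mono fun q' hq' => by rw [hζ q' hq']) f4
  · refine ⟨(u.1, 0) + (0, (κ⁻¹ * form (θ (Phi v p)) (ee 2) (cj v))⁻¹ * (u.2 - W' p (u.1, 0)), 0),
      Prod.ext (by simp) ?_⟩
    change W' p _ = _
    rw [map_add, e3 p hp]
    simp only [mul_inv_cancel_left₀ hA]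
    ring
  · have a1 : X.1 = 0 := congrArg Prod.fst hX
    have a2 : W' p (0, X.2) = 0 := by
      rw [show ((0, X.2) : ℂ × C2) = X from Prod.ext a1.symm rfl]
      exact congrArg Prod.snd hX
    rw [e3 p hp, mul_assoc, mul_assoc, ← mul_add, mul_eq_zero, or_iff_right (inv_ne_zero hκ)] at a2
    have a3 := right_ne_zero_of_mul hA
    have a4 := h0 _ (hS p hp)
    have a5 := a3
    rw [hj] at a5
    refine det2_zero (right_ne_zero_of_mul a5) (mul_left_cancel₀ (left_ne_zero_of_mul a5) ?_)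
      (mul_left_cancel₀ (left_ne_zero_of_mul a5) ?_)
    · rw [ContinuousLinearMap.comp_apply, ← hj]
      simp only [form, Phi_apply, Pi.add_apply, Pi.smul_apply, smul_eq_mul, a1] at a2 ⊢
      linear_combination -a2
    · rw [ContinuousLinearMap.comp_apply, ← hj]
      simp only [form, Phi_apply, Pi.add_apply, Pi.smul_apply, smul_eq_mul, a1] at a4 ⊢
      linear_combination -X.2.2 * a4

/-- the linear map `LL l` -/
noncomputable def Lc (l : Fin 3 → C2) : C3 →L[ℂ] C2 :=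
  LinearMap.toContinuousLinearMap (Fintype.linearCombination ℂ l)

theorem Lc_apply (l : Fin 3 → C2) (x : C3) : Lc l x = LL l x := by
  simp [Lc, LL, Fintype.linearCombination_apply]

theorem Lc_ker (l : Fin 3 → C2) : Lc l (kerV l) = 0 := by
  rw [Lc_apply]
  ext <;> simp [LL, kerV, det2, Fin.sum_univ_three] <;> ring

theorem Lc_ee (l : Fin 3 → C2) : Lc l (ee 2) = l 2 := by
  rw [Lc_apply]
  simp [LL, ee, Fin.sum_univ_three]

theorem small (v₀ : C3) (h : form v₀ (ee 2) (cj v₀) ≠ 0) {σ : ℝ} (hσ : 0 < σ) :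
    ∃ δ > (0 : ℝ), ∀ a b : C3, ‖a - v₀‖ ≤ δ → ‖b - v₀‖ ≤ δ →
      ‖(form v₀ (ee 2) (cj v₀))⁻¹ * form a (ee 2) (cj b) - 1‖ +
        ‖(form v₀ (ee 2) (cj v₀))⁻¹ * form a (ee 2) b‖ ≤ σ := by
  have h1 : Continuous fun z : C3 × C3 =>
      ‖(form v₀ (ee 2) (cj v₀))⁻¹ * form z.1 (ee 2) (cj z.2) - 1‖ +
        ‖(form v₀ (ee 2) (cj v₀))⁻¹ * form z.1 (ee 2) z.2‖ := by
    generalize (form v₀ (ee 2) (cj v₀))⁻¹ = κ
    simp only [form, cj]
    fun_prop
  have h2 : form v₀ (ee 2) v₀ = 0 := by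
    simp only [form]
    ring
  have h3 := (h1.continuousAt (x := (v₀, v₀))).eventually
    (gt_mem_nhds (a := σ) (by simpa [inv_mul_cancel₀ h, h2] using hσ))
  obtain ⟨δ, hδ, h4⟩ := Metric.nhds_basis_closedBall.eventually_iff.1 h3
  refine ⟨δ, hδ, fun a b ha hb => (h4 (x := (a, b)) ?_).le⟩
  rw [← closedBall_prod_same]
  exact ⟨mem_closedBall_iff_norm.2 ha, mem_closedBall_iff_norm.2 hb⟩

end Tb

open Tb in
theorem tube (hcl : StClosed) : StTube := by
  intro l h hh hκ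
  set v₀ := kerV l with hv₀
  have hκ' : form v₀ (ee 2) (cj v₀) ≠ 0 := fun e => hκ (by
    simp only [form] at e ⊢
    linear_combination -e)
  obtain ⟨n, hn⟩ : ∃ n, n = ‖v₀‖ + 1 := ⟨_, rfl⟩
  have hn0 : 1 ≤ n := by linarith [norm_nonneg v₀]
  obtain ⟨L, hL⟩ : ∃ L, L = ‖Lc l‖ := ⟨_, rfl⟩
  have hL0 : 0 ≤ L := hL ▸ norm_nonneg _
  obtain ⟨ρ, hρ, hρ1, hρ2⟩ : ∃ ρ > (0 : ℝ), ρ ≤ 1 ∧ ρ * (1 + 4 * n) ≤ h :=
    ⟨min 1 (h / (1 + 4 * n)), by positivity, min_le_left _ _,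
      (le_div_iff₀ (by positivity)).1 (min_le_right _ _)⟩
  refine ⟨ρ, hρ, fun ε hε => ?_⟩
  obtain ⟨σ, hσ, hσ1, hσ2⟩ : ∃ σ > (0 : ℝ), σ ≤ 1 / 2 ∧ σ * (4 * (L * n + 1)) ≤ ε :=
    ⟨min (1 / 2) (ε / (4 * (L * n + 1))), by positivity, min_le_left _ _,
      (le_div_iff₀ (by positivity)).1 (min_le_right _ _)⟩
  obtain ⟨δ₁, hδ₁, hsm⟩ := small v₀ hκ' hσ
  obtain ⟨δ, hδ, hδ1, hδ2, hδ3⟩ : ∃ δ > (0 : ℝ), δ ≤ 1 ∧ δ ≤ δ₁ ∧ δ * (2 * (1 + 4 * L)) ≤ ε :=
    ⟨min 1 (min δ₁ (ε / (2 * (1 + 4 * L)))), by positivity, min_le_left _ _,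
      (min_le_right _ _).trans (min_le_left _ _),
      (le_div_iff₀ (by positivity)).1 ((min_le_right _ _).trans (min_le_right _ _))⟩
  refine ⟨δ, hδ, fun X C p J k θ v y₀ hv hJ hθ hy₀ => ?_⟩
  have hvn : ‖v‖ ≤ n := by linarith [norm_sub_norm_le v v₀]
  have hloc : ∀ x ∈ Str h, ∃ y : C3 → C2, (∀ᶠ z in 𝓝 x, DifferentiableAt ℂ y z) ∧
      DifferentiableAt ℂ J (y x) ∧ ∀ ξ η, (fun z => form (θ z) ξ η) =ᶠ[𝓝 x]
        fun z => J (y z) * det2 (fderiv ℂ y z ξ) (fderiv ℂ y z η) := fun x hx => by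
    obtain ⟨-, -, y, hy⟩ := hθ x hx
    exact ⟨y, hy.mono fun z hz => hz.1, (hJ _ hy.self_of_nhds.2.1).1,
      fun ξ η => hy.mono fun z hz => hz.2.2.2 ξ η⟩
  have hr : ρ * (1 + ‖v‖) ≤ h := by nlinarith
  obtain ⟨ζ, hζ⟩ := core v hκ' (h := h) (r := ρ) (θ := θ) hr hσ.le hσ1 (fun x hx ξ η => by
      obtain ⟨y, h1, h2, h3⟩ := hloc x hx
      have hd : DifferentiableAt ℂ (fderiv ℂ y) x :=
        ((contDiffAt_of_eventually h1 2).fderiv_right (m := 1) (by norm_num)).differentiableAt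
          one_ne_zero
      have h4 : ∀ b, DifferentiableAt ℂ (fun z => fderiv ℂ y z b) x := fun b =>
        hd.clm_apply (differentiableAt_const b)
      refine DifferentiableAt.congr_of_eventuallyEq ?_ (h3 ξ η)
      exact (h2.comp x h1.self_of_nhds).mul
        (((h4 ξ).fst.mul (h4 η).snd).sub ((h4 ξ).snd.mul (h4 η).fst)))
    (fun x hx a b c => by
      obtain ⟨y, h1, h2, h3⟩ := hloc x hx
      rw [(h3 b c).fderiv_eq, (h3 c a).fderiv_eq, (h3 a b).fderiv_eq]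
      exact hcl C3 y J x h1 h2 a b c)
    (fun x hx => (hθ x hx).2.1) (fun x hx => hsm _ _ ((hθ x hx).1.trans hδ2) (hv.trans hδ2))
  refine ⟨fun q => k (Phi v (q.1, ζ q, conj (ζ q))), fun q => y₀ (Phi v (q.1, ζ q, conj (ζ q))),
    fun q hq => ?_, fun q hq => ?_⟩
  · obtain ⟨-, -, y, hy⟩ := hθ _ (Phi_mem (p := (q.1, ζ q, conj (ζ q))) hr hq (by simpa using hρ))
    have h1 := (hζ q hq).2.2.1
    have h2 : ContinuousAt (fun q : C2 => Phi v (q.1, ζ q, conj (ζ q))) q :=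
      (Phi v).continuous.continuousAt.comp (continuousAt_fst.prodMk
        (h1.prodMk (Complex.continuous_conj.continuousAt.comp h1)))
    refine ⟨fun q => y (Phi v (q.1, ζ q, conj (ζ q))), ?_⟩
    filter_upwards [h2.eventually hy, (isOpen_lt (f := fun q : C2 => ‖q.1‖) (by fun_prop)
      continuous_const).mem_nhds hq] with z h3 h4
    exact ⟨(hζ z h4).2.2.2 y _ h3.1 h3.2.2.2, h3.2.1, h3.2.2.1⟩
  · rw [mem_ball_zero_iff] at hq
    have h1 : ‖q.1‖ < ρ := (norm_fst_le q).trans_lt hq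
    have h2 : ‖q.2‖ < ρ := (norm_snd_le q).trans_lt hq
    obtain ⟨h3, h4, -, h5⟩ := hζ q h1
    have h6 : Phi v (q.1, ζ q, conj (ζ q)) ∈ ball (0 : C3) h := by
      rw [mem_ball_zero_iff, Phi_apply]
      refine (norm_add₃_le).trans_lt ?_
      rw [norm_smul, norm_smul, norm_smul, norm_ee, Complex.norm_conj]
      have a1 : ‖ζ q‖ * ‖cj v‖ ≤ 2 * ρ * n :=
        mul_le_mul (by linarith) ((norm_cj v).trans hvn) (norm_nonneg _) (by positivity)
      have a2 : ‖ζ q‖ * ‖v‖ ≤ 2 * ρ * n :=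
        mul_le_mul (by linarith) hvn (norm_nonneg _) (by positivity)
      simp only
      linarith
    obtain ⟨g1, -, g2, g3, g4⟩ := hy₀ _ h6
    refine ⟨h5 y₀ _ g1 g4, g2, ?_⟩
    have e : y₀ (Phi v (q.1, ζ q, conj (ζ q))) - (q.1 • l 2 + q.2 • LL l (cj v₀)) =
        (y₀ (Phi v (q.1, ζ q, conj (ζ q))) - LL l (Phi v (q.1, ζ q, conj (ζ q)))) +
          ((ζ q - q.2) • Lc l (cj v₀) + ζ q • Lc l (cj (v - v₀)) + conj (ζ q) • Lc l (v - v₀)) := by
      have a1 : cj (v - v₀) = cj v - cj v₀ := by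
        funext i
        simp [cj]
      have a2 : Lc l v₀ = 0 := Lc_ker l
      rw [← Lc_apply, ← Lc_apply, a1, map_sub, map_sub, a2]
      generalize y₀ (Phi v (q.1, ζ q, conj (ζ q))) = Y
      simp only [Phi_apply, map_add, map_smul, Lc_ee]
      module
    have b0 : ∀ (x : C3) (t : ℝ), ‖x‖ ≤ t → ‖Lc l x‖ ≤ L * t := fun x t hx => by
      rw [hL]
      exact (Lc l).le_opNorm_of_le hx
    have b1 := b0 (cj v₀) n (by linarith [norm_cj v₀])
    have b2 := b0 _ δ ((norm_cj _).trans hv)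
    have b3 := b0 _ δ hv
    have c1 : ‖ζ q - q.2‖ * ‖Lc l (cj v₀)‖ ≤ 2 * σ * (L * n) :=
      mul_le_mul (by nlinarith) b1 (norm_nonneg _) (by positivity)
    have c2 : ‖ζ q‖ * ‖Lc l (cj (v - v₀))‖ ≤ 2 * (L * δ) :=
      mul_le_mul (by linarith) b2 (norm_nonneg _) (by positivity)
    have c3 : ‖ζ q‖ * ‖Lc l (v - v₀)‖ ≤ 2 * (L * δ) :=
      mul_le_mul (by linarith) b3 (norm_nonneg _) (by positivity)
    simp only
    rw [e]
    refine (norm_add_le _ _).trans ((add_le_add g3 norm_add₃_le).trans ?_)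
    rw [norm_smul, norm_smul, norm_smul, Complex.norm_conj]
    nlinarith

theorem tube_thm : StTube := tube closed

end Vale.Agent.P290Z
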