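import Vale.Agent.P290Z.Two.A

/-! P290Z: two transversal tubes. -/

open Set Filter Metric
open scoped Topology Manifold ContDiff

namespace Vale.Agent.P290Z

open Vale.Agent.P290 Vale.Agent.P290.H805 Vale.Agent.P290.R2.H596

namespace Tw

/-- holomorphic maps close to an invertible linear map cover a fixed neighbourhood of `0` -/
theorem cover {B : C2 →L[ℂ] C2} (hB : B.det ≠ 0) {η : ℝ} (hη : 0 < η) :
    ∃ κ > (0 : ℝ), ∀ σ > (0 : ℝ), ∀ᶠ w in 𝓝 (0 : C2), ∀ p : C2 → C2,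
      DifferentiableOn ℂ p (ball 0 σ) → (∀ q ∈ ball (0 : C2) σ, ‖p q - B q‖ ≤ κ * σ) →
      ∃ q : C2, ‖q‖ < σ ∧ p q = w ∧ ‖fderiv ℂ p q - B‖ ≤ η := by
  set Be := B.toContinuousLinearEquivOfDetNeZero hB with hBe
  set Bi : C2 →L[ℂ] C2 := (Be.symm : C2 →L[ℂ] C2) with hBi
  have e1 : ∀ q, Bi (B q) = q := fun q => Be.symm_apply_apply q
  have e2 : Function.Injective Bi := Be.symm.injective
  have hM : 0 < ‖Bi‖ + 1 := by positivity
  obtain ⟨κ, k0, k1, k2⟩ : ∃ κ : ℝ, 0 < κ ∧ κ * (‖Bi‖ + 1) ≤ 1 / 8 ∧ κ ≤ η / 2 :=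
    ⟨min (1 / 8 / (‖Bi‖ + 1)) (η / 2), by positivity,
      (le_div_iff₀ hM).1 (min_le_left _ _), min_le_right _ _⟩
  refine ⟨κ, k0, fun σ hσ => ?_⟩
  have hδ : 0 < κ * (‖Bi‖ + 1) * σ := by positivity
  have h1 : ∀ᶠ w in 𝓝 (0 : C2), ‖Bi w‖ < κ * (‖Bi‖ + 1) * σ :=
    (Bi.continuous.norm.continuousAt (x := 0)).eventually_lt_const (by simpa using hδ)
  filter_upwards [h1] with w hw p hp hb
  have hd : DifferentiableOn ℂ (fun q => p q - B q) (ball 0 σ) :=
    hp.sub B.differentiable.differentiableOn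
  obtain ⟨c, c1, c2⟩ := nearId_surj (g := fun q => Bi (p q - B q)) (w := 0) (b := Bi w)
    (δ := κ * (‖Bi‖ + 1) * σ) hσ (Bi.differentiable.comp_differentiableOn hd)
    (fun q hq => by
      refine (Bi.le_opNorm _).trans ?_
      have := hb q hq
      have := norm_nonneg Bi
      have := norm_nonneg (p q - B q)
      nlinarith)
    (by nlinarith) hδ (by simpa using hw.le)
  have c3 : ‖c‖ ≤ σ / 4 := by nlinarith
  refine ⟨c, by linarith, e2 ?_, ?_⟩
  · rw [← c2, zero_add, map_sub, e1]; abel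
  · have hsub : ball c (σ / 2) ⊆ ball (0 : C2) σ := by
      refine ball_subset_ball' ?_
      rw [dist_zero_right]; linarith
    have h2 := norm_fderiv_le_of_bound (half_pos hσ) (hd.mono hsub) fun q hq => hb q (hsub hq)
    have h3 : DifferentiableAt ℂ p c :=
      hp.differentiableAt (isOpen_ball.mem_nhds (mem_ball_zero_iff.2 (by linarith)))
    rw [(h3.hasFDerivAt.fun_sub B.hasFDerivAt).fderiv] at h2
    refine h2.trans ?_
    rw [div_le_iff₀ (half_pos hσ)]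
    nlinarith

variable {T E : Type} [TopologicalSpace T] [TopologicalSpace E] {F : Family T E}

/-- the tubes in the chart at the base point -/
theorem tube_chart {s : T} {π : C2 → E} {y₀ e u : C2} (hπ : ∀ᶠ y in 𝓝 y₀, FH F s π y)
    (hT : Tubes F s π y₀ e u) {κ : ℝ} (hκ : 0 < κ) :
    ∃ ρ σ : ℝ, 0 < σ ∧ σ ≤ ρ ∧ ∀ᶠ t in 𝓝 s, ∃ P : C2 → E, (∀ q : C2, ‖q.1‖ ≤ ρ → FH F t P q) ∧
      ∀ q : C2, ‖q‖ ≤ σ → P q ∈ (F.triv (π y₀)).source ∧
        ‖(F.triv (π y₀) (P q)).2 - (F.triv (π y₀) (π y₀)).2 -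
          (fderiv ℂ (fun y => (F.triv (π y₀) (π y)).2) y₀).comp (col e u) q‖ ≤ κ * σ := by
  obtain ⟨ρ, hρ, hT⟩ := hT
  set χ := F.triv (π y₀) with hχ
  set B := (fderiv ℂ (fun y => (χ (π y)).2) y₀).comp (col e u) with hB
  have h0 := hπ.self_of_nhds
  have hl : HasFDerivAt (fun q : C2 => y₀ + col e u q) (col e u) 0 :=
    (col e u).hasFDerivAt.const_add y₀
  have hl0 : y₀ + col e u 0 = y₀ := by simp
  have h1 : HasFDerivAt (fun q : C2 => (χ (π (y₀ + col e u q))).2) B 0 := by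
    refine HasFDerivAt.comp (g := fun y => (χ (π y)).2) (f := fun q : C2 => y₀ + col e u q)
      0 ?_ hl
    rw [hl0]
    exact h0.2.2.hasFDerivAt
  have h2 := (hasFDerivAt_iff_isLittleO_nhds_zero.1 h1).def (half_pos hκ)
  have h3 : Tendsto (fun q : C2 => y₀ + col e u q) (𝓝 0) (𝓝 y₀) := by
    have := hl.continuousAt.tendsto
    rwa [hl0] at this
  have h4 := h3.eventually (hπ.and (h0.eventually_source (F.mem (π y₀))))
  obtain ⟨σ₀, s0, s1⟩ := nhds_basis_closedBall.mem_iff.1 (h2.and h4)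
  set σ := min σ₀ ρ with hσ
  have hσ0 : 0 < σ := lt_min s0 hρ
  refine ⟨ρ, σ, hσ0, min_le_right _ _, ?_⟩
  have h5 := hT {z | ‖z.1‖ ≤ σ → z.2 ∈ χ.source ∧ ‖(χ z.2).2 - (χ (π y₀)).2 - B z.1‖ < κ * σ}
    fun q _ => by
      rw [add_assoc, ← col_apply]
      by_cases hq : ‖q‖ ≤ σ
      · obtain ⟨a1, -, a3⟩ := s1 (mem_closedBall_zero_iff.2 (hq.trans (min_le_left _ _)))
        have a4 : ContinuousAt (fun z : C2 × E => ‖(χ z.2).2 - (χ (π y₀)).2 - B z.1‖)
            (q, π (y₀ + col e u q)) := by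
          refine ContinuousAt.norm (ContinuousAt.sub (ContinuousAt.sub ?_ continuousAt_const) ?_)
          · exact ContinuousAt.comp (g := fun y => (χ y).2) (f := Prod.snd)
              (x := (q, π (y₀ + col e u q)))
              (continuous_snd.continuousAt.comp (χ.continuousAt a3)) continuous_snd.continuousAt
          · exact (B.continuous.comp continuous_fst).continuousAt
        have a5 : ‖(χ (π (y₀ + col e u q))).2 - (χ (π y₀)).2 - B q‖ < κ * σ := by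
          simp only [zero_add, hl0] at a1
          refine a1.trans_lt ?_
          nlinarith [mul_pos hκ hσ0]
        filter_upwards [a4.eventually_lt_const a5, continuous_snd.continuousAt.eventually
          (χ.open_source.mem_nhds a3)] with z b1 b2 _ using ⟨b2, b1⟩
      · filter_upwards [(continuous_fst.norm.continuousAt
          (x := (q, π (y₀ + col e u q)))).eventually_const_lt (not_le.1 hq)] with z b1 b2
        exact absurd b2 (not_le.2 b1)
  filter_upwards [h5] with t ⟨P, p1, p2⟩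
  refine ⟨P, p1, fun q hq => ?_⟩
  have := p2 q (mem_closedBall_zero_iff.2 (hq.trans (min_le_right _ _))) hq
  exact ⟨this.1, this.2.le⟩

/-- every point near the base point lies on a tube, with a controlled derivative -/
theorem tube_through (hp : Continuous F.p) {s : T} {π : C2 → E} {y₀ e u : C2}
    (hπ : ∀ᶠ y in 𝓝 y₀, FH F s π y)
    (hd : (fderiv ℂ (fun y => (F.triv (π y₀) (π y)).2) y₀).det ≠ 0) (he : det2 e u ≠ 0)
    (hT : Tubes F s π y₀ e u) {η : ℝ} (hη : 0 < η) :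
    ∃ ρ : ℝ, ∀ᶠ x in 𝓝 (π y₀), ∃ (P : C2 → E) (q₀ : C2),
      (∀ q : C2, ‖q.1‖ ≤ ρ → FH F (F.p x) P q) ∧ ‖q₀.1‖ < ρ ∧ P q₀ = x ∧
      ‖fderiv ℂ (fun q => (F.triv (π y₀) (P q)).2) q₀ -
        (fderiv ℂ (fun y => (F.triv (π y₀) (π y)).2) y₀).comp (col e u)‖ ≤ η := by
  obtain ⟨κ, hκ, hc⟩ := cover
    (B := (fderiv ℂ (fun y => (F.triv (π y₀) (π y)).2) y₀).comp (col e u))
    (by rw [det_comp, det_col]; exact mul_ne_zero hd he) hη
  obtain ⟨ρ, σ, s0, s1, h1⟩ := tube_chart hπ hT hκ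
  refine ⟨ρ, ?_⟩
  set χ := F.triv (π y₀) with hχ
  have h2 : Tendsto F.p (𝓝 (π y₀)) (𝓝 s) := by
    have := hp.tendsto (π y₀)
    rwa [hπ.self_of_nhds.1.self_of_nhds] at this
  have h3 : Tendsto (fun x => (χ x).2 - (χ (π y₀)).2) (𝓝 (π y₀)) (𝓝 0) := by
    have : ContinuousAt (fun x => (χ x).2 - (χ (π y₀)).2) (π y₀) :=
      (continuous_snd.continuousAt.comp (χ.continuousAt (F.mem _))).sub continuousAt_const
    simpa using this.tendsto
  filter_upwards [h2.eventually h1, h3.eventually (hc σ s0), χ.open_source.mem_nhds (F.mem _)]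
    with x ⟨P, p1, p2⟩ a1 a2
  have p3 : ∀ q ∈ ball (0 : C2) σ, FH F (F.p x) P q := fun q hq =>
    p1 q ((norm_fst_le q).trans ((mem_ball_zero_iff.1 hq).le.trans s1))
  obtain ⟨q₀, b1, b2, b3⟩ := a1 (fun q => (χ (P q)).2 - (χ (π y₀)).2)
    (fun q hq => (((p3 q hq).diff (p2 q (mem_ball_zero_iff.1 hq).le).1).sub_const
      _).differentiableWithinAt)
    fun q hq => (p2 q (mem_ball_zero_iff.1 hq).le).2
  refine ⟨P, q₀, p1, ((norm_fst_le q₀).trans_lt b1).trans_le s1, ?_, ?_⟩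
  · exact eq_of_coord (p2 q₀ b1.le).1 a2 (p3 q₀ (mem_ball_zero_iff.2 b1)).1.self_of_nhds
      (sub_left_injective b2)
  · rwa [fderiv_sub_const] at b3

/-- a point on two transversal tubes -/
theorem core (hC : StCross) [T2Space E] (hp : IsProperMap F.p) {x₀ x : E}
    (hx : x ∈ (F.triv x₀).source) {P P' : C2 → E} {q₀ q₁ : C2} {ρ ρ' : ℝ}
    (hP : ∀ q : C2, ‖q.1‖ ≤ ρ → FH F (F.p x) P q) (hP' : ∀ q : C2, ‖q.1‖ ≤ ρ' → FH F (F.p x) P' q)
    (h₀ : ‖q₀.1‖ < ρ) (h₁ : ‖q₁.1‖ < ρ') (e₀ : P q₀ = x) (e₁ : P' q₁ = x)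
    (hd : (fderiv ℂ (fun q => (F.triv x₀ (P q)).2) q₀).det ≠ 0)
    (ht : det2 (fderiv ℂ (fun q => (F.triv x₀ (P' q)).2) q₁ (0, 1))
      (fderiv ℂ (fun q => (F.triv x₀ (P q)).2) q₀ (0, 1)) ≠ 0) : x ∈ OmE F := by
  set χ := F.triv x₀ with hχ
  set p : C2 → C2 := fun q => (χ (P q)).2 with hp1
  have f0 := hP q₀ h₀.le
  have f1 := hP' q₁ h₁.le
  have s0 : P q₀ ∈ χ.source := by rw [e₀]; exact hx
  have s1 : P' q₁ ∈ χ.source := by rw [e₁]; exact hx
  have n0 : ∀ᶠ q : C2 in 𝓝 q₀, ‖q.1‖ < ρ ∧ P q ∈ χ.source :=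
    ((continuous_fst.norm.continuousAt (x := q₀)).eventually_lt_const h₀).and
      (f0.eventually_source s0)
  have c0 : ContDiffAt ℂ (1 : ℕ) p q₀ :=
    contDiffAt_of_eventually (n0.mono fun q hq => (hP q hq.1.le).diff hq.2) 1
  have d0 : HasFDerivAt p
      ((fderiv ℂ p q₀).toContinuousLinearEquivOfDetNeZero hd : C2 →L[ℂ] C2) q₀ := by
    rw [ContinuousLinearMap.coe_toContinuousLinearEquivOfDetNeZero]
    exact (f0.diff s0).hasFDerivAt
  have hn : ((1 : ℕ) : WithTop ℕ∞) ≠ 0 := by simp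
  obtain ⟨ψ, i1, i2, i3⟩ : ∃ ψ : C2 → C2, ψ (p q₀) = q₀ ∧
      (∀ᶠ v in 𝓝 (p q₀), DifferentiableAt ℂ ψ v) ∧ ∀ᶠ v in 𝓝 (p q₀), p (ψ v) = v :=
    ⟨c0.localInverse d0 hn, c0.localInverse_apply_image d0 hn,
      ((c0.to_localInverse d0 hn).eventually (by simp)).mono fun v hv => hv.differentiableAt hn,
      (c0.hasStrictFDerivAt' d0 hn).eventually_right_inverse⟩
  have i4 : ∀ᶠ v in 𝓝 (p q₀), ‖(ψ v).1‖ < ρ ∧ P (ψ v) ∈ χ.source := by
    have := i2.self_of_nhds.continuousAt.tendsto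
    rw [i1] at this
    exact this.eventually n0
  -- the entire curve
  set γ : ℂ → E := fun a => P' (q₁ + a • ((0, 1) : C2)) with hγ
  have g1 : ∀ a, FH F (F.p x) γ a := fun a =>
    FH.comp (q := fun a : ℂ => q₁ + a • ((0, 1) : C2)) (hP' _ (by simpa using h₁.le)) (by fun_prop)
  have g0 : γ 0 = x := by simp only [hγ, zero_smul, add_zero, e₁]
  set c : ℂ → C2 := fun a => (χ (γ a)).2 with hc
  have g2 : γ 0 ∈ χ.source := by rw [g0]; exact hx
  have g3 : c 0 = p q₀ := by simp only [hc, hp1, g0, e₀]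
  have g4 : Tendsto c (𝓝 0) (𝓝 (p q₀)) := by
    rw [← g3]; exact ((g1 0).diff g2).continuousAt.tendsto
  obtain ⟨r, r0, r1⟩ := nhds_basis_closedBall.mem_iff.1
    (((g1 0).eventually_source g2).and (g4.eventually (i2.and (i3.and i4))))
  have r2 := fun (a : ℂ) (ha : ‖a‖ ≤ r) => r1 (mem_closedBall_zero_iff.2 ha)
  set S : C2 → E := fun q => P (ψ (c q.1) + q.2 • ((0, 1) : C2)) with hS
  have S1 : ∀ q : C2, ‖q.1‖ ≤ r → FH F (F.p x) S q := fun q hq => by
    obtain ⟨a1, a2, -, a4, -⟩ := r2 q.1 hq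
    refine FH.comp (q := fun q : C2 => ψ (c q.1) + q.2 • ((0, 1) : C2))
      (hP _ (by simpa using a4.le)) (DifferentiableAt.add ?_ (by fun_prop))
    exact DifferentiableAt.comp (g := fun a => ψ (c a)) (f := Prod.fst) q
      (DifferentiableAt.comp (g := ψ) (f := c) q.1 a2 ((g1 q.1).diff a1)) differentiableAt_fst
  have S2 : ∀ a : ℂ, ‖a‖ ≤ r → S (a, 0) = γ a := fun a ha => by
    obtain ⟨a1, -, a3, a4, a5⟩ := r2 a ha
    simp only [hS, zero_smul, add_zero]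
    exact eq_of_coord a5 a1
      (((hP _ a4.le).1.self_of_nhds).trans (g1 a).1.self_of_nhds.symm) a3
  have S0 : S 0 = x := by
    rw [← g0, ← S2 0 (by simpa using r0.le)]; rfl
  have S3 := S1 0 (by simpa using r0.le)
  have S4 : S 0 ∈ χ.source := by rw [S0]; exact hx
  have S5 : (fderiv ℂ (fun q => (χ (S q)).2) 0).det ≠ 0 := by
    have a1 : fderiv ℂ (fun q => (χ (S q)).2) 0 (1, 0) =
        fderiv ℂ (fun q => (χ (P' q)).2) q₁ (0, 1) := by
      refine (hasDerivAt_dir (S3.diff S4) (1, 0)).unique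
        ((hasDerivAt_dir (f1.diff s1) (0, 1)).congr_of_eventuallyEq ?_)
      filter_upwards [closedBall_mem_nhds (0 : ℂ) r0] with a ha
      have := S2 a (mem_closedBall_zero_iff.1 ha)
      simp only [zero_add, Prod.smul_mk, smul_eq_mul, mul_one, mul_zero, this, hγ]
    have a2 : fderiv ℂ (fun q => (χ (S q)).2) 0 (0, 1) = fderiv ℂ p q₀ (0, 1) := by
      refine (hasDerivAt_dir (S3.diff S4) (0, 1)).unique
        ((hasDerivAt_dir (f0.diff s0) (0, 1)).congr_of_eventuallyEq (Eventually.of_forall ?_))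
      intro b
      simp only [zero_add, Prod.smul_mk, smul_eq_mul, mul_one, mul_zero, hS, g3, i1]
    rw [det_eq, a1, a2]
    exact ht
  have := t2_fib F (F.p x)
  have := compact_fib F hp (F.p x)
  have key := hC (Fib F (F.p x)) (lift ⟨x, rfl⟩ S) (lift ⟨x, rfl⟩ γ) r r0
    (fun q hq => md_lift _ (S1 q hq)) (etale_lift _ S3 S4 S5) (fun a => md_lift _ (g1 a))
    fun a ha => by
      rw [lift_eq _ (S1 (a, 0) ha).1.self_of_nhds, lift_eq _ (g1 a).1.self_of_nhds]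
      exact Fib.ext (S2 a ha)
  rw [lift_eq _ S3.1.self_of_nhds, ← mem_OmE, S0] at key
  exact key

end Tw

theorem two : StCross → StTwo := by
  intro hC T E _ _ _ F hp s π y₀ e u e' u' hπ hd he he' hu hT hT'
  set A := fderiv ℂ (fun y => (F.triv (π y₀) (π y)).2) y₀ with hA
  have c1 : Continuous fun D : (C2 →L[ℂ] C2) × (C2 →L[ℂ] C2) => D.1.det :=
    ContinuousLinearMap.continuous_det.comp continuous_fst
  have c2 : Continuous fun D : (C2 →L[ℂ] C2) × (C2 →L[ℂ] C2) =>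
      det2 (D.2 (0, 1)) (D.1 (0, 1)) := by
    unfold det2
    fun_prop
  have h1 : ∀ᶠ D : (C2 →L[ℂ] C2) × (C2 →L[ℂ] C2) in
      𝓝 (A.comp (Tw.col e u), A.comp (Tw.col e' u')),
      D.1.det ≠ 0 ∧ det2 (D.2 (0, 1)) (D.1 (0, 1)) ≠ 0 := by
    refine (c1.continuousAt.eventually_ne ?_).and (c2.continuousAt.eventually_ne ?_)
    · rw [Tw.det_comp, Tw.det_col]; exact mul_ne_zero hd he
    · simp only [ContinuousLinearMap.comp_apply, Tw.det2_map, Tw.col_apply, zero_smul, one_smul,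
        zero_add]
      refine mul_ne_zero hd fun h => hu ?_
      unfold det2 at h ⊢
      linear_combination -h
  obtain ⟨η, hη, h2⟩ := nhds_basis_closedBall.mem_iff.1 h1
  obtain ⟨ρ, h3⟩ := Tw.tube_through hp.continuous hπ hd he hT hη
  obtain ⟨ρ', h4⟩ := Tw.tube_through hp.continuous hπ hd he' hT' hη
  filter_upwards [h3, h4, (F.triv (π y₀)).open_source.mem_nhds (F.mem _)]
    with x ⟨P, q₀, a1, a2, a3, a4⟩ ⟨P', q₁, b1, b2, b3, b4⟩ hx
  have h5 := @h2 (fderiv ℂ (fun q => (F.triv (π y₀) (P q)).2) q₀,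
    fderiv ℂ (fun q => (F.triv (π y₀) (P' q)).2) q₁) (by
      rw [mem_closedBall, Prod.dist_eq, dist_eq_norm, dist_eq_norm]
      exact max_le a4 b4)
  exact Tw.core hC hp hx a1 b1 a2 b2 a3 b3 h5.1 h5.2

end Vale.Agent.P290Z
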