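import Vale.Agent.P290Z.Runge
import Vale.Agent.P290Z.PL
import Vale.Agent.P290Z.T2
import Vale.Agent.P290Z.Ext
import Vale.Agent.P290Z.Inv
import Vale.Agent.P290Z.Spr
import Vale.Agent.P290Z.Throw
import Vale.Agent.P290Z.Calc
import Vale.Agent.P290Z.Long
import Vale.Agent.P290Z.Enl
import Vale.Agent.P290Z.Pstep
import Vale.Agent.P290Z.Poly
import Vale.Agent.P290Z.Conv
import Vale.Agent.P290Z.ThmB
import Vale.Agent.P290Z.Cross
import Vale.Agent.P290Z.Per0
import Vale.Agent.P290Z.Per1
import Vale.Agent.P290Z.Per3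
import Vale.Agent.P290Z.Fou
import Vale.Agent.P290Z.Omega
import Vale.Agent.P290Z.Tube
import Vale.Agent.P290Z.Neck
import Vale.Agent.P290Z.Deform
import Vale.Agent.P290Z.NeckFam
import Vale.Agent.P290Z.Two
import Vale.Agent.P290Z.Slab
import Vale.Agent.P290Z.Base
import Vale.Agent.P290Z.Kum
import Vale.Agent.P290Z.Trans

/-! P290Z: the unconditional theorems of parts I and II. -/

open Set Filter
open scoped Topology Manifold ContDiff

namespace Vale.Agent.P290Z

open Vale.Agent.P290 Vale.Agent.P290.H805 Vale.Agent.P290.R2.H596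

theorem pl0 : StPL := pl runge

theorem spr0 : StSpr := spr inv

theorem throw0 : StThrow := throw approx glue inv

theorem long0 : StLong := long inv

theorem enl0 : StEnl := enl pl0 spr0 throw0 calc1

theorem pstep0 : StPstep := pstep (t2 pl0) spr0 inv throw0 calc1 long0 enl0

theorem disc0 : StDisc := disc pstep0 long0

theorem poly0 : StPoly := poly pstep0 enl0 calc1 long0

theorem conv0 : StConv := conv enl0 spr0 long0 calc1

theorem thmB0 : StB := thmB poly0 conv0

theorem cross0 : StCross := cross runge pl0 glue inv spr0 long0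

theorem neck0 : StNeck := neck (per3 (per1 per0)) (omega fou) closed tube_thm

theorem neckFam0 : StNeckFam := neckFam deform neck0

theorem two0 : StTwo := two cross0

theorem slab0 : StSlab := slab neckFam0 two0

theorem base0 : StBase := base slab0 disc0

/-- strongly dominable compact surfaces are Oka -/
theorem oka_of_dom (X : Type) [TopologicalSpace X] [T2Space X] [CompactSpace X]
    [ChartedSpace C2 X] [IsManifold 𝓘(ℂ, C2) ω X]
    (h : ∀ x : X, ∃ G : C2 → X, (∀ v, All.Hol G v) ∧ G 0 = x ∧ All.Etale G 0) : All.IsOka X := by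
  refine thmB0 X (eq_univ_of_forall fun x => ?_)
  obtain ⟨G, h1, h2, h3⟩ := h x
  exact h2 ▸ trans.2 X G h1 h3

section fam

variable {T E : Type} [TopologicalSpace T] [TopologicalSpace E] [T2Space E] {F : Family T E}
  {vol : E → T × C2 → ℂ} {s : T}

/-- near a Kummer fibre all points of all fibres lie in `Om` -/
theorem om_near (hp : IsProperMap F.p) (hv : RelForm F vol) (hs : All.IsKummer (Fib F s)) :
    ∀ᶠ t in 𝓝 s, Om (Fib F t) = univ :=
  base0 T E F hp vol hv s (kum T E F vol hv s hs)

/-- the fibres near a Kummer fibre are Oka -/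
theorem oka_near (hp : IsProperMap F.p) (hv : RelForm F vol) (hs : All.IsKummer (Fib F s)) :
    ∀ᶠ t in 𝓝 s, All.IsOka (Fib F t) := by
  filter_upwards [om_near hp hv hs] with t ht
  have := Tw.t2_fib F t
  have := compact_fib F hp t
  exact thmB0 _ ht

/-- etale images of fibres arbitrarily near a Kummer fibre are Oka -/
theorem oka_approached (hp : IsProperMap F.p) (hv : RelForm F vol)
    (hs : All.IsKummer (Fib F s)) (X : Type) [TopologicalSpace X] [T2Space X]
    [ChartedSpace C2 X] [IsManifold 𝓘(ℂ, C2) ω X]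
    (hX : s ∈ closure {t | ∃ b : Fib F t → X, Function.Surjective b ∧ ∀ y, All.Hol b y ∧
      (fderiv ℂ (fun w => chartAt C2 (b y) (b ((chartAt C2 y).symm w))) (chartAt C2 y y)).det
        ≠ 0}) : All.IsOka X := by
  obtain ⟨t, ht, b, hb, hb'⟩ := mem_closure_iff_nhds.1 hX _ (om_near hp hv hs)
  have := compact_fib F hp t
  have hc : Continuous b := continuous_iff_continuousAt.2 fun y => (hb' y).1.1
  have : CompactSpace X := hb.compactSpace hc
  refine thmB0 X (eq_univ_of_forall fun x => ?_)
  obtain ⟨y, rfl⟩ := hb x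
  have hy : y ∈ Om (Fib F t) := by rw [show Om (Fib F t) = univ from ht]; trivial
  exact trans.1 _ X b (fun y => (hb' y).1) y hy (hb' y).2

end fam

end Vale.Agent.P290Z
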