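import Vale.Agent.P290Z.Per3.A

/-! PER3: periodic parametrisation of a neck. -/

open Set Filter Metric Function
open scoped Topology

namespace Vale.Agent.P290Z

open Vale.Agent.P290 Vale.Agent.P290.H805

namespace Pr3

theorem flat_mono {l : Fin 3 → C2} {C : Set C2} {ρ δ δ' : ℝ} {X : Type} {p : C2 → X}
    {E : Fin 3 → C2 → C2} {J : C2 → ℂ} (h : Flat l C ρ δ p E J) (hδ : δ ≤ δ') :
    Flat l C ρ δ' p E J :=
  ⟨h.inj, fun i y h1 h2 => ⟨(h.hol i y h1 h2).1, (h.hol i y h1 h2).2.trans hδ⟩, h.rel,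
    fun y hy => ⟨(h.jhol y hy).1, (h.jhol y hy).2.trans hδ⟩, h.jrel⟩

/-- the state after `k` steps -/
structure St (l : Fin 3 → C2) {X : Type} (p : C2 → X) (d h r η : ℝ) (k : ℕ)
    (g : C3 × C2 → C2) : Prop where
  hol : DifferentiableOn ℂ g (Box d h ×ˢ ball (0 : C2) r)
  bd : ∀ y ∈ Box d h ×ˢ ball (0 : C2) r, ‖g y‖ ≤ η
  per : ∀ i : Fin 3, (i : ℕ) < k → ∀ x ∈ Box d h, x + ee i ∈ Box d h → ∀ s ∈ ball (0 : C2) r,
    p (LL l (x + ee i) + (s + g (x + ee i, s))) = p (LL l x + (s + g (x, s)))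

variable {l : Fin 3 → C2} {C : Set C2} {ρ d h R r η : ℝ} {X : Type} {p : C2 → X}
  {E : Fin 3 → C2 → C2} {J : C2 → ℂ} {k : ℕ} {g : C3 × C2 → C2}

theorem St.small (hg : St l p d h r η k g) (hη : η ≤ r) (hrR : 2 * r ≤ R) {x : C3}
    (hx : x ∈ Box d h) {s : C2} (hs : s ∈ ball (0 : C2) r) : ‖s + g (x, s)‖ < R := by
  linarith [norm_add_le s (g (x, s)), hg.bd (x, s) ⟨hx, hs⟩, mem_ball_zero_iff.1 hs]

theorem St.inj (hg : St l p d h r η k g) (hF : Flat l C ρ η p E J)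
    (hsafe : ∀ x ∈ Box d h, ∀ t : C2, ‖t‖ < R → LL l x + t ∈ C) (hρ : 2 * R ≤ ρ) (hr : 0 < r)
    (hη : 8 * η ≤ r) (hrR : 2 * r ≤ R) {x : C3} (hx : x ∈ Box d h) {s t : C2}
    (hs : s ∈ ball (0 : C2) (r / 2)) (ht : t ∈ ball (0 : C2) (r / 2))
    (e : p (LL l x + (s + g (x, s))) = p (LL l x + (t + g (x, t)))) : s = t := by
  have hsub : ball (0 : C2) (r / 2) ⊆ ball 0 r := ball_subset_ball (by linarith)
  have hη0 := (norm_nonneg _).trans (hg.bd (x, s) ⟨hx, hsub hs⟩)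
  have a1 := hg.small (by linarith) hrR hx (hsub hs)
  have a2 := hg.small (by linarith) hrR hx (hsub ht)
  have h1 := hF.inj _ (hsafe x hx _ a1) _ (hsafe x hx _ a2) (by
    rw [add_sub_add_left_eq_sub]
    linarith [norm_sub_le (s + g (x, s)) (t + g (x, t))]) e
  refine nearId_inj (w := 0) hr (slice hg.hol hx) (fun t ht => hg.bd (x, t) ⟨hx, ht⟩) hη
    (mem_ball_zero_iff.1 hs) (mem_ball_zero_iff.1 ht) ?_
  simpa using h1

/-- the transition in the direction `i` -/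
theorem St.trans (hg : St l p d h r η k g) (hF : Flat l C ρ η p E J)
    (hsafe : ∀ x ∈ Box d h, ∀ t : C2, ‖t‖ < R → LL l x + t ∈ C) (hη0 : 0 < η)
    (hη : 32 * η ≤ r) (hrR : 2 * r ≤ R) (i : Fin 3) :
    ∃ c : C3 × C2 → C2,
      DifferentiableOn ℂ c ({x | x ∈ Box d h ∧ x + ee i ∈ Box d h} ×ˢ ball (0 : C2) (r / 4)) ∧
      ∀ x ∈ Box d h, x + ee i ∈ Box d h → ∀ s ∈ ball (0 : C2) (r / 4), ‖c (x, s)‖ ≤ 4 * η ∧
        p (LL l (x + ee i) + (s + g (x + ee i, s))) =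
          p (LL l x + (s + c (x, s) + g (x, s + c (x, s)))) := by
  have hsub : ball (0 : C2) (r / 4) ⊆ ball 0 r := ball_subset_ball (by linarith)
  have hO : IsOpen {x | x ∈ Box d h ∧ x + ee i ∈ Box d h} :=
    isOpen_box.inter (isOpen_box.preimage (continuous_add_const (ee i)))
  have hy : ∀ x ∈ Box d h, x + ee i ∈ Box d h → ∀ s ∈ ball (0 : C2) (r / 4),
      LL l x + (s + g (x + ee i, s)) ∈ C ∧ LL l x + (s + g (x + ee i, s)) + l i ∈ C := by
    intro x hx hx' s hs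
    have a1 := hg.small (by linarith) hrR hx' (hsub hs)
    refine ⟨hsafe x hx _ a1, ?_⟩
    rw [add_right_comm, ← LL_add]
    exact hsafe _ hx' _ a1
  have hsh : DifferentiableOn ℂ (fun y : C3 × C2 => g (y.1 + ee i, y.2))
      ({x | x ∈ Box d h ∧ x + ee i ∈ Box d h} ×ˢ ball (0 : C2) (r / 4)) :=
    hg.hol.comp (f := fun y : C3 × C2 => (y.1 + ee i, y.2)) (by fun_prop)
      fun y hy => ⟨hy.1.2, hsub hy.2⟩
  obtain ⟨c, hc, hc'⟩ := solve hO (g := g) (r := r) (η := 2 * η)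
    (b := fun y => g (y.1 + ee i, y.2) + E i (LL l y.1 + (y.2 + g (y.1 + ee i, y.2))))
    (by linarith) (by linarith) (hg.hol.mono (prod_mono_left fun x hx => hx.1))
    (fun y hy => (hg.bd y ⟨hy.1.1, hy.2⟩).trans (by linarith))
    (hsh.add fun y hy' => by
      obtain ⟨h1, h2⟩ := hy y.1 hy'.1.1 hy'.1.2 y.2 hy'.2
      exact DifferentiableAt.comp_differentiableWithinAt
        (f := fun y : C3 × C2 => LL l y.1 + (y.2 + g (y.1 + ee i, y.2))) y (hF.hol i _ h1 h2).1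
        ((((differentiable_LL l).comp differentiable_fst) y).differentiableWithinAt.add
          (differentiableWithinAt_snd.add (hsh y hy'))))
    (fun y hy' => by
      obtain ⟨h1, h2⟩ := hy y.1 hy'.1.1 hy'.1.2 y.2 hy'.2
      refine (norm_add_le _ _).trans ?_
      linarith [(hF.hol i _ h1 h2).2, hg.bd (y.1 + ee i, y.2) ⟨hy'.1.2, hsub hy'.2⟩])
  refine ⟨c, hc, fun x hx hx' s hs => ?_⟩
  obtain ⟨h1, h2⟩ := hc' (x, s) ⟨⟨hx, hx'⟩, hs⟩
  obtain ⟨h3, h4⟩ := hy x hx hx' s hs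
  refine ⟨by linarith, ?_⟩
  rw [LL_add, add_right_comm, hF.rel i _ h3 h4, add_assoc s (c (x, s)), h2]
  simp only [add_assoc]

theorem step (hP : StPer1) (hd : 0 < d) (hd' : d < 1 / 2) (hh : 0 < h)
    (hsafe : ∀ x ∈ Box d h, ∀ t : C2, ‖t‖ < R → LL l x + t ∈ C) (hρ : 2 * R ≤ ρ) (i : Fin 3)
    (hr : 0 < r) (hrR : 2 * r ≤ R) {ε : ℝ} (hε : 0 < ε) :
    ∃ η > (0 : ℝ), ∀ (X : Type) (p : C2 → X) (E : Fin 3 → C2 → C2) (J : C2 → ℂ)
      (g : C3 × C2 → C2), Flat l C ρ η p E J → St l p d h r η i g →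
      ∃ g', St l p d h (r / 8) ε (i + 1) g' := by
  obtain ⟨η₁, hη₁, H⟩ := hP d h (r / 4) (min (ε / 2) (r / 8)) hd hd' hh (by positivity)
    (by positivity)
  refine ⟨min (min (η₁ / 4) (r / 32)) (ε / 2), by positivity, fun X p E J g hF hg => ?_⟩
  set η := min (min (η₁ / 4) (r / 32)) (ε / 2) with hη
  have b0 : 0 < η := by positivity
  have b1 : η ≤ η₁ / 4 := (min_le_left _ _).trans (min_le_left _ _)
  have b2 : η ≤ r / 32 := (min_le_left _ _).trans (min_le_right _ _)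
  have b3 : η ≤ ε / 2 := min_le_right _ _
  obtain ⟨c, hc, hc'⟩ := hg.trans hF hsafe b0 (by linarith) hrR i
  obtain ⟨α, ha1, ha2, ha3, ha4⟩ := H C3 (Box d h) (fun y => c (update y.2.1 i y.1, y.2.2))
    isOpen_box
    (hc.comp (f := fun y : ℂ × C3 × C2 => (update y.2.1 i y.1, y.2.2))
      (Differentiable.differentiableOn (Differentiable.prodMk (differentiable_pi.2 fun j => by
        simp only [update_apply]
        split_ifs <;> fun_prop) (by fun_prop)))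
      fun y hy => ⟨upd_mem hy.2.1 i hy.1, hy.2.2⟩)
    (fun y hy => ((hc' _ (upd_mem hy.2.1 i hy.1).1 (upd_mem hy.2.1 i hy.1).2 _ hy.2.2).1).trans
      (by linarith))
  rw [show r / 4 / 2 = r / 8 by ring] at ha1 ha2 ha3 ha4
  have hbd : ∀ x ∈ Box d h, ∀ s ∈ ball (0 : C2) (r / 8), ‖α (x i, x, s)‖ ≤ ε / 2 ∧
      s + α (x i, x, s) ∈ ball (0 : C2) (r / 4) := fun x hx s hs => by
    have h1 := ha2 (x i, x, s) ⟨hx i, hx, hs⟩
    refine ⟨h1.trans (min_le_left _ _), mem_ball_zero_iff.2 ?_⟩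
    linarith [norm_add_le s (α (x i, x, s)), mem_ball_zero_iff.1 hs,
      min_le_right (ε / 2) (r / 8)]
  have hsub : ball (0 : C2) (r / 4) ⊆ ball 0 r := ball_subset_ball (by linarith)
  have hal : DifferentiableOn ℂ (fun y : C3 × C2 => α (y.1 i, y.1, y.2))
      (Box d h ×ˢ ball (0 : C2) (r / 8)) :=
    ha1.comp (f := fun y : C3 × C2 => (y.1 i, y.1, y.2)) (by fun_prop)
      fun y hy => ⟨hy.1 i, hy.1, hy.2⟩
  refine ⟨fun y => α (y.1 i, y.1, y.2) + g (y.1, y.2 + α (y.1 i, y.1, y.2)),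
    hal.add (hg.hol.comp (f := fun y : C3 × C2 => (y.1, y.2 + α (y.1 i, y.1, y.2)))
      (differentiableOn_fst.prodMk (differentiableOn_snd.add hal))
      fun y hy => ⟨hy.1, hsub (hbd _ hy.1 _ hy.2).2⟩), fun y hy => ?_, fun j hj x hx hx' s hs => ?_⟩
  · refine (norm_add_le _ _).trans ?_
    linarith [(hbd _ hy.1 _ hy.2).1,
      hg.bd (y.1, y.2 + α (y.1 i, y.1, y.2)) ⟨hy.1, hsub (hbd _ hy.1 _ hy.2).2⟩]
  · simp only [← add_assoc s]
    by_cases hji : j = i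
    · subst hji
      have e1 : α ((x + ee j) j, x + ee j, s) = α (x j + 1, x, s) := by
        rw [ha4 _ hx' x hx (fun z _ s _ => by simp only [upd_self]) _ (hx' j) s hs]
        simp [ee]
      have e2 := ha3 (x j) (coord_mem hx hx') x hx s hs
      simp only [update_eq_self] at e2
      rw [(hc' x hx hx' _ (hbd _ hx' s hs).2).2, e1, add_assoc s, ← e2]
    · have hj' : (j : ℕ) < i := lt_of_le_of_ne (Nat.lt_succ_iff.1 hj) fun e => hji (Fin.ext e)
      have e1 : α ((x + ee j) i, x + ee j, s) = α (x i, x, s) := by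
        rw [ha4 _ hx' x hx (fun z hz t ht => ?_) _ (hx' i) s hs]
        · simp [ee, Ne.symm hji]
        obtain ⟨m1, m2⟩ := upd_mem hx i hz
        obtain ⟨m3, m4⟩ := upd_mem hx' i hz
        simp only [upd_ne x hji] at m3 m4 ⊢
        obtain ⟨n1, n2⟩ := hc' _ m1 m2 t ht
        obtain ⟨n3, n4⟩ := hc' _ m3 m4 t ht
        have hm : ∀ u : C2, ‖u‖ ≤ 4 * η → t + u ∈ ball (0 : C2) (r / 2) := fun u hu => by
          rw [mem_ball_zero_iff] at ht ⊢
          linarith [norm_add_le t u]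
        refine add_left_cancel (hg.inj hF hsafe hρ hr (by linarith) hrR m1 (hm _ n3) (hm _ n1) ?_)
        rw [← n2, ← hg.per j hj' _ m1 m3 _ (ball_subset_ball (by linarith) (hm _ n3)), ← n4,
          add_right_comm _ (ee j)]
        exact hg.per j hj' _ m2 (by rwa [add_right_comm]) t (hsub ht)
      rw [e1]
      exact hg.per j hj' x hx hx' _ (hsub (hbd x hx s hs).2)

end Pr3

open Pr3

theorem per3 (hP : StPer1) : StPer3 := by
  intro l C ρ hC hl hρ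
  obtain ⟨d, R, hd, hd', hR, hRρ, hsafe⟩ := exists_safe l hC hl hρ
  refine ⟨d, hd, d, hd, fun ε hε => ?_⟩
  obtain ⟨η₃, h₃, H₃⟩ := step hP hd hd' hd hsafe hRρ 2 (r := R / 2 / 8 / 8) (by positivity)
    (by linarith) (ε := min ε (R / 4)) (by positivity)
  obtain ⟨η₂, h₂, H₂⟩ := step hP hd hd' hd hsafe hRρ 1 (r := R / 2 / 8) (by positivity)
    (by linarith) h₃
  obtain ⟨η₁, h₁, H₁⟩ := step hP hd hd' hd hsafe hRρ 0 (r := R / 2) (by positivity)
    (by linarith) h₂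
  refine ⟨min (min η₁ η₂) (min η₃ (R / 4)), by positivity, fun X p E J hF => ?_⟩
  obtain ⟨g₁, hg₁⟩ := H₁ X p E J (fun _ => 0)
    (flat_mono hF ((min_le_left _ _).trans (min_le_left _ _)))
    ⟨differentiableOn_const _, fun _ _ => by simpa using h₁.le, fun i hi => absurd hi (by simp)⟩
  obtain ⟨g₂, hg₂⟩ := H₂ X p E J g₁
    (flat_mono hF ((min_le_left _ _).trans (min_le_right _ _))) hg₁
  obtain ⟨g, hg⟩ := H₃ X p E J g₂
    (flat_mono hF ((min_le_right _ _).trans (min_le_left _ _))) hg₂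
  have h0 : (0 : C2) ∈ ball (0 : C2) (R / 2 / 8 / 8 / 8) := mem_ball_self (by positivity)
  have hb : ∀ x ∈ Box d d, ‖g (x, 0)‖ ≤ ε ∧ ‖g (x, 0)‖ ≤ R / 4 := fun x hx =>
    le_min_iff.1 (hg.bd (x, 0) ⟨hx, h0⟩)
  refine ⟨fun x => g (x, 0), hg.hol.comp (f := fun x : C3 => (x, (0 : C2))) (by fun_prop)
    fun x hx => ⟨hx, h0⟩, fun x hx => ⟨(hb x hx).1, hsafe x hx _ (by linarith [(hb x hx).2])⟩,
    fun i x hx hx' => ?_⟩
  have a1 : LL l x + g (x + ee i, 0) ∈ C := hsafe x hx _ (by linarith [(hb _ hx').2])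
  have a2 : LL l x + g (x + ee i, 0) + l i ∈ C := by
    rw [add_right_comm, ← LL_add]
    exact hsafe _ hx' _ (by linarith [(hb _ hx').2])
  have a3 := (hF.hol i _ a1 a2).2.trans ((min_le_right _ _).trans (min_le_right _ _))
  have a4 : ‖g (x + ee i, 0) + E i (LL l x + g (x + ee i, 0))‖ ≤ R / 2 :=
    (norm_add_le _ _).trans (by linarith [(hb _ hx').2])
  have a5 := hg.per i (by simpa using i.2) x hx hx' 0 h0
  rw [zero_add, zero_add, LL_add, add_right_comm, hF.rel i _ a1 a2] at a5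
  refine ⟨a1, hF.inj _ (hsafe x hx _ (by linarith [(hb x hx).2])) _ ?_ ?_ a5.symm⟩
  · rw [add_assoc]
    exact hsafe x hx _ (by linarith)
  · rw [add_assoc, add_sub_add_left_eq_sub]
    refine (norm_sub_le _ _).trans_lt ?_
    linarith [(hb x hx).2]

end Vale.Agent.P290Z
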