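import Vale.Agent.P290Z.Spec1
import Vale.Agent.P290Z.Runge.Core

/-! The approximation theorem in the form of the specification. -/

open MeasureTheory

namespace Vale.Agent.P290Z

theorem runge : StRunge := by
  intro K hK hc φ hφ hd ε hε
  obtain ⟨p, hp⟩ := runge_dbar hK (fun a ha => by
    obtain ⟨S, h1, h2, h3, h4⟩ := hc a ha
    exact ⟨S, h1, h4, h2, h3⟩) hφ (by
    rw [ae_iff]
    exact measure_mono_null (fun z hz => Classical.not_imp.1 hz) hd) hε
  exact ⟨fun z => p.eval z, p.differentiable, hp⟩

end Vale.Agent.P290Z
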