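import Vale.Agent.P290.R2.H596.All3
import Vale.Agent.P290.H801.Lim
import Vale.Agent.P030.H580.Pompeiu

/-! P290Z, part I: strongly dominable compact surfaces are Oka. Definitions and the statements of
the steps. The paper proof is in `notes/P290_helper97.md`. -/

open Set Filter Metric MeasureTheory
open scoped Topology Manifold ContDiff

namespace Vale.Agent.P290Z

open Vale.Agent.P290

section defs

variable {V X : Type} [NormedAddCommGroup V] [NormedSpace ℂ V]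

/-- `f` is holomorphic at `z` -/
def MD [TopologicalSpace X] [ChartedSpace C2 X] (f : V → X) (z : V) : Prop :=
  MDifferentiableAt 𝓘(ℂ, V) 𝓘(ℂ, C2) f z

/-- `f` is holomorphic near `S` -/
def HN [TopologicalSpace X] [ChartedSpace C2 X] (S : Set V) (f : V → X) : Prop :=
  ∀ᶠ z in 𝓝ˢ S, MD f z

/-- `ψ` is holomorphic on `O`, in the sense of compositions -/
def CompHol [TopologicalSpace X] [ChartedSpace C2 X] (O : Set (V × X)) (ψ : V × X → C2) : Prop :=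
  ∀ (W : Type) [NormedAddCommGroup W] [NormedSpace ℂ W] (a : W → V) (b : W → X) (w : W),
    DifferentiableAt ℂ a w → MD b w → (a w, b w) ∈ O →
      DifferentiableAt ℂ (fun u => ψ (a u, b u)) w

/-- throwing data over `B`, for the points of `O` -/
def Thr [MetricSpace X] [ChartedSpace C2 X] (B : Set V) (O : Set (V × X)) : Prop :=
  IsOpen O ∧ ∃ (S : V × C2 → X) (ψ : V × X → C2),
    HN (B ×ˢ closedBall (0 : C2) 1) S ∧ CompHol O ψ ∧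
    (∀ p ∈ O, ‖ψ p‖ < 1 / 2 ∧ S (p.1, ψ p) = p.2) ∧
    ∀ R ε : ℝ, 0 < ε → ∃ S' : V × C2 → X, HN (B ×ˢ closedBall (0 : C2) R) S' ∧
      ∀ x ∈ B, ∀ t : C2, ‖t‖ ≤ 1 → dist (S' (x, t)) (S (x, t)) < ε

/-- the graph of `g` over `K` can be thrown -/
def PP [MetricSpace X] [ChartedSpace C2 X] (K : Set V) (g : V → X) : Prop :=
  ∃ O : Set (V × X), Thr K O ∧ ∀ x ∈ K, (x, g x) ∈ O

/-- `f` can be approximated on `K` by maps which are holomorphic near `L` -/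
def CC [MetricSpace X] [ChartedSpace C2 X] (K L : Set V) (f : V → X) : Prop :=
  ∀ ε > (0 : ℝ), ∃ F : V → X, HN L F ∧ ∀ x ∈ K, dist (F x) (f x) < ε

/-- the points with a local chart which can be approximated by maps from arbitrarily large balls -/
def Om (X : Type) [TopologicalSpace X] [ChartedSpace C2 X] : Set X :=
  {y | ∃ S : C2 → X, HN (closedBall (0 : C2) 1) S ∧ All.Etale S 0 ∧ S 0 = y ∧
    ∀ (R : ℝ) (𝒪 : Set (C2 × X)), (∀ t ∈ closedBall (0 : C2) 1, 𝒪 ∈ 𝓝 (t, S t)) →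
      ∃ S' : C2 → X, HN (closedBall (0 : C2) R) S' ∧
        ∀ t ∈ closedBall (0 : C2) 1, (t, S' t) ∈ 𝒪}

/-- polydiscs -/
def PD {k : ℕ} (ρ : Fin k → ℝ) : Set (Fin k → ℂ) := {w | ∀ i, ‖w i‖ ≤ ρ i}

end defs

/-- R: Runge approximation -/
def StRunge : Prop :=
  ∀ K : Set ℂ, IsCompact K →
    (∀ a ∉ K, ∃ S : Set ℂ, IsPreconnected S ∧ a ∈ S ∧ Disjoint S K ∧ ¬ Bornology.IsBounded S) →
    ∀ φ : ℂ → ℂ, ContDiff ℝ 1 φ → volume {z ∈ K | P030.H580.dbar φ z ≠ 0} = 0 →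
    ∀ ε > (0 : ℝ), ∃ p : ℂ → ℂ, Differentiable ℂ p ∧ ∀ z ∈ K, ‖p z - φ z‖ < ε

/-- PL: the planar lemma -/
def StPL : Prop :=
  ∀ P : Set ℂ, IsCompact P → Convex ℝ P → P ∈ 𝓝 (0 : ℂ) → ∀ M η ε : ℝ, 0 < η → 0 < ε →
    ∃ (κ h : ℂ → ℂ) (n : ℕ) (c : Fin n → ℂ) (A : Fin n → Set ℂ),
      Differentiable ℂ κ ∧ Differentiable ℂ h ∧
      (∀ z ∈ P, ‖κ z - 1‖ < ε ∧ ‖h z - 1‖ < ε) ∧
      (∀ z : ℂ, ‖z‖ ≤ M → -1 ≤ (h z).re →
        ∃ s : ℝ, 0 ≤ s ∧ s ≤ 1 ∧ ‖κ z - s‖ < η ∧ (s : ℂ) * z ∈ P) ∧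
      (∀ z : ℂ, ‖z‖ ≤ M → (h z).re ≤ -1 / 2 → ∃ j, z ∈ interior (A j)) ∧
      (∀ j, c j ∈ frontier P ∧ IsCompact (A j)) ∧ Pairwise (fun i j => Disjoint (A i) (A j)) ∧
      (∀ j, ∀ z ∈ A j, z ≠ 0 ∧ ∃ s : ℝ, 0 ≤ s ∧ s ≤ 1 ∧ ‖c j / z - s‖ < η) ∧
      ∀ j, ∀ z ∈ A j, ‖z‖ ≤ M → -1 ≤ (h z).re → ‖κ z - c j / z‖ < η

/-- T2: folding a large bidisc into a small one -/
def StT2 : Prop :=
  ∀ r R ε : ℝ, 0 < r → 0 < ε → ∃ (β : C2 → C2) (h : C2 → ℂ),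
    Differentiable ℂ β ∧ Differentiable ℂ h ∧
    (∀ t : C2, ‖t‖ ≤ r / 2 → ‖β t - t‖ < ε ∧ ‖h t - 1‖ < ε) ∧
    ∀ t : C2, ‖t‖ ≤ R → -1 ≤ (h t).re → ‖β t‖ ≤ 9 / 10 * r

/-- EXT: extension from the graph of an entire function -/
def StExt : Prop :=
  ∀ (V : Type) [NormedAddCommGroup V] [NormedSpace ℂ V] [FiniteDimensional ℂ V]
    (L : Set V) (Θ : Set ℂ), Good L → Good Θ → ∀ h : V → ℂ, Differentiable ℂ h →
    ∀ U : Set V, IsOpen U → (∀ x ∈ L, h x ∈ Θ → x ∈ U) → ∀ f : V → ℂ, DifferentiableOn ℂ f U →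
    ∃ F : V × ℂ → ℂ, HolNear (L ×ˢ Θ) F ∧ ∀ x ∈ U, F (x, h x) = f x

/-- BEXT: extension with bounds -/
def StBExt : Prop :=
  ∀ (V : Type) [NormedAddCommGroup V] [NormedSpace ℂ V] [FiniteDimensional ℂ V]
    (L : Set V) (Θ : Set ℂ), Good L → Good Θ → ∀ h : V → ℂ, Differentiable ℂ h →
    ∀ U : Set V, IsOpen U → (∀ x ∈ L, h x ∈ Θ → x ∈ U) →
    ∃ C > (0 : ℝ), ∀ f : V → ℂ, DifferentiableOn ℂ f U → ∀ δ : ℝ, (∀ x ∈ U, ‖f x‖ ≤ δ) →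
      0 ≤ δ → ∃ F : V × ℂ → ℂ, DifferentiableOn ℂ F (interior (L ×ˢ Θ)) ∧
        (∀ y ∈ interior (L ×ˢ Θ), ‖F y‖ ≤ C * δ) ∧
        ∀ x : V, (x, h x) ∈ interior (L ×ˢ Θ) → F (x, h x) = f x

/-- APPROX: approximation on a zone -/
def StApprox : Prop :=
  ∀ (V : Type) [NormedAddCommGroup V] [NormedSpace ℂ V] [FiniteDimensional ℂ V]
    (L : Set V), Good L → ∀ h : V → ℂ, Differentiable ℂ h → ∀ (a b : ℝ) (f : V → C2),
    HolNear (L ∩ {x | a ≤ (h x).re ∧ (h x).re ≤ b}) f → ∀ ε > (0 : ℝ),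
    ∃ p : V → C2, Differentiable ℂ p ∧
      ∀ x ∈ L, a ≤ (h x).re → (h x).re ≤ b → ‖p x - f x‖ < ε

/-- GLUE: nonlinear splitting along a function -/
def StGlue : Prop :=
  ∀ (V : Type) [NormedAddCommGroup V] [NormedSpace ℂ V] [FiniteDimensional ℂ V]
    (L : Set V), Good L → ∀ h : V → ℂ, Differentiable ℂ h → ∀ (a b : ℝ), a ≤ b →
    ∀ W : Set V, IsOpen W → L ∩ {x | a ≤ (h x).re ∧ (h x).re ≤ b} ⊆ W →
    ∀ r > (0 : ℝ), ∀ ε > (0 : ℝ), ∃ δ > (0 : ℝ), ∀ e : V × C2 → C2,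
      DifferentiableOn ℂ e (W ×ˢ ball (0 : C2) r) → (∀ y ∈ W ×ˢ ball (0 : C2) r, ‖e y‖ ≤ δ) →
      ∃ α τ : V → C2, HolNear (L ∩ {x | a ≤ (h x).re}) α ∧ HolNear (L ∩ {x | (h x).re ≤ b}) τ ∧
        (∀ x ∈ L, a ≤ (h x).re → ‖α x‖ < ε) ∧ (∀ x ∈ L, (h x).re ≤ b → ‖τ x‖ < ε) ∧
        ∀ᶠ x in 𝓝ˢ (L ∩ {x | a ≤ (h x).re ∧ (h x).re ≤ b}), α x - τ x = e (x, τ x)

/-- INV: the inverse of an etale spray -/
def StInv : Prop :=
  ∀ (V X : Type) [NormedAddCommGroup V] [NormedSpace ℂ V] [FiniteDimensional ℂ V]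
    [MetricSpace X] [ChartedSpace C2 X] [IsManifold 𝓘(ℂ, C2) ω X]
    (Z : Set V), IsCompact Z → ∀ G : V × C2 → X, HN (Z ×ˢ {(0 : C2)}) G →
    (∀ x ∈ Z, All.Etale (fun s => G (x, s)) 0) → ∀ ρ₀ > (0 : ℝ),
    ∃ ρ > (0 : ℝ), ρ ≤ ρ₀ ∧ ∃ (U : Set V) (M : Set (V × X)) (ψ : V × X → C2),
      IsOpen U ∧ Z ⊆ U ∧ IsOpen M ∧ CompHol M ψ ∧ ContinuousOn ψ M ∧
      (∀ x ∈ U, ∀ s : C2, ‖s‖ < ρ → MD G (x, s) ∧ All.Etale (fun s => G (x, s)) s ∧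
        (x, G (x, s)) ∈ M ∧ ψ (x, G (x, s)) = s) ∧
      ∀ p ∈ M, p.1 ∈ U ∧ ‖ψ p‖ < ρ ∧ G (p.1, ψ p) = p.2

/-- SPR: etale sprays over compact convex sets -/
def StSpr : Prop :=
  ∀ (V X : Type) [NormedAddCommGroup V] [NormedSpace ℂ V] [FiniteDimensional ℂ V]
    [MetricSpace X] [ChartedSpace C2 X] [IsManifold 𝓘(ℂ, C2) ω X]
    (K : Set V), Good K → ∀ g : V → X, HN K g →
    ∃ F : V × C2 → X, HN (K ×ˢ {(0 : C2)}) F ∧ (∀ᶠ x in 𝓝ˢ K, F (x, 0) = g x) ∧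
      ∀ x ∈ K, All.Etale (fun s => F (x, s)) 0

/-- THROW -/
def StThrow : Prop :=
  ∀ (V X : Type) [NormedAddCommGroup V] [NormedSpace ℂ V] [FiniteDimensional ℂ V]
    [MetricSpace X] [ChartedSpace C2 X] [IsManifold 𝓘(ℂ, C2) ω X]
    (L : Set V), Good L → ∀ h : V → ℂ, Differentiable ℂ h → ∀ (G : V × C2 → X) (B : Set V)
    (O : Set (V × X)), HN ((L ∩ {x | -1 ≤ (h x).re}) ×ˢ {(0 : C2)}) G →
    (∀ x ∈ L, -1 ≤ (h x).re → (h x).re ≤ -1 / 2 →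
      All.Etale (fun s => G (x, s)) 0 ∧ (x, G (x, 0)) ∈ O) →
    L ∩ {x | (h x).re ≤ -1 / 2} ⊆ interior B → Thr B O →
    CC (L ∩ {x | -1 ≤ (h x).re}) L (fun x => G (x, 0))

/-- CALC 1: restriction, pull back and disjoint unions of throwing data -/
def StCalc : Prop :=
  ∀ (X : Type) [MetricSpace X] [ChartedSpace C2 X] [IsManifold 𝓘(ℂ, C2) ω X],
    (∀ (V : Type) [NormedAddCommGroup V] [NormedSpace ℂ V] (B B₁ : Set V) (O O₁ : Set (V × X)),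
      Thr B O → B₁ ⊆ B → IsOpen O₁ → O₁ ⊆ O → Thr B₁ O₁) ∧
    (∀ (V V₁ : Type) [NormedAddCommGroup V] [NormedSpace ℂ V] [NormedAddCommGroup V₁]
      [NormedSpace ℂ V₁] (B : Set V) (O : Set (V × X)) (π : V₁ → V) (U₁ B₁ : Set V₁),
      Thr B O → IsOpen U₁ → DifferentiableOn ℂ π U₁ → B₁ ⊆ U₁ → MapsTo π B₁ B →
      Thr B₁ {p : V₁ × X | p.1 ∈ U₁ ∧ (π p.1, p.2) ∈ O}) ∧
    ∀ (V : Type) [NormedAddCommGroup V] [NormedSpace ℂ V] (J : Type) (U B : J → Set V)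
      (O : J → Set (V × X)), (∀ j, IsOpen (U j)) → Pairwise (fun i j => Disjoint (U i) (U j)) →
      (∀ j, B j ⊆ U j) → (∀ j, ∀ p ∈ O j, p.1 ∈ U j) → (∀ j, Thr (B j) (O j)) →
      Nonempty X → Thr (⋃ j, B j) (⋃ j, O j)

/-- CALC 2: throwing data from long approximants; the set `Om` -/
def StLong : Prop :=
  ∀ (X : Type) [MetricSpace X] [ChartedSpace C2 X] [IsManifold 𝓘(ℂ, C2) ω X],
    (∀ (V : Type) [NormedAddCommGroup V] [NormedSpace ℂ V] [FiniteDimensional ℂ V] (K : Set V)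
      (F : V × C2 → X) (r : ℝ), IsCompact K → 0 < r → HN (K ×ˢ closedBall (0 : C2) r) F →
      (∀ x ∈ K, All.Etale (fun s => F (x, s)) 0) →
      (∀ R : ℝ, CC (K ×ˢ closedBall (0 : C2) r) (K ×ˢ closedBall (0 : C2) R) F) →
      PP K (fun x => F (x, 0))) ∧
    (∀ y ∈ Om X, ∃ N : Set X, IsOpen N ∧ y ∈ N ∧
      ∀ (V : Type) [NormedAddCommGroup V] [NormedSpace ℂ V] (B : Set V), Thr B (univ ×ˢ N)) ∧
    (∀ (V : Type) [NormedAddCommGroup V] [NormedSpace ℂ V] (B : Set V) (O : Set (V × X)),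
      Thr B O → ∀ p ∈ O, p.1 ∈ B → p.2 ∈ Om X) ∧
    ∀ (S : C2 → X) (r : ℝ), 0 < r → HN (closedBall (0 : C2) r) S → All.Etale S 0 →
      (∀ R : ℝ, CC (closedBall (0 : C2) r) (closedBall (0 : C2) R) S) → S 0 ∈ Om X

/-- ENL: removing one constraint -/
def StEnl : Prop :=
  ∀ (V X : Type) [NormedAddCommGroup V] [NormedSpace ℂ V] [FiniteDimensional ℂ V]
    [MetricSpace X] [ChartedSpace C2 X] [IsManifold 𝓘(ℂ, C2) ω X]
    (L : Set (ℂ × V)), Good L → (0 : ℂ × V) ∈ L →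
    ∀ P : Set ℂ, IsCompact P → Convex ℝ P → P ∈ 𝓝 (0 : ℂ) → ∀ f : ℂ × V → X,
    HN (L ∩ {x | x.1 ∈ P}) f →
    (∀ c ∈ frontier P, ∃ F : Set V, IsCompact F ∧ {y | (c, y) ∈ L} ⊆ interior F ∧
      PP F (fun y => f (c, y))) →
    CC (L ∩ {x | x.1 ∈ P}) L f

/-- PSTEP: one more disc -/
def StPstep : Prop :=
  ∀ (V X : Type) [NormedAddCommGroup V] [NormedSpace ℂ V] [FiniteDimensional ℂ V]
    [MetricSpace X] [ChartedSpace C2 X] [IsManifold 𝓘(ℂ, C2) ω X]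
    (K : Set V), Good K → (0 : V) ∈ K → ∀ g : ℂ × V → X,
    HN (closedBall (0 : ℂ) 1 ×ˢ K) g →
    (∀ c : ℂ, ‖c‖ = 1 → ∃ F : Set V, IsCompact F ∧ K ⊆ interior F ∧ PP F (fun y => g (c, y))) →
    PP (closedBall (0 : ℂ) 1 ×ˢ K) g

/-- the disc property -/
def StDisc : Prop :=
  ∀ (X : Type) [TopologicalSpace X] [T2Space X] [CompactSpace X] [ChartedSpace C2 X]
    [IsManifold 𝓘(ℂ, C2) ω X] (g : ℂ → X), HN (closedBall (0 : ℂ) 1) g →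
    (∀ c : ℂ, ‖c‖ = 1 → g c ∈ Om X) → ∀ c : ℂ, ‖c‖ ≤ 1 → g c ∈ Om X

/-- approximation on polydiscs -/
def PolyCC (X : Type) [MetricSpace X] [ChartedSpace C2 X] : Prop :=
  ∀ (k : ℕ) (ρ : Fin k → ℝ), (∀ i, 0 < ρ i) → ∀ f : (Fin k → ℂ) → X, HN (PD ρ) f →
    ∀ L : Set (Fin k → ℂ), IsCompact L → CC (PD ρ) L f

/-- POLY -/
def StPoly : Prop :=
  ∀ (X : Type) [MetricSpace X] [ChartedSpace C2 X] [IsManifold 𝓘(ℂ, C2) ω X],
    Om X = univ → PolyCC X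

/-- CONV: from polydiscs to compact convex sets -/
def StConv : Prop :=
  ∀ (X : Type) [MetricSpace X] [ChartedSpace C2 X] [IsManifold 𝓘(ℂ, C2) ω X], PolyCC X →
    ∀ (V : Type) [NormedAddCommGroup V] [NormedSpace ℂ V] [FiniteDimensional ℂ V] (K : Set V),
    Good K → ∀ f : V → X, HN K f → ∀ L : Set V, IsCompact L → CC K L f

/-- Theorem B -/
def StB : Prop :=
  ∀ (X : Type) [TopologicalSpace X] [T2Space X] [CompactSpace X] [ChartedSpace C2 X]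
    [IsManifold 𝓘(ℂ, C2) ω X], Om X = univ → All.IsOka X

end Vale.Agent.P290Z
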